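import Mathlib

set_option autoImplicit false

namespace Crest.Agent.R174
open Equiv

section Cost
variable {M : Type*} [Group M] {Φ : M → ℝ}

/-- `u` lowers the phase by at most `c` -/
def Cost (Φ : M → ℝ) (c : ℝ) (u : M) : Prop := ∀ v, Φ v - c ≤ Φ (v * u)

lemma Cost.mul {c c' : ℝ} {u u' : M} (h : Cost Φ c u) (h' : Cost Φ c' u') :
    Cost Φ (c + c') (u * u') := fun v => by
  have h1 := h v
  have h2 := h' (v * u)
  rw [← mul_assoc]; linarith

lemma Cost.one : Cost Φ 0 (1 : M) := fun v => by simp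

lemma Cost.mono {c c' : ℝ} {u : M} (h : Cost Φ c u) (hc : c ≤ c') : Cost Φ c' u := fun v => by
  have := h v; linarith

lemma Cost.conj (hΦ : ∀ u v, Φ (v * u * v⁻¹) = Φ u) {c : ℝ} {u : M} (h : Cost Φ c u) (g : M) :
    Cost Φ c (g * u * g⁻¹) := fun v => by
  have h1 := h (g⁻¹ * v * g)
  have h2 := hΦ v g⁻¹
  have h3 := hΦ (g⁻¹ * v * g * u) g
  rw [inv_inv] at h2
  rw [show g * (g⁻¹ * v * g * u) * g⁻¹ = v * (g * u * g⁻¹) by group] at h3
  linarith

/-- `u` and `v` differ by an element of (two-sided) cost `c` -/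
def Rel (Φ : M → ℝ) (c : ℝ) (u v : M) : Prop := Cost Φ c (u * v⁻¹) ∧ Cost Φ c (v * u⁻¹)

lemma Rel.refl (u : M) : Rel Φ 0 u u := by simp [Rel, Cost.one]

lemma Rel.trans {c c' : ℝ} {u v w : M} (h : Rel Φ c u v) (h' : Rel Φ c' v w) :
    Rel Φ (c + c') u w := by
  constructor
  · have := h.1.mul h'.1
    rwa [show u * v⁻¹ * (v * w⁻¹) = u * w⁻¹ by group] at this
  · have := h'.2.mul h.2
    rwa [show w * v⁻¹ * (v * u⁻¹) = w * u⁻¹ by group, add_comm] at this

lemma Rel.mul_right {c : ℝ} {u v : M} (h : Rel Φ c u v) (w : M) : Rel Φ c (u * w) (v * w) := by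
  unfold Rel
  rw [show u * w * (v * w)⁻¹ = u * v⁻¹ by group, show v * w * (u * w)⁻¹ = v * u⁻¹ by group]
  exact h

lemma Rel.mul_left (hΦ : ∀ u v, Φ (v * u * v⁻¹) = Φ u) {c : ℝ} {u v : M} (h : Rel Φ c u v)
    (w : M) : Rel Φ c (w * u) (w * v) := by
  unfold Rel
  rw [show w * u * (w * v)⁻¹ = w * (u * v⁻¹) * w⁻¹ by group,
    show w * v * (w * u)⁻¹ = w * (v * u⁻¹) * w⁻¹ by group]
  exact ⟨h.1.conj hΦ w, h.2.conj hΦ w⟩

lemma Rel.mul (hΦ : ∀ u v, Φ (v * u * v⁻¹) = Φ u) {c c' : ℝ} {u v u' v' : M} (h : Rel Φ c u v)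
    (h' : Rel Φ c' u' v') : Rel Φ (c + c') (u * u') (v * v') :=
  (h.mul_right u').trans (h'.mul_left hΦ v)

lemma Rel.of_eq {c c' : ℝ} {u v u' v' : M} (h : Rel Φ c u v) (hc : c' = c) (hu : u' = u)
    (hv : v' = v) : Rel Φ c' u' v' := by rw [hc, hu, hv]; exact h

end Cost

section Cyc
variable {I : Type*} [DecidableEq I]

/-- the cycle `(o l₁ … l_k)` -/
def cyc (o : I) : List I → Perm I
  | [] => 1
  | p :: l => cyc o l * swap o p

lemma cyc_append (o : I) (l₁ l₂ : List I) : cyc o (l₁ ++ l₂) = cyc o l₂ * cyc o l₁ := by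
  induction l₁ with
  | nil => simp [cyc]
  | cons p l ih => simp [cyc, ih, mul_assoc]

lemma cyc_fix {o x : I} {l : List I} (h : x ≠ o) (hx : x ∉ l) : cyc o l x = x := by
  induction l with
  | nil => simp [cyc]
  | cons p l ih =>
    simp only [List.mem_cons, not_or] at hx
    simp [cyc, swap_apply_of_ne_of_ne h hx.1, ih hx.2]

lemma swap_mul_cyc {o q : I} {l : List I} (ho : o ∉ l) (hq : q ∉ l) :
    swap o q * cyc o l = cyc q l * swap o q := by
  induction l with
  | nil => simp [cyc]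
  | cons p l ih =>
    simp only [List.mem_cons, not_or] at ho hq
    rw [cyc, cyc, ← mul_assoc, ih ho.2 hq.2, mul_assoc, mul_assoc]
    congr 1
    rw [mul_swap_eq_swap_mul, swap_apply_left, swap_apply_of_ne_of_ne (Ne.symm ho.1) (Ne.symm hq.1)]

lemma cyc_reverse (o : I) (l : List I) : cyc o l.reverse = (cyc o l)⁻¹ := by
  induction l with
  | nil => simp [cyc]
  | cons p l ih => simp [cyc, cyc_append, ih]

lemma cyc_pair {o p q : I} {l : List I} (ho : o ∉ l) (hq : q ∉ l) (hop : o ≠ p) (hoq : o ≠ q)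
    (hpq : p ≠ q) : swap o q * cyc o l * swap o p * swap p q = cyc q l * swap o p := by
  rw [swap_mul_cyc ho hq, mul_assoc, mul_assoc]
  congr 1
  ext x
  simp only [Perm.mul_apply, swap_apply_def]
  split_ifs <;> simp_all

lemma cyc_map {J : Type*} [DecidableEq J] (F : Perm J →* Perm I) (f : J → I)
    (hF : ∀ a b, F (swap a b) = swap (f a) (f b)) (o : J) (l : List J) :
    cyc (f o) (l.map f) = F (cyc o l) := by
  induction l with
  | nil => simp [cyc]
  | cons p l ih => simp [cyc, ih, hF]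

lemma comp_eq_self {H : Type*} [One H] {δ : I → H} {σ : Perm I} {l : List I}
    (hδ : ∀ x, x ∉ l → δ x = 1) (hσ : ∀ x ∈ l, σ x = x) : δ ∘ σ = δ := by
  funext x
  by_cases hx : x ∈ l
  · simp [hσ x hx]
  · have : σ x ∉ l := fun h => hx (by have := σ.injective (hσ _ h); rwa [← this])
    simp [hδ _ hx, hδ _ this]

end Cyc

section Red
variable {G T : Type*} [Group G]

/-- inverse letter -/
def linv : G ⊕ (T × Bool) → G ⊕ (T × Bool)
  | .inl g => .inl g⁻¹
  | .inr (j, b) => .inr (j, !b)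

/-- group label of a letter -/
def gl : G ⊕ (T × Bool) → G
  | .inl g => g⁻¹
  | .inr _ => 1

/-- weight of a letter -/
noncomputable def wt : G ⊕ (T × Bool) → ℝ
  | .inl _ => Real.pi
  | .inr _ => Real.pi / 2

variable {I : Type*}

/-- words reducing to an element of `G` -/
inductive Red (lab : I → G ⊕ (T × Bool)) : List I → G → Prop
  | nil : Red lab [] 1
  | consG {p : I} {l : List I} {g h : G} : lab p = .inl h → Red lab l g → Red lab (p :: l) (h * g)
  | pair {p q : I} {l₁ l₂ : List I} {g : G} {j : T} {b : Bool} : lab p = .inr (j, b) →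
      lab q = .inr (j, !b) → Red lab l₁ 1 → Red lab l₂ g → Red lab (p :: (l₁ ++ q :: l₂)) g

variable [DecidableEq I] {M : Type*} [Group M] {Φ : M → ℝ}

theorem red_cost (hΦ : ∀ u v, Φ (v * u * v⁻¹) = Φ u) (Pm : Perm I →* M)
    (Dg : (I → Circle × G) →* M) (hPD : ∀ σ δ, Dg δ * Pm σ = Pm σ * Dg (δ ∘ σ))
    (hsw : ∀ x y, x ≠ y → Cost Φ Real.pi (Pm (swap x y)))
    (lab : I → G ⊕ (T × Bool)) (z : Circle) {l : List I} {g : G} (hR : Red lab l g)
    (hn : l.Nodup) :
    ∃ (π : Perm I) (β : I → Circle), (∀ x, π (π x) = x) ∧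
      (∀ x, (x ∉ l ∨ (lab x).isLeft) → π x = x ∧ β x = 1) ∧
      (∀ x ∈ l, (lab x).isRight → lab (π x) = linv (lab x)) ∧ (∀ x, β (π x) * β x = 1) ∧
      ∀ o, o ∉ l → Rel Φ (l.map fun x => wt (lab x)).sum
        (Pm (cyc o l) * Pm π * Dg (fun x => if x ∈ l then (z * β x, gl (lab x)) else 1))
        (Dg (Pi.mulSingle o (z ^ l.length, g⁻¹))) := by
  have hstep : ∀ (o p : I) (a b : Circle × G), o ≠ p →
      Rel Φ Real.pi (Dg (Pi.mulSingle o a) * (Pm (swap o p) * Dg (Pi.mulSingle p b)))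
        (Dg (Pi.mulSingle o (a * b))) := by
    intro o p a b hop
    have e1 : Pm (swap o p) * Dg (Pi.mulSingle p b) = Dg (Pi.mulSingle o b) * Pm (swap o p) := by
      rw [hPD]
      congr 2
      funext x
      simp only [Function.comp, Pi.mulSingle_apply, swap_apply_def]
      split_ifs <;> simp_all
    rw [e1, ← mul_assoc, ← map_mul, ← Pi.mulSingle_mul]
    have h1 := (hsw o p hop).conj hΦ (Dg (Pi.mulSingle o (a * b)))
    refine ⟨h1, ?_⟩
    rw [mul_inv_rev, ← map_inv, swap_inv, ← mul_assoc]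
    exact h1
  induction hR with
  | nil =>
    refine ⟨1, 1, by simp, by simp, by simp, by simp, fun o _ => ?_⟩
    refine (Rel.refl (1 : M)).of_eq (by simp) ?_ ?_
    · simp only [cyc, List.not_mem_nil, if_false, map_one, one_mul]
      exact Dg.map_one
    · simp only [List.length_nil, pow_zero, inv_one]
      rw [show ((1 : Circle), (1 : G)) = 1 from rfl, Pi.mulSingle_one, map_one]
  | @consG p l g h hp _ ih =>
    rw [List.nodup_cons] at hn
    obtain ⟨π, β, h1, h2, h3, h4, h5⟩ := ih hn.2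
    refine ⟨π, β, h1, ?_, ?_, h4, fun o ho => ?_⟩
    · intro x hx
      apply h2
      rcases hx with hx | hx
      · left; exact fun h => hx (List.mem_cons_of_mem _ h)
      · right; exact hx
    · intro x hx hr
      rcases List.mem_cons.1 hx with rfl | hx
      · simp [hp] at hr
      · exact h3 x hx hr
    · simp only [List.mem_cons, not_or] at ho
      have h6 := ((h5 o ho.2).mul_right (Pm (swap o p) * Dg (Pi.mulSingle p (z, h⁻¹)))).trans
        (hstep o p _ _ ho.1)
      refine h6.of_eq (by simp [hp, wt, add_comm]) ?_ (by simp [pow_succ])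
      have hc : swap o p * π = π * swap o p := by
        rw [mul_swap_eq_swap_mul, (h2 o (Or.inl ho.2)).1, (h2 p (Or.inl hn.1)).1]
      rw [cyc, map_mul, mul_assoc (Pm (cyc o l)), ← map_mul, hc, map_mul]
      simp only [mul_assoc]
      congr 2
      rw [← mul_assoc, hPD, mul_assoc, ← map_mul, comp_eq_self (l := l) (by
        intro x hx; simp [hx]) (by
        intro x hx
        exact swap_apply_of_ne_of_ne (fun h => ho.2 (h ▸ hx)) (fun h => hn.1 (h ▸ hx)))]
      congr 2
      funext x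
      by_cases hx : x = p
      · subst hx
        simp [hn.1, (h2 x (Or.inl hn.1)).2, hp, gl]
      · simp [hx]
  | @pair p q l₁ l₂ g j b hp hq _ _ ih₁ ih₂ =>
    simp only [List.nodup_cons, List.nodup_append, List.mem_append, List.mem_cons, not_or] at hn
    obtain ⟨⟨hp1, hpq, hp2⟩, hn1, ⟨hq2, hn2⟩, hd⟩ := hn
    have hq1 : q ∉ l₁ := fun h => hd q h q (Or.inl rfl) rfl
    have h12 : ∀ x ∈ l₁, x ∉ l₂ := fun x h h' => hd x h x (Or.inr h') rfl
    obtain ⟨π₁, β₁, a1, a2, a3, a4, a5⟩ := ih₁ hn1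
    obtain ⟨π₂, β₂, b1, b2, b3, b4, b5⟩ := ih₂ hn2
    have m1 : ∀ x ∈ l₁, π₁ x ∈ l₁ := fun x hx => by
      by_contra h
      have := (a2 _ (Or.inl h)).1
      rw [a1] at this
      exact h (this ▸ hx)
    have m2 : ∀ x ∈ l₂, π₂ x ∈ l₂ := fun x hx => by
      by_contra h
      have := (b2 _ (Or.inl h)).1
      rw [b1] at this
      exact h (this ▸ hx)
    have f1 : ∀ x, x ∉ l₁ → π₁ x = x := fun x hx => (a2 x (Or.inl hx)).1
    have f2 : ∀ x, x ∉ l₂ → π₂ x = x := fun x hx => (b2 x (Or.inl hx)).1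
    have g1 : ∀ x, x ∉ l₁ → β₁ x = 1 := fun x hx => (a2 x (Or.inl hx)).2
    have g2 : ∀ x, x ∉ l₂ → β₂ x = 1 := fun x hx => (b2 x (Or.inl hx)).2
    have n1p : ∀ x ∈ l₁, x ≠ p := fun x hx h => hp1 (h ▸ hx)
    have n1q : ∀ x ∈ l₁, x ≠ q := fun x hx h => hq1 (h ▸ hx)
    have n2p : ∀ x ∈ l₂, x ≠ p := fun x hx h => hp2 (h ▸ hx)
    have n2q : ∀ x ∈ l₂, x ≠ q := fun x hx h => hq2 (h ▸ hx)
    have ev : ∀ x, (swap p q * π₁ * π₂) x =
        if x = p then q else if x = q then p else if x ∈ l₁ then π₁ x else π₂ x := by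
      intro x
      simp only [Perm.mul_apply]
      split_ifs with c1 c2 c3
      · subst c1; rw [f2 _ hp2, f1 _ hp1, swap_apply_left]
      · subst c2; rw [f2 _ hq2, f1 _ hq1, swap_apply_right]
      · rw [f2 _ (h12 x c3)]
        exact swap_apply_of_ne_of_ne (n1p _ (m1 x c3)) (n1q _ (m1 x c3))
      · by_cases c4 : x ∈ l₂
        · rw [f1 _ (fun h => h12 _ h (m2 x c4))]
          exact swap_apply_of_ne_of_ne (n2p _ (m2 x c4)) (n2q _ (m2 x c4))
        · rw [f2 _ c4, f1 _ c3]; exact swap_apply_of_ne_of_ne c1 c2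
    set β₀ := z * z ^ l₁.length with hβ₀
    refine ⟨swap p q * π₁ * π₂, fun x => if x = p then β₀ else if x = q then β₀⁻¹ else
      if x ∈ l₁ then β₁ x else β₂ x, ?_, ?_, ?_, ?_, fun o ho => ?_⟩
    · intro x
      rw [ev x]
      split_ifs with c1 c2 c3
      · rw [ev, if_neg (Ne.symm hpq), if_pos rfl, c1]
      · rw [ev, if_pos rfl, c2]
      · rw [ev, if_neg (n1p _ (m1 x c3)), if_neg (n1q _ (m1 x c3)),
          if_pos (m1 x c3), a1]
      · by_cases c4 : x ∈ l₂
        · rw [ev, if_neg (n2p _ (m2 x c4)), if_neg (n2q _ (m2 x c4)),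
            if_neg (fun h => h12 _ h (m2 x c4)), b1]
        · rw [f2 _ c4, ev, if_neg c1, if_neg c2, if_neg c3, f2 _ c4]
    · intro x hx
      have c1 : x ≠ p := by rintro rfl; simp [hp] at hx
      have c2 : x ≠ q := by rintro rfl; simp [hq] at hx
      rw [ev]
      simp only [if_neg c1, if_neg c2]
      split_ifs with c3
      · apply a2
        rcases hx with hx | hx
        · simp [c3] at hx
        · exact Or.inr hx
      · apply b2
        rcases hx with hx | hx
        · left; intro h; simp [h] at hx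
        · exact Or.inr hx
    · intro x hx hr
      rw [ev]
      split_ifs with c1 c2 c3
      · subst c1; simp [hp, hq, linv]
      · subst c2; simp [hp, hq, linv]
      · exact a3 x c3 hr
      · exact b3 x (by simpa [c1, c2, c3] using hx) hr
    · intro x
      rw [ev x]
      by_cases c1 : x = p
      · simp [c1, Ne.symm hpq]
      by_cases c2 : x = q
      · simp [c2, Ne.symm hpq]
      by_cases c3 : x ∈ l₁
      · simp [c1, c2, c3, n1p _ (m1 x c3), n1q _ (m1 x c3), m1 x c3, a4]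
      by_cases c4 : x ∈ l₂
      · have : π₂ x ∉ l₁ := fun h => h12 _ h (m2 x c4)
        simp [c1, c2, c3, n2p _ (m2 x c4), n2q _ (m2 x c4), this, b4]
      · simp [f2 _ c4, c1, c2, c3, g2 _ c4]
    · simp only [List.mem_cons, List.mem_append, not_or] at ho
      obtain ⟨hop, ho1, hoq, ho2⟩ := ho
      have r1 := (a5 q hq1).mul_right (Dg (Pi.mulSingle q (z * β₀⁻¹, 1)))
      rw [← map_mul Dg, ← Pi.mulSingle_mul, show ((z ^ l₁.length, (1 : G)⁻¹) * (z * β₀⁻¹, 1)
        : Circle × G) = 1 by ext <;> simp [hβ₀, mul_comm], Pi.mulSingle_one, map_one] at r1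
      have r2 := (((b5 o ho2).mul hΦ r1).mul_right
        (Pm (swap o p) * Dg (Pi.mulSingle p (z * β₀, 1))))
      rw [mul_one] at r2
      refine (r2.trans (hstep o p _ _ hop)).of_eq ?_ ?_ ?_
      · simp [hp, hq, wt]; ring
      · have c1 : Commute π₂ (cyc q l₁) := Perm.Disjoint.commute fun x => by
          by_cases hx : x ∈ l₂
          · right; exact cyc_fix (fun h => hq2 (h ▸ hx)) (fun h => h12 _ h hx)
          · left; exact f2 x hx
        have c2 : Commute π₂ π₁ := Perm.Disjoint.commute fun x => by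
          by_cases hx : x ∈ l₂
          · right; exact f1 x (fun h => h12 _ h hx)
          · left; exact f2 x hx
        have c3 : π₂ * swap o p = swap o p * π₂ := by
          rw [mul_swap_eq_swap_mul, f2 _ ho2, f2 _ hp2]
        have c4 : π₁ * swap o p = swap o p * π₁ := by
          rw [mul_swap_eq_swap_mul, f1 _ ho1, f1 _ hp1]
        have ep : cyc o (p :: (l₁ ++ q :: l₂)) * (swap p q * π₁ * π₂)
            = cyc o l₂ * π₂ * (cyc q l₁ * π₁ * swap o p) := by
          rw [cyc, cyc_append, cyc]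
          calc _ = cyc o l₂ * (swap o q * cyc o l₁ * swap o p * swap p q) * π₁ * π₂ := by
                simp only [mul_assoc]
            _ = _ := by
                rw [cyc_pair ho1 hq1 hop hoq hpq]
                simp only [mul_assoc]
                congr 1
                rw [← mul_assoc π₂, c1.eq, mul_assoc]
                congr 1
                rw [← mul_assoc π₂, c2.eq, mul_assoc, c3, ← mul_assoc π₁, c4, mul_assoc]
        rw [← map_mul Pm, ep]
        have s1 : ∀ (σ₁ σ₂ σ₃ : Perm I) (δ₁ δ₂ δ₃ δ₄ : I → Circle × G),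
            Pm σ₁ * Dg δ₁ * (Pm σ₂ * Dg δ₂ * Dg δ₃) * (Pm σ₃ * Dg δ₄)
            = Pm (σ₁ * (σ₂ * σ₃)) * Dg (δ₁ ∘ (σ₂ * σ₃ : Perm I) * (δ₂ ∘ σ₃ * (δ₃ ∘ σ₃ * δ₄))) := by
          intro σ₁ σ₂ σ₃ δ₁ δ₂ δ₃ δ₄
          have e1 := hPD (σ₂ * σ₃) δ₁
          have e2 := hPD σ₃ δ₂
          have e3 := hPD σ₃ δ₃
          simp only [map_mul] at e1 ⊢
          calc _ = Pm σ₁ * Dg δ₁ * Pm σ₂ * Dg δ₂ * (Dg δ₃ * Pm σ₃) * Dg δ₄ := by
                simp only [mul_assoc]
            _ = Pm σ₁ * Dg δ₁ * Pm σ₂ * (Dg δ₂ * Pm σ₃) * Dg (δ₃ ∘ σ₃) * Dg δ₄ := by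
                rw [e3]; simp only [mul_assoc]
            _ = Pm σ₁ * (Dg δ₁ * (Pm σ₂ * Pm σ₃)) * Dg (δ₂ ∘ σ₃) * Dg (δ₃ ∘ σ₃) * Dg δ₄ := by
                rw [e2]; simp only [mul_assoc]
            _ = _ := by rw [e1]; simp only [mul_assoc]
        rw [← map_mul Pm, ← map_mul Pm, s1]
        congr 2
        rw [comp_eq_self (l := l₂) (by intro x hx; simp [hx]), comp_eq_self (l := l₁)
          (by intro x hx; simp [hx]), comp_eq_self (l := [q]) (by
            intro x hx
            simp only [List.mem_singleton] at hx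
            simp [hx])]
        · funext x
          by_cases c1 : x = p
          · subst c1; simp [hp1, hp2, hpq, hp, gl]
          by_cases c2 : x = q
          · subst c2; simp [hq1, hq2, Ne.symm hpq, hq, gl]
          by_cases c3 : x ∈ l₁
          · simp [c1, c2, c3, h12 x c3]
          · simp [c1, c2, c3]
        · intro x hx
          simp only [List.mem_singleton] at hx
          subst hx
          exact swap_apply_of_ne_of_ne (Ne.symm hoq) (Ne.symm hpq)
        · intro x hx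
          exact swap_apply_of_ne_of_ne (fun h => ho1 (h ▸ hx)) (fun h => hp1 (h ▸ hx))
        · intro x hx
          simp only [Perm.mul_apply]
          rw [swap_apply_of_ne_of_ne (fun h : x = o => ho2 (h ▸ hx)) (n2p x hx),
            f1 _ (fun h => h12 _ h hx), cyc_fix (n2q x hx) (fun h => h12 _ h hx)]
      · congr 2
        ext
        · simp [hβ₀, pow_succ, pow_add]; ring
        · simp

end Red
end Crest.Agent.R174
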