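import Crest.Agent.R174.Phase
import Crest.Agent.R174.Cyc

set_option autoImplicit false

namespace Crest.Agent.R174
open Equiv Matrix MonoidAlgebra

variable {G : Type*} [Group G]

noncomputable instance starGA : Star (MonoidAlgebra ℂ G) where
  star x := .ofCoeff (Finsupp.equivMapDomain (Equiv.inv G)
    (x.coeff.mapRange (starRingEnd ℂ) (map_zero _)))

lemma coeff_star (x : MonoidAlgebra ℂ G) (g : G) :
    (star x).coeff g = starRingEnd ℂ (x.coeff g⁻¹) := rfl

lemma star_single' (g : G) (c : ℂ) :
    star (single g c : MonoidAlgebra ℂ G) = single g⁻¹ (starRingEnd ℂ c) := by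
  classical
  ext h
  rw [coeff_star]
  simp only [coeff_single, Finsupp.single_apply, ← inv_eq_iff_eq_inv]
  split_ifs <;> simp

lemma star_add' (x y : MonoidAlgebra ℂ G) : star (x + y) = star x + star y := by
  ext h; simp [coeff_star]

lemma star_zero' : star (0 : MonoidAlgebra ℂ G) = 0 := by
  ext h; simp [coeff_star]

noncomputable instance starRingGA : StarRing (MonoidAlgebra ℂ G) where
  star_involutive x := by ext h; simp [coeff_star]
  star_add := star_add'
  star_mul x y := by
    induction x using MonoidAlgebra.induction_linear with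
    | zero => simp [star_zero']
    | add a b ha hb => simp [add_mul, mul_add, star_add', ha, hb]
    | single g c =>
      induction y using MonoidAlgebra.induction_linear with
      | zero => simp [star_zero']
      | add a b ha hb => simp [add_mul, mul_add, star_add', ha, hb]
      | single h d => simp [single_mul_single, star_single', mul_comm]

instance starModuleGA : StarModule ℂ (MonoidAlgebra ℂ G) where
  star_smul c x := by ext h; simp [coeff_star]

/-- the canonical trace -/
noncomputable def tr1 : MonoidAlgebra ℂ G →ₗ[ℂ] ℂ where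
  toFun x := x.coeff 1
  map_add' x y := by simp
  map_smul' c x := by simp

lemma tr1_single [DecidableEq G] (g : G) (c : ℂ) :
    tr1 (single g c : MonoidAlgebra ℂ G) = if g = 1 then c else 0 := by
  change (single g c : MonoidAlgebra ℂ G).coeff 1 = _
  simp [Finsupp.single_apply]

lemma tr1_comm (x y : MonoidAlgebra ℂ G) : tr1 (x * y) = tr1 (y * x) := by
  classical
  induction x using MonoidAlgebra.induction_linear with
  | zero => simp
  | add a b ha hb => simp [add_mul, mul_add, ha, hb]
  | single g c =>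
    induction y using MonoidAlgebra.induction_linear with
    | zero => simp
    | add a b ha hb => simp [add_mul, mul_add, ha, hb]
    | single h d =>
      simp only [single_mul_single, tr1_single, mul_comm c d]
      exact if_congr mul_eq_one_comm rfl rfl

lemma tr1_pos (x : MonoidAlgebra ℂ G) : 0 ≤ (tr1 (star x * x)).re := by
  change 0 ≤ ((star x * x).coeff 1).re
  rw [coeff_mul_apply_right, Finsupp.sum, Complex.re_sum]
  refine Finset.sum_nonneg fun g _ => ?_
  rw [coeff_star, one_mul, inv_inv, Complex.conj_mul']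
  norm_cast
  positivity

variable {I : Type*} [Fintype I] [DecidableEq I]

/-- the trace on matrices -/
noncomputable def tau : Matrix I I (MonoidAlgebra ℂ G) →ₗ[ℂ] ℂ :=
  tr1 ∘ₗ Matrix.traceLinearMap I ℂ (MonoidAlgebra ℂ G)

omit [DecidableEq I] in
lemma tau_apply (X : Matrix I I (MonoidAlgebra ℂ G)) : tau X = ∑ i, tr1 (X i i) := by
  simp [tau, Matrix.trace]

omit [DecidableEq I] in
lemma tau_comm (X Y : Matrix I I (MonoidAlgebra ℂ G)) : tau (X * Y) = tau (Y * X) := by
  simp only [tau_apply, Matrix.mul_apply, map_sum]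
  rw [Finset.sum_comm]
  simp only [tr1_comm (X _ _)]

omit [DecidableEq I] in
lemma tau_pos (X : Matrix I I (MonoidAlgebra ℂ G)) : 0 ≤ (tau (star X * X)).re := by
  simp only [tau_apply, Matrix.mul_apply, map_sum, Complex.re_sum, Matrix.star_apply]
  exact Finset.sum_nonneg fun i _ => Finset.sum_nonneg fun j _ => tr1_pos _

variable (G) in
/-- scalar matrices -/
noncomputable def sc : Matrix I I ℂ →ₐ[ℂ] Matrix I I (MonoidAlgebra ℂ G) :=
  (Algebra.ofId ℂ (MonoidAlgebra ℂ G)).mapMatrix

lemma sc_apply (X : Matrix I I ℂ) (i j : I) : sc G X i j = single 1 (X i j) := rfl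

lemma sc_star (X : Matrix I I ℂ) : sc G (star X) = star (sc G X) := by
  ext1 i j
  rw [Matrix.star_apply, sc_apply, sc_apply, star_single', inv_one]; rfl

lemma tau_sc (X : Matrix I I ℂ) : tau (sc G X) = X.trace := by
  classical
  simp [tau_apply, sc_apply, tr1_single, Matrix.trace]

lemma tau_one : tau (1 : Matrix I I (MonoidAlgebra ℂ G)) = Fintype.card I := by
  rw [← map_one (sc G), tau_sc]; simp

variable (G) in
/-- scalar unitaries -/
noncomputable def scU : unitary (Matrix I I ℂ) →* unitary (Matrix I I (MonoidAlgebra ℂ G)) where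
  toFun u := ⟨sc G u, by
    rw [Unitary.mem_iff, ← sc_star, ← map_mul, ← map_mul]; simp⟩
  map_one' := Subtype.ext (by simp)
  map_mul' a b := Subtype.ext (by simp)

@[simp] lemma coe_scU (u : unitary (Matrix I I ℂ)) :
    (scU G u : Matrix I I (MonoidAlgebra ℂ G)) = sc G u := rfl

/-- permutation matrices -/
def pm (σ : Perm I) : Matrix I I ℂ := Matrix.of fun x y => if x = σ y then 1 else 0

lemma mul_pm (X : Matrix I I ℂ) (σ : Perm I) (x y : I) : (X * pm σ) x y = X x (σ y) := by
  simp [pm, Matrix.mul_apply]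

lemma pm_mul (X : Matrix I I ℂ) (σ : Perm I) (x y : I) : (pm σ * X) x y = X (σ⁻¹ x) y := by
  simp [pm, Matrix.mul_apply, ← Perm.inv_eq_iff_eq]

lemma pm_mul_pm (σ σ' : Perm I) : pm σ * pm σ' = pm (σ * σ') := by
  ext x y; rw [mul_pm]; rfl

omit [Fintype I] in
lemma pm_one : pm (1 : Perm I) = 1 := by
  ext x y; simp only [pm, Matrix.one_apply, Matrix.of_apply]; rfl

omit [Fintype I] in
lemma star_pm (σ : Perm I) : star (pm σ) = pm σ⁻¹ := by
  ext x y
  simp only [pm, Matrix.star_apply, Matrix.of_apply, Perm.eq_inv_iff_eq, eq_comm (a := y)]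
  split_ifs <;> simp

/-- permutation unitaries -/
def pmU : Perm I →* unitary (Matrix I I ℂ) where
  toFun σ := ⟨pm σ, by simp [Unitary.mem_iff, star_pm, pm_mul_pm, pm_one]⟩
  map_one' := Subtype.ext pm_one
  map_mul' a b := Subtype.ext (pm_mul_pm a b).symm

@[simp] lemma coe_pmU (σ : Perm I) : (pmU σ : Matrix I I ℂ) = pm σ := rfl

/-- diagonal unitaries -/
noncomputable def Dg : (I → Circle × G) →* unitary (Matrix I I (MonoidAlgebra ℂ G)) where
  toFun δ := ⟨Matrix.diagonal fun x => single (δ x).2 ((δ x).1 : ℂ), by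
    simp [Unitary.mem_iff, Matrix.star_eq_conjTranspose, Matrix.diagonal_conjTranspose,
      Matrix.diagonal_mul_diagonal, star_single', single_mul_single, Complex.conj_mul',
      Complex.mul_conj', Circle.norm_coe, ← MonoidAlgebra.one_def]⟩
  map_one' := Subtype.ext (by simp [← MonoidAlgebra.one_def])
  map_mul' a b := Subtype.ext (by simp [Matrix.diagonal_mul_diagonal, single_mul_single])

lemma coe_Dg (δ : I → Circle × G) : (Dg δ : Matrix I I (MonoidAlgebra ℂ G))
    = Matrix.diagonal fun x => single (δ x).2 ((δ x).1 : ℂ) := rfl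

lemma Dg_mul_scU (δ δ' : I → Circle × G) (u : unitary (Matrix I I ℂ))
    (h : ∀ x y, (u : Matrix I I ℂ) x y ≠ 0 → δ x = δ' y) : Dg δ * scU G u = scU G u * Dg δ' := by
  apply Subtype.ext
  ext1 x y
  simp only [Submonoid.coe_mul, coe_Dg, coe_scU, Matrix.diagonal_mul, Matrix.mul_diagonal,
    sc_apply, single_mul_single]
  by_cases h0 : (u : Matrix I I ℂ) x y = 0
  · simp [h0]
  · rw [h x y h0, mul_one, one_mul, mul_comm]

lemma Dg_mul_pm (σ : Perm I) (δ : I → Circle × G) :
    Dg δ * ((scU G).comp pmU) σ = ((scU G).comp pmU) σ * Dg (δ ∘ σ) := by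
  apply Dg_mul_scU
  intro x y h
  have : x = σ y := by
    by_contra h'
    simp [pm, h'] at h
  simp [this]

section
variable {A : Type*} [Ring A] [StarRing A] [Algebra ℂ A] [StarModule ℂ A]
  {τ : A →ₗ[ℂ] ℂ} {Φ : unitary A → ℝ}

lemma cost_invol (hrot : ∀ (v u : unitary A) (Q : A) (θ : ℝ), star Q = Q → Q * Q = Q → 0 ≤ θ →
      (u : A) = rot Q θ → Φ v - θ * (τ Q).re ≤ Φ (v * u)) (u : unitary A)
    (hu : star (u : A) = u) : Cost Φ (Real.pi / 2 * ((τ 1).re - (τ u).re)) u := by
  intro v
  have h2 : (u : A) * u = 1 := by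
    have := Unitary.coe_star_mul_self u
    rwa [hu] at this
  have := hrot v u ((1 / 2 : ℂ) • (1 - (u : A))) Real.pi (by simp [hu])
    (by
      simp only [smul_mul_assoc, mul_smul_comm, sub_mul, mul_sub, h2, one_mul, mul_one]
      module) Real.pi_pos.le
    (by rw [rot, Complex.exp_pi_mul_I]; module)
  refine le_trans (le_of_eq ?_) this
  simp
  ring

end

end Crest.Agent.R174
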