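import Crest.Agent.R174.Alg

set_option autoImplicit false

namespace Crest.Agent.R174
open Equiv Matrix MonoidAlgebra

variable {G T : Type*} [Group G] {I : Type*} [Fintype I] [DecidableEq I]

lemma refl_improve {X Q : Matrix I I ℂ} (hX : star X = X) (hX2 : X * X = 1) (hQ : star Q = Q)
    (hQ2 : Q * Q = Q) (h : X * Q = -Q) :
    star (X + (2 : ℂ) • Q) = X + (2 : ℂ) • Q ∧ X + (2 : ℂ) • Q ∈ unitary (Matrix I I ℂ) := by
  have h' : Q * X = -Q := by simpa [hX, hQ] using congrArg star h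
  have h1 : star (X + (2 : ℂ) • Q) = X + (2 : ℂ) • Q := by simp [hX, hQ]
  refine ⟨h1, ?_⟩
  rw [Unitary.mem_iff, h1, and_self]
  simp only [add_mul, mul_add, hX2, h, h', smul_mul_assoc, mul_smul_comm, hQ2]
  module

/-- the pairing matrix -/
noncomputable def ym (π : Perm I) (β : I → Circle) : Matrix I I ℂ :=
  pm π * Matrix.diagonal fun x => (β x : ℂ)

lemma ym_apply (π : Perm I) (β : I → Circle) (x y : I) :
    ym π β x y = if x = π y then (β y : ℂ) else 0 := by
  simp [ym, pm]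

lemma star_ym {π : Perm I} {β : I → Circle} (h1 : ∀ x, π (π x) = x)
    (h4 : ∀ x, β (π x) * β x = 1) : star (ym π β) = ym π β := by
  ext x y
  rw [Matrix.star_apply, ym_apply, ym_apply]
  by_cases h : x = π y
  · subst h
    rw [if_pos (h1 y).symm, if_pos rfl, eq_inv_of_mul_eq_one_left (h4 y)]
    simp [← Circle.coe_inv_eq_conj]
  · rw [if_neg h, if_neg (fun h' => h (by rw [h', h1])), star_zero]

lemma ym_mul_ym {π : Perm I} {β : I → Circle} (h1 : ∀ x, π (π x) = x)
    (h4 : ∀ x, β (π x) * β x = 1) : ym π β * ym π β = 1 := by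
  ext x y
  simp only [Matrix.mul_apply, ym_apply, mul_ite, mul_zero, Finset.sum_ite_eq', Finset.mem_univ,
    if_true, h1, Matrix.one_apply]
  split_ifs
  · rw [← Circle.coe_mul, h4]; rfl
  · simp

lemma trace_pm_swap {x y : I} (hxy : x ≠ y) : (pm (swap x y)).trace = Fintype.card I - 2 := by
  have : (pm (swap x y)).trace
      = ∑ z : I, (1 - (if z = x then 1 else 0) - if z = y then 1 else 0) := by
    refine Finset.sum_congr rfl fun z _ => ?_
    simp only [pm, Matrix.diag_apply, Matrix.of_apply]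
    by_cases h1 : z = x
    · subst h1; simp [hxy]
    by_cases h2 : z = y
    · subst h2; simp [h1]
    · simp [swap_apply_of_ne_of_ne h1 h2, h1, h2]
  rw [this]
  simp
  ring

lemma group_id {M : Type*} [Group M] {Yp Jp Y J Δ Sp S P D5 D6 D7 B Z X : M}
    (e1 : Yp * (Δ * Jp) = Y * (Δ * J)) (e3 : Y = P * B) (e4 : Y * Y = 1) (e5 : J * J = 1)
    (e6 : Δ * P = P * Δ) (e7 : Δ * D5 * D6⁻¹ * D7 = B * Z) (e8 : X = J * Sp⁻¹) :
    Yp * (Δ * Jp) * X * (Sp * S⁻¹) * (S * P * D5 * D6⁻¹) * D7 = Z := by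
  rw [e1, e8]
  calc _ = Y * Δ * (J * J) * P * D5 * D6⁻¹ * D7 := by group
    _ = Y * (P * (Δ * D5 * D6⁻¹ * D7)) := by
      rw [e5, mul_one, mul_assoc _ Δ, e6]; simp only [mul_assoc]
    _ = _ := by rw [e7, ← mul_assoc P, ← e3, ← mul_assoc, e4, one_mul]

set_option maxHeartbeats 1000000 in
theorem assemble (lab : I → G ⊕ (T × Bool)) (o : I) (ho : lab o = .inl 1) (L : List I)
    (hL : L.Nodup) (hL' : ∀ x, x ∈ L ↔ x ≠ o) (c : G) (hred : Red lab L c) (hc2 : c * c = 1)
    (hc1 : c ≠ 1) (S : Perm I) (cS : ℝ)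
    (hS : ∀ Φ : unitary (Matrix I I (MonoidAlgebra ℂ G)) → ℝ, (∀ u v, Φ (v * u * v⁻¹) = Φ u) →
      (∀ x y, x ≠ y → Cost Φ Real.pi (((scU G).comp pmU) (swap x y))) →
      Rel Φ cS (((scU G).comp pmU) (cyc o L)) (((scU G).comp pmU) S))
    (hJ : ∀ (π : Perm I) (β : I → Circle), (∀ x, π (π x) = x) →
      (∀ x, (lab x).isLeft → π x = x) → (∀ x, (lab x).isRight → lab (π x) = linv (lab x)) →
      (∀ x, β (π x) * β x = 1) →
      ∃ J Q : Matrix I I ℂ, star J = J ∧ J * J = 1 ∧
        (∀ x y, J x y ≠ 0 → gl (lab x) = (gl (lab y))⁻¹) ∧ (∀ x, J x x = if x = o then 1 else 0) ∧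
        star (J * pm S⁻¹) = J * pm S⁻¹ ∧ star Q = Q ∧ Q * Q = Q ∧ ym π β * Q = -Q ∧ J * Q = -Q ∧
        (∀ x y, Q x y ≠ 0 → (lab x).isRight) ∧
        cS + Real.pi / 2 * (Fintype.card I - (J * pm S⁻¹).trace.re) - 2 * Real.pi * Q.trace.re
          ≤ Real.pi / 2 * (Fintype.card I - 1)) : False := by
  classical
  have hpi := Real.pi_pos
  have hN : (1 : ℝ) ≤ Fintype.card I := by
    exact_mod_cast Fintype.card_pos_iff.2 ⟨o⟩
  set N : ℝ := (Fintype.card I : ℝ) with hNd
  obtain ⟨Φ, hΦ, hrot, hfin⟩ := exists_phase (A := Matrix I I (MonoidAlgebra ℂ G)) tau tau_comm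
    tau_pos (Real.pi / N) (1 / N) (by positivity) (div_le_self hpi.le hN) (by positivity)
  have ht1 : (tau (1 : Matrix I I (MonoidAlgebra ℂ G))).re = N := by rw [tau_one]; simp [hNd]
  have hinv := fun u => cost_invol hrot u
  simp only [ht1] at hinv hfin
  have hinvs : ∀ u : unitary (Matrix I I ℂ), star (u : Matrix I I ℂ) = u →
      Cost Φ (Real.pi / 2 * (N - (u : Matrix I I ℂ).trace.re)) (scU G u) := by
    intro u hu
    have := hinv (scU G u) (by rw [coe_scU, ← sc_star, hu])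
    rwa [coe_scU, tau_sc] at this
  have hsw : ∀ x y, x ≠ y → Cost Φ Real.pi (((scU G).comp pmU) (swap x y)) := by
    intro x y hxy
    refine (hinvs (pmU (swap x y)) (by simp [star_pm])).mono (le_of_eq ?_)
    rw [coe_pmU, trace_pm_swap hxy]
    simp [hNd]
  set z : Circle := Circle.exp (-(Real.pi / N)) with hz
  obtain ⟨π, β, h1, h2, h3, h4, h5⟩ := red_cost hΦ ((scU G).comp pmU) Dg Dg_mul_pm hsw lab z hred hL
  have hoL : o ∉ L := by simp [hL']
  have h3' : ∀ x, (lab x).isRight → lab (π x) = linv (lab x) := fun x hx =>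
    h3 x ((hL' x).2 (by rintro rfl; simp [ho] at hx)) hx
  obtain ⟨J, Q, j1, j2, j3, j4, j5, q1, q2, q3, q4, q5, hnum⟩ :=
    hJ π β h1 (fun x hx => (h2 x (Or.inr hx)).1) h3' h4
  obtain ⟨y1, y2⟩ := refl_improve (star_ym h1 h4) (ym_mul_ym h1 h4) q1 q2 q3
  obtain ⟨k1, k2⟩ := refl_improve j1 j2 q1 q2 q4
  have hJu : J ∈ unitary (Matrix I I ℂ) := by rw [Unitary.mem_iff, j1, j2]; simp
  have hYu : ym π β ∈ unitary (Matrix I I ℂ) := by
    rw [Unitary.mem_iff, star_ym h1 h4, ym_mul_ym h1 h4]; simp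
  have q5' : ∀ x y, Q x y ≠ 0 → gl (lab x) = 1 ∧ gl (lab y) = 1 := by
    intro x y h
    have a := q5 x y h
    have b := q5 y x (by rw [← q1, Matrix.star_apply]; simpa using h)
    rcases hx : lab x with _ | _ <;> rcases hy : lab y with _ | _ <;> simp_all [gl]
  set δ : I → Circle × G := fun x => (1, (gl (lab x))⁻¹) with hδ
  -- the six costs
  have c1 := hinvs ⟨_, y2⟩ y1
  have e2 : Dg δ * scU G ⟨_, k2⟩ = scU G ⟨_, k2⟩ * Dg δ⁻¹ := by
    apply Dg_mul_scU
    intro x y h
    simp only [Matrix.add_apply, Matrix.smul_apply] at h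
    by_cases h' : J x y = 0
    · have := q5' x y (by intro h0; simp [h', h0] at h)
      simp [hδ, this.1, this.2]
    · simp [hδ, j3 x y h']
  have c2 := hinv (Dg δ * scU G ⟨_, k2⟩) (by
    rw [← Unitary.coe_star, Unitary.star_eq_inv, _root_.mul_inv_rev, ← map_inv, ← map_inv, e2]
    congr 3
    rw [← Unitary.star_eq_inv]
    exact Subtype.ext k1)
  have t2 : tau ((Dg δ * scU G ⟨_, k2⟩ : unitary (Matrix I I (MonoidAlgebra ℂ G))) :
      Matrix I I (MonoidAlgebra ℂ G)) = 1 + 2 * Q.trace := by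
    simp only [tau_apply, Submonoid.coe_mul, coe_Dg, coe_scU, Matrix.diagonal_mul, sc_apply,
      single_mul_single, tr1_single, Matrix.add_apply, Matrix.smul_apply, j4, Matrix.trace,
      Finset.mul_sum, Matrix.diag_apply]
    rw [show (1 : ℂ) + ∑ i, 2 * Q i i = ∑ x, ((if x = o then 1 else 0) + 2 * Q x x) by
      simp [Finset.sum_add_distrib]]
    refine Finset.sum_congr rfl fun x _ => ?_
    by_cases hx : x = o
    · simp [hx, hδ, ho, gl]
    · by_cases hq : Q x x = 0
      · simp [hx, hq]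
      · simp [hx, hδ, (q5' x x hq).1]
  have c3 := hinvs (⟨J, hJu⟩ * pmU S⁻¹) j5
  have c4 := (hS Φ hΦ hsw).2
  have c5 := (h5 o hoL).1
  have hzN : z ^ L.length * z = Circle.exp (-Real.pi) := by
    have : (L.length : ℝ) + 1 = N := by
      have h6 : (o :: L).toFinset = Finset.univ := by
        ext x; by_cases hx : x = o <;> simp [hL', hx]
      have h7 := List.toFinset_card_of_nodup (List.nodup_cons.2 ⟨hoL, hL⟩)
      rw [h6, Finset.card_univ] at h7
      rw [hNd, h7]; simp
    rw [← pow_succ, hz, ← Circle.exp_nsmul]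
    congr 1
    rw [nsmul_eq_mul]
    push_cast
    rw [this]; field_simp
  have hci : c⁻¹ = c := inv_eq_of_mul_eq_one_left hc2
  have c6 := hinv (Dg (Pi.mulSingle o (Circle.exp (-Real.pi), c))) (by
    rw [← Unitary.coe_star, Unitary.star_eq_inv, ← map_inv, ← Pi.mulSingle_inv]
    congr 3
    ext
    · simp [Complex.exp_pi_mul_I]
    · exact hci)
  have t6 : tau ((Dg (Pi.mulSingle o (Circle.exp (-Real.pi), c)) :
      unitary (Matrix I I (MonoidAlgebra ℂ G))) : Matrix I I (MonoidAlgebra ℂ G))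
        = Fintype.card I - 1 := by
    simp only [tau_apply, coe_Dg, Matrix.diagonal_apply_eq, tr1_single]
    rw [show (Fintype.card I : ℂ) - 1 = ∑ x : I, (1 - if x = o then 1 else 0) by simp]
    refine Finset.sum_congr rfl fun x _ => ?_
    by_cases hx : x = o
    · simp [hx, hc1]
    · simp [hx]
  have ctot := ((((c1.mul c2).mul c3).mul c4).mul c5).mul c6
  -- the product is the scalar
  have e1 : scU G ⟨_, y2⟩ * (Dg δ * scU G ⟨_, k2⟩) = scU G ⟨_, hYu⟩ * (Dg δ * scU G ⟨J, hJu⟩) := by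
    apply Subtype.ext
    have a1 : (Dg δ : Matrix I I (MonoidAlgebra ℂ G)) * sc G Q = sc G Q := by
      ext1 x y
      simp only [coe_Dg, Matrix.diagonal_mul, sc_apply, single_mul_single]
      by_cases h : Q x y = 0
      · simp [h]
      · simp [hδ, (q5' x y h).1]
    have a2 : sc G Q * (Dg δ : Matrix I I (MonoidAlgebra ℂ G)) = sc G Q := by
      ext1 x y
      simp only [coe_Dg, Matrix.mul_diagonal, sc_apply, single_mul_single]
      by_cases h : Q x y = 0
      · simp [h]
      · simp [hδ, (q5' x y h).2]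
    have q4' : Q * J = -Q := by simpa [j1, q1] using congrArg star q4
    simp only [Submonoid.coe_mul, coe_scU, map_add, map_smul, mul_add, add_mul, mul_smul_comm,
      smul_mul_assoc, a1]
    rw [← mul_assoc (sc G Q), a2, ← map_mul (sc G) Q J, ← map_mul (sc G) _ Q, ← map_mul (sc G) Q Q,
      q4', q3, q2, map_neg]
    module
  have e3 : scU G ⟨_, hYu⟩ = ((scU G).comp pmU) π * Dg (fun x => (β x, (1 : G))) := by
    apply Subtype.ext
    ext1 x y
    simp [coe_Dg, sc_apply, ym, single_mul_single]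
  have e4 : scU G ⟨_, hYu⟩ * scU G ⟨_, hYu⟩ = 1 := by
    rw [← map_mul, ← map_one (scU G)]
    congr 1
    exact Subtype.ext (ym_mul_ym h1 h4)
  have e5 : scU G ⟨J, hJu⟩ * scU G ⟨J, hJu⟩ = 1 := by
    rw [← map_mul, ← map_one (scU G)]
    congr 1
    exact Subtype.ext j2
  have e6 : Dg δ * ((scU G).comp pmU) π = ((scU G).comp pmU) π * Dg δ := by
    rw [Dg_mul_pm]
    congr 2
    funext x
    rcases hx : lab x with g | t
    · simp [(h2 x (Or.inr (by simp [hx]))).1]
    · simp [hδ, h3' x (by simp [hx]), hx, linv, gl]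
  have e7 : Dg δ * Dg (fun x => if x ∈ L then (z * β x, gl (lab x)) else 1) *
      (Dg (Pi.mulSingle o (z ^ L.length, c⁻¹)))⁻¹ * Dg (Pi.mulSingle o (Circle.exp (-Real.pi), c))
      = Dg (fun x => (β x, (1 : G))) * scal (Matrix I I (MonoidAlgebra ℂ G)) (-(Real.pi / N)) := by
    have : scal (Matrix I I (MonoidAlgebra ℂ G)) (-(Real.pi / N)) = Dg (fun _ => (z, (1 : G))) := by
      apply Subtype.ext
      rw [coe_scal, coe_Dg]
      ext1 x y
      by_cases h : x = y
      · simp [h, hz, MonoidAlgebra.one_def, Complex.exp_neg]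
      · simp [h]
    rw [this]
    simp only [← map_inv, ← map_mul]
    congr 1
    funext x
    by_cases hx : x = o
    · subst hx
      simp [hoL, hδ, ho, gl, ← hzN, (h2 x (Or.inl hoL)).2, hci, hc2]
    · simp [hx, hL', hδ, mul_comm]
  rw [group_id e1 e3 e4 e5 e6 e7 (by rw [map_mul, map_inv, map_inv]; rfl)] at ctot
  have hfin2 := ctot 1
  rw [one_mul, t2, t6] at hfin2
  have tY : (ym π β).trace.re = ∑ x, if (lab x).isLeft then (1 : ℝ) else 0 := by
    rw [Matrix.trace, Complex.re_sum]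
    refine Finset.sum_congr rfl fun x _ => ?_
    rw [Matrix.diag_apply, ym_apply]
    rcases hx : lab x with g | ⟨j, b⟩
    · have := h2 x (Or.inr (by simp [hx]))
      simp [this.1, this.2]
    · have := h3' x (by simp [hx])
      rw [if_neg]
      · simp
      · intro h
        rw [← h, hx] at this
        simp [linv] at this
  have tW : (L.map fun x => wt (lab x)).sum + Real.pi
      = Real.pi / 2 * (N + ∑ x, if (lab x).isLeft then (1 : ℝ) else 0) := by
    have h6 : (o :: L).toFinset = Finset.univ := by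
      ext x; by_cases hx : x = o <;> simp [hL', hx]
    have h7 := List.sum_toFinset (fun x => wt (lab x)) (List.nodup_cons.2 ⟨hoL, hL⟩)
    rw [h6, List.map_cons, List.sum_cons, ho] at h7
    rw [add_comm, show Real.pi = wt (Sum.inl 1 : G ⊕ (T × Bool)) from rfl, ← h7,
      show N = ∑ x : I, (1 : ℝ) by simp [hNd], ← Finset.sum_add_distrib, Finset.mul_sum]
    refine Finset.sum_congr rfl fun x _ => ?_
    rcases lab x with g | t <;> simp [wt]
    ring
  simp only [Submonoid.coe_mul, coe_pmU, Matrix.trace_add, Matrix.trace_smul, Complex.add_re, tY,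
    smul_eq_mul, Complex.re_ofNat, Complex.mul_re, Complex.im_ofNat, zero_mul, sub_zero,
    Complex.one_re, Complex.sub_re, Complex.natCast_re] at hfin2
  have e8 : -(2 * Real.pi - Real.pi / N - 1 / N) * N = -(2 * Real.pi * N) + Real.pi + 1 := by
    field_simp; ring
  rw [e8] at hfin
  have := Real.two_le_pi
  have := Real.pi_gt_three
  nlinarith

end Crest.Agent.R174
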