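import Crest.Agent.R174.Cyc

set_option autoImplicit false

namespace Crest.Agent.R174
open Equiv

section Stem
variable {I : Type*} [DecidableEq I] {M : Type*} [Group M] {Φ : M → ℝ}

lemma rel_swap (hΦ : ∀ u v, Φ (v * u * v⁻¹) = Φ u) (Pm : Perm I →* M)
    (hsw : ∀ x y, x ≠ y → Cost Φ Real.pi (Pm (swap x y))) (a b : Perm I) {x y : I} (h : x ≠ y) :
    Rel Φ Real.pi (Pm (a * swap x y * b)) (Pm (a * b)) := by
  have h1 : Rel Φ Real.pi (Pm (swap x y)) 1 := by
    constructor
    · simpa using hsw x y h
    · rw [one_mul, ← map_inv, swap_inv]; exact hsw x y h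
  exact ((h1.mul_left hΦ (Pm a)).mul_right (Pm b)).of_eq rfl (by simp) (by simp)

lemma stem_rel (hΦ : ∀ u v, Φ (v * u * v⁻¹) = Φ u) (Pm : Perm I →* M)
    (hsw : ∀ x y, x ≠ y → Cost Φ Real.pi (Pm (swap x y))) {P : Type*} (x x' : P → I)
    (m : List P → Perm I) (hm0 : m [] = 1)
    (hm : ∀ p a, p ∉ a → m (p :: a) = m a * swap (x p) (x' p))
    (f : List I) (t : Perm I) (c : ℝ) (ht : ∀ y, y ∉ f → Rel Φ c (Pm (cyc y f)) (Pm t))
    (a : List P) (ha : a.Nodup) : ∀ o, (o :: (a.map x ++ f ++ a.reverse.map x')).Nodup →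
      Rel Φ (c + a.length * Real.pi) (Pm (cyc o (a.map x ++ f ++ a.reverse.map x')))
        (Pm (t * m a)) := by
  induction a with
  | nil =>
    intro o ho
    simp only [List.map_nil, List.nil_append, List.reverse_nil, List.append_nil,
      List.nodup_cons] at ho ⊢
    exact (ht o ho.1).of_eq (by simp) rfl (by simp [hm0])
  | cons p a ih =>
    intro o ho
    rw [List.nodup_cons] at ha
    have e : (p :: a).map x ++ f ++ (p :: a).reverse.map x'
        = x p :: ((a.map x ++ f ++ a.reverse.map x') ++ [x' p]) := by simp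
    rw [e] at ho ⊢
    set L := a.map x ++ f ++ a.reverse.map x'
    simp only [List.nodup_cons, List.mem_cons, List.mem_append, not_or, List.nodup_append,
      List.not_mem_nil, not_false_eq_true, List.nodup_nil, and_true, true_and, or_false,
      forall_eq] at ho
    obtain ⟨⟨h1, h2, h3⟩, ⟨h4, h5⟩, h6, h7⟩ := ho
    have h8 : x' p ∉ L := fun h => h7 _ h rfl
    have h9 := ih ha.2 (x' p) (List.nodup_cons.2 ⟨h8, h6⟩)
    have e2 : cyc o (x p :: (L ++ [x' p]))
        = cyc (x' p) L * (swap o (x p) * swap (x p) (x' p)) := by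
      rw [← mul_assoc, ← cyc_pair h2 h8 h1 h3 h5, cyc, cyc_append]
      simp [cyc, mul_assoc]
    rw [e2, map_mul, hm p a ha.1]
    refine ((h9.mul_right _).trans ((rel_swap hΦ Pm hsw (t * m a) (swap (x p) (x' p)) h1).of_eq
      rfl (by simp [mul_assoc]) rfl)).of_eq ?_ rfl (by simp [mul_assoc])
    simp; ring

lemma face_rel (hΦ : ∀ u v, Φ (v * u * v⁻¹) = Φ u) (Pm : Perm I →* M)
    (hsw : ∀ x y, x ≠ y → Cost Φ Real.pi (Pm (swap x y))) (x : I) (r : List I) (hx : x ∉ r)
    (b : Bool) (y : I) (hy : y ∉ (if b then x :: r else (x :: r).reverse)) :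
    Rel Φ Real.pi (Pm (cyc y (if b then x :: r else (x :: r).reverse)))
      (Pm (if b then cyc x r else (cyc x r)⁻¹)) := by
  cases b
  · simp only [Bool.false_eq_true, if_false, List.reverse_cons, List.mem_append, List.mem_reverse,
      List.mem_singleton, not_or] at hy ⊢
    have := swap_mul_cyc (o := y) (q := x) (l := r.reverse) (by simpa using hy.1) (by simpa using hx)
    refine (rel_swap hΦ Pm hsw (cyc x r.reverse) 1 hy.2).of_eq rfl ?_ (by simp [cyc_reverse])
    rw [mul_one, ← this, cyc_append]; simp [cyc]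
  · simp only [if_true, List.mem_cons, not_or] at hy ⊢
    have := swap_mul_cyc (o := x) (q := y) (l := r) hx hy.2
    refine (rel_swap hΦ Pm hsw 1 (cyc x r) (Ne.symm hy.1)).of_eq rfl ?_ (by simp)
    rw [one_mul, this, cyc, swap_comm]

end Stem

section Fib

/-- fibrewise permutations -/
def fib {K Y : Type*} : (K → Perm Y) →* Perm (K × Y) where
  toFun τ := Equiv.prodCongrRight τ
  map_one' := by ext ⟨k, y⟩ <;> simp
  map_mul' τ τ' := by ext ⟨k, y⟩ <;> simp

@[simp] lemma fib_apply {K Y : Type*} (τ : K → Perm Y) (k : K) (y : Y) :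
    fib τ (k, y) = (k, τ k y) := rfl

lemma fib_single_swap {K Y : Type*} [DecidableEq K] [DecidableEq Y] (k : K) (a b : Y) :
    fib (Pi.mulSingle k (swap a b)) = swap (k, a) (k, b) := by
  ext1 ⟨k', y⟩
  simp only [fib_apply, Pi.mulSingle_apply, swap_apply_def, Prod.mk.injEq]
  split_ifs <;> simp_all [swap_apply_def]

/-- extension by a fixed point -/
def opt {X : Type*} : Perm X →* Perm (Option X) where
  toFun σ := σ.optionCongr
  map_one' := by ext x; cases x <;> simp
  map_mul' σ σ' := by ext x; cases x <;> simp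

@[simp] lemma opt_some {X : Type*} (σ : Perm X) (x : X) : opt σ (some x) = some (σ x) := rfl
@[simp] lemma opt_none {X : Type*} (σ : Perm X) : opt σ none = none := rfl

lemma opt_swap {X : Type*} [DecidableEq X] (a b : X) : opt (swap a b) = swap (some a) (some b) :=
  Equiv.optionCongr_swap a b

variable {K P : Type*} [DecidableEq K] [DecidableEq P]

/-- the letters of the conjugate of a relator -/
def block (sgn : K → Bool) (ps : List P) (k : K) : List (Option (K × Option Bool × P)) :=
  ps.map (fun p => some (k, some false, p)) ++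
    (if sgn k then ps.map (fun p => some (k, none, p))
      else (ps.map (fun p => some (k, none, p))).reverse) ++
    ps.reverse.map (fun p => some (k, some true, p))

/-- mirror -/
def mir (a : List P) : Perm (Option Bool × P) :=
  Function.Involutive.toPerm (fun y => if y.2 ∈ a then (y.1.map not, y.2) else y) (by
    rintro ⟨o, p⟩
    by_cases h : p ∈ a <;> cases o <;> simp [h])

lemma mir_apply (a : List P) (y : Option Bool × P) :
    mir a y = if y.2 ∈ a then (y.1.map not, y.2) else y := rfl

omit [DecidableEq K] [DecidableEq P] in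
lemma block_nodup (sgn : K → Bool) {ps : List P} (hps : ps.Nodup) (k : K) :
    (none :: block sgn ps k).Nodup := by
  have h1 : ∀ o : Option Bool, (ps.map (fun p => (some (k, o, p) :
      Option (K × Option Bool × P)))).Nodup := fun o =>
    hps.map (fun a b h => by simpa using h)
  unfold block
  rw [List.map_reverse]
  split_ifs <;> simp [List.nodup_append, h1] <;>
    rintro a - b (⟨c, -, rfl⟩ | ⟨c, -, rfl⟩) <;> simp

variable {M : Type*} [Group M] {Φ : M → ℝ}

lemma block_rel (hΦ : ∀ u v, Φ (v * u * v⁻¹) = Φ u)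
    (Pm : Perm (Option (K × Option Bool × P)) →* M)
    (hsw : ∀ x y, x ≠ y → Cost Φ Real.pi (Pm (swap x y))) (sgn : K → Bool) (p₀ : P) (r : List P)
    (hps : (p₀ :: r).Nodup) (k : K) :
    Rel Φ (Real.pi + (p₀ :: r).length * Real.pi) (Pm (cyc none (block sgn (p₀ :: r) k)))
      (Pm (opt (fib (Pi.mulSingle k (fib (Pi.mulSingle none
        (if sgn k then cyc p₀ r else (cyc p₀ r)⁻¹)) * mir (p₀ :: r)))))) := by
  let F : Perm (Option Bool × P) →* Perm (Option (K × Option Bool × P)) :=
    opt.comp (fib.comp (MonoidHom.mulSingle (fun _ : K => Perm (Option Bool × P)) k))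
  have hF : ∀ a b, F (swap a b) = swap (some (k, a)) (some (k, b)) := fun a b => by
    simp only [F, MonoidHom.comp_apply, MonoidHom.mulSingle_apply, fib_single_swap, opt_swap]
  let F' : Perm P →* Perm (Option (K × Option Bool × P)) :=
    F.comp (fib.comp (MonoidHom.mulSingle (fun _ : Option Bool => Perm P) none))
  have hF' : ∀ a b, F' (swap a b) = swap (some (k, none, a)) (some (k, none, b)) := fun a b => by
    simp only [F', MonoidHom.comp_apply, MonoidHom.mulSingle_apply, fib_single_swap, hF]
  have hr : p₀ ∉ r := (List.nodup_cons.1 hps).1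
  have key := stem_rel hΦ Pm hsw (fun p => some (k, some false, p))
    (fun p => some (k, some true, p)) (fun a => F (mir a))
    (by rw [show mir ([] : List P) = 1 by ext1 y; simp [mir_apply], map_one])
    (by
      intro p a hp
      rw [← hF, ← map_mul]
      congr 1
      ext1 ⟨o, q⟩
      by_cases h : q = p
      · subst h
        rcases o with _ | _ | _ <;> simp [mir_apply, hp, swap_apply_def]
      · simp [mir_apply, h, swap_apply_def])
    _ _ _ (face_rel hΦ Pm hsw (some (k, none, p₀)) (r.map fun p => some (k, none, p))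
      (by simpa using hr) (sgn k)) (p₀ :: r) hps none (block_nodup sgn hps k)
  refine key.of_eq rfl rfl ?_
  congr 1
  rw [cyc_map F' (fun p => some (k, none, p)) hF']
  change F _ = _
  rw [map_mul]
  congr 1
  split_ifs
  · rfl
  · rw [← map_inv]; rfl

lemma blocks_rel (hΦ : ∀ u v, Φ (v * u * v⁻¹) = Φ u)
    (Pm : Perm (Option (K × Option Bool × P)) →* M)
    (hsw : ∀ x y, x ≠ y → Cost Φ Real.pi (Pm (swap x y))) (sgn : K → Bool) (p₀ : P) (r : List P)
    (hps : (p₀ :: r).Nodup) (fs : List K) (hfs : fs.Nodup) :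
    Rel Φ (fs.length * (Real.pi + (p₀ :: r).length * Real.pi))
      (Pm (cyc none (fs.flatMap (block sgn (p₀ :: r)))))
      (Pm (opt (fib (fun k => if k ∈ fs then fib (Pi.mulSingle none
        (if sgn k then cyc p₀ r else (cyc p₀ r)⁻¹)) * mir (p₀ :: r) else 1)))) := by
  induction fs with
  | nil =>
    refine (Rel.refl (1 : M)).of_eq (by simp) (by simp [cyc]) ?_
    simp only [List.not_mem_nil, if_false]
    rw [show (fun _ : K => (1 : Perm (Option Bool × P))) = 1 from rfl]
    simp
  | cons k fs ih =>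
    rw [List.nodup_cons] at hfs
    refine ((ih hfs.2).mul hΦ (block_rel hΦ Pm hsw sgn p₀ r hps k)).of_eq (by simp; ring)
      (by rw [List.flatMap_cons, cyc_append, map_mul]) ?_
    rw [← map_mul, ← map_mul, ← map_mul]
    congr 3
    funext k'
    by_cases h : k' = k
    · subst h; simp [hfs.1]
    · simp [h]

lemma blocks_rel' (hΦ : ∀ u v, Φ (v * u * v⁻¹) = Φ u)
    (Pm : Perm (Option (K × Option Bool × P)) →* M)
    (hsw : ∀ x y, x ≠ y → Cost Φ Real.pi (Pm (swap x y))) (sgn : K → Bool) (p₀ : P) (r : List P)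
    (hps : (p₀ :: r).Nodup) (fs : List K) (hfs : fs.Nodup) (hfs' : ∀ k, k ∈ fs) :
    Rel Φ (fs.length * (Real.pi + (p₀ :: r).length * Real.pi))
      (Pm (cyc none (fs.flatMap (block sgn (p₀ :: r)))))
      (Pm (opt (fib (fun k => fib (Pi.mulSingle none
        (if sgn k then cyc p₀ r else (cyc p₀ r)⁻¹)) * mir (p₀ :: r))))) := by
  simpa only [hfs', if_true] using blocks_rel hΦ Pm hsw sgn p₀ r hps fs hfs

omit [DecidableEq K] [DecidableEq P] in
lemma blocks_nodup (sgn : K → Bool) {ps : List P} (hps : ps.Nodup) {fs : List K}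
    (hfs : fs.Nodup) : (fs.flatMap (block sgn ps)).Nodup := by
  rw [List.nodup_flatMap]
  refine ⟨fun k _ => (List.nodup_cons.1 (block_nodup sgn hps k)).2, hfs.imp ?_⟩
  intro a b hab
  simp only [Function.onFun, List.disjoint_left]
  intro x ha hb
  have : ∀ k, x ∈ block sgn ps k → x.map Prod.fst = some k := by
    intro k hk
    unfold block at hk
    split_ifs at hk <;> simp at hk <;> rcases hk with ⟨p, -, rfl⟩ | ⟨p, -, rfl⟩ | ⟨p, -, rfl⟩ <;> rfl
  exact hab (by simpa using (this a ha).symm.trans (this b hb))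

omit [DecidableEq K] [DecidableEq P] in
lemma mem_blocks (sgn : K → Bool) {ps : List P} (hps : ∀ p, p ∈ ps) {fs : List K}
    (hfs : ∀ k, k ∈ fs) (x : Option (K × Option Bool × P)) :
    x ∈ fs.flatMap (block sgn ps) ↔ x ≠ none := by
  rcases x with _ | ⟨k, o, p⟩
  · simp only [List.mem_flatMap, ne_eq, not_true, iff_false, not_exists, not_and]
    intro k _
    unfold block
    split_ifs <;> simp
  · simp only [List.mem_flatMap, ne_eq, reduceCtorEq, not_false_eq_true, iff_true]
    refine ⟨k, hfs k, ?_⟩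
    unfold block
    rcases o with _ | _ | _ <;> split_ifs <;> simp [hps]

end Fib
end Crest.Agent.R174
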