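import Crest.Agent.R174.Pic

set_option autoImplicit false

namespace Crest.Agent.R174
open Equiv Monoid

variable {G T : Type*} [Group G]

/-- a conjugate of a relator -/
def tm (w : T → Coprod G (FreeGroup T)) (t : Coprod G (FreeGroup T) × T × Bool) :
    Coprod G (FreeGroup T) := t.1 * (if t.2.2 then w t.2.1 else (w t.2.1)⁻¹) * t.1⁻¹

lemma exists_tm (w : T → Coprod G (FreeGroup T)) {x : Coprod G (FreeGroup T)}
    (hx : x ∈ Subgroup.normalClosure (Set.range w)) :
    ∃ Λ : List (Coprod G (FreeGroup T) × T × Bool), (Λ.map (tm w)).prod = x := by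
  unfold Subgroup.normalClosure at hx
  induction hx using Subgroup.closure_induction with
  | mem x hx =>
    obtain ⟨a, ⟨i, rfl⟩, h⟩ := Group.mem_conjugatesOfSet_iff.1 hx
    obtain ⟨u, rfl⟩ := isConj_iff.1 h
    exact ⟨[(u, i, true)], by simp [tm]⟩
  | one => exact ⟨[], rfl⟩
  | mul x y _ _ hx hy =>
    obtain ⟨a, rfl⟩ := hx
    obtain ⟨b, rfl⟩ := hy
    exact ⟨a ++ b, by simp⟩
  | inv x _ hx =>
    obtain ⟨a, rfl⟩ := hx
    refine ⟨(a.map fun t => (t.1, t.2.1, !t.2.2)).reverse, ?_⟩
    rw [List.prod_inv_reverse, List.map_reverse, List.map_map, List.map_map]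
    congr 3
    funext ⟨u, i, b⟩
    cases b <;> simp [tm, mul_assoc]

variable [DecidableEq T]

variable (G T) in
/-- exponent sums -/
def expo : Coprod G (FreeGroup T) →* Multiplicative (T → ℤ) :=
  Coprod.lift 1 (FreeGroup.lift fun k => Multiplicative.ofAdd (Pi.single k 1))

lemma expo_ev (x : G ⊕ (T × Bool)) (j : T) : (expo G T (ev x)).toAdd j = ex x j := by
  rcases x with g | ⟨i, _ | _⟩ <;> simp [expo, ev, ex, Pi.single_apply, eq_comm]
  split_ifs <;> simp

/-- number of faces of a given kind -/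
def cnt {X : Type*} (Λ : List (X × T × Bool)) (c : T × Bool) : ℕ :=
  (Λ.map fun t => if t.2 = c then 1 else 0).sum

lemma expo_tm (w : T → Coprod G (FreeGroup T)) (d : ℤ)
    (hw : ∀ i j, (expo G T (w i)).toAdd j = if i = j then d else 0)
    (Λ : List (Coprod G (FreeGroup T) × T × Bool)) (j : T) :
    (expo G T (Λ.map (tm w)).prod).toAdd j = d * (cnt Λ (j, true) - cnt Λ (j, false)) := by
  induction Λ with
  | nil => simp [cnt]
  | cons t Λ ih =>
    rcases t with ⟨u, i, b⟩
    rw [List.map_cons, List.prod_cons, map_mul, toAdd_mul, Pi.add_apply, ih]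
    cases b <;> by_cases h : i = j <;> simp [cnt, tm, hw, h] <;> ring

lemma pad [Fintype T] (w : T → Coprod G (FreeGroup T))
    (Λ : List (Coprod G (FreeGroup T) × T × Bool)) (k : T → ℕ) :
    ∃ Λ' : List (Coprod G (FreeGroup T) × T × Bool), (Λ'.map (tm w)).prod = (Λ.map (tm w)).prod ∧
      ∀ i b, cnt Λ' (i, b) = cnt Λ (i, b) + k i := by
  have h1 : ∀ (j : T) (n : ℕ) (Λ : List (Coprod G (FreeGroup T) × T × Bool)),
      ∃ Λ' : List (Coprod G (FreeGroup T) × T × Bool),
        (Λ'.map (tm w)).prod = (Λ.map (tm w)).prod ∧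
        ∀ i b, cnt Λ' (i, b) = cnt Λ (i, b) + if i = j then n else 0 := by
    intro j n Λ
    induction n with
    | zero => exact ⟨Λ, rfl, by simp⟩
    | succ n ih =>
      obtain ⟨Λ', h1, h2⟩ := ih
      refine ⟨(1, j, true) :: (1, j, false) :: Λ', by simp [tm, h1], fun i b => ?_⟩
      have := h2 i b
      unfold cnt at this ⊢
      simp only [List.map_cons, List.sum_cons, this]
      by_cases h : i = j
      · cases b <;> simp [h] <;> ring
      · simp [h, Ne.symm h]
  have h2 : ∀ s : Finset T, ∃ Λ' : List (Coprod G (FreeGroup T) × T × Bool),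
      (Λ'.map (tm w)).prod = (Λ.map (tm w)).prod ∧
        ∀ i b, cnt Λ' (i, b) = cnt Λ (i, b) + if i ∈ s then k i else 0 := by
    intro s
    induction s using Finset.induction_on with
    | empty => exact ⟨Λ, rfl, by simp⟩
    | insert j s hj ih =>
      obtain ⟨Λ', h3, h4⟩ := ih
      obtain ⟨Λ'', h5, h6⟩ := h1 j (k j) Λ'
      refine ⟨Λ'', h5.trans h3, fun i b => ?_⟩
      rw [h6, h4]
      by_cases h : i = j
      · subst h; simp [hj]
      · simp [h]
  simpa using h2 Finset.univ

lemma cnt_le {X : Type*} (Λ : List (X × T × Bool)) (c : T × Bool) : cnt Λ c ≤ Λ.length := by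
  induction Λ with
  | nil => simp [cnt]
  | cons t Λ ih =>
    unfold cnt at ih ⊢
    simp only [List.map_cons, List.sum_cons, List.length_cons]
    split_ifs <;> omega

lemma exists_index [Fintype T] {X : Type*} (Λ : List (X × T × Bool)) (n : ℕ)
    (h : ∀ c, cnt Λ c = n) :
    ∃ (fs : List (T × Bool × Fin n)) (u : T × Bool × Fin n → X), fs.Nodup ∧ (∀ k, k ∈ fs) ∧
      fs.map (fun k => (u k, k.1, k.2.1)) = Λ := by
  let f : Fin Λ.length → T × Bool := fun k => Λ[k.1].2
  let g : T × Bool × Fin n → T × Bool := fun k => (k.1, k.2.1)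
  have hc : ∀ c, Fintype.card {k // f k = c} = Fintype.card {k // g k = c} := by
    intro c
    rw [Fintype.card_subtype, Fintype.card_subtype, Finset.card_filter, Finset.card_filter,
      Fin.sum_univ_fun_getElem Λ (fun t => if t.2 = c then 1 else 0)]
    rw [show (Λ.map fun t => if t.2 = c then 1 else 0).sum = n from h c]
    rcases c with ⟨i, b⟩
    simp only [g, Fintype.sum_prod_type, Prod.mk.injEq]
    cases b <;> simp [ite_and]
  let e := Equiv.ofFiberEquiv (f := f) (g := g) fun c => Fintype.equivOfCardEq (hc c)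
  have he : ∀ k, g (e k) = f k := fun k => Equiv.ofFiberEquiv_map _ k
  refine ⟨(List.finRange Λ.length).map e, fun k => Λ[(e.symm k).1].1,
    (List.nodup_finRange _).map e.injective, fun k => List.mem_map.2 ⟨e.symm k, by simp⟩, ?_⟩
  rw [List.map_map]
  conv_rhs => rw [← List.map_getElem_finRange Λ]
  congr 1
  funext k
  simp only [Function.comp, Equiv.symm_apply_apply]
  exact Prod.ext rfl (he k)

omit [DecidableEq T] in
lemma exists_uniform (x : Coprod G (FreeGroup T)) : ∃ l₀ : ℕ, ∀ l, l₀ ≤ l →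
    ∃ W : Fin l → G ⊕ (T × Bool), ((List.finRange l).map fun p => ev (W p)).prod = x := by
  obtain ⟨a, rfl⟩ := exists_word x
  refine ⟨a.length, fun l hl => ?_⟩
  have : ∀ b : List (G ⊕ (T × Bool)), b.length = l → ∃ W : Fin l → G ⊕ (T × Bool),
      ((List.finRange l).map fun p => ev (W p)).prod = (b.map ev).prod := by
    rintro b rfl
    refine ⟨fun p => b[p.1], ?_⟩
    conv_rhs => rw [← List.map_getElem_finRange b, List.map_map]
    rfl
  obtain ⟨W, hW⟩ := this (a ++ List.replicate (l - a.length) (.inl 1)) (by simp [hl])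
  exact ⟨W, by rw [hW]; simp [show ev (.inl 1 : G ⊕ (T × Bool)) = 1 by simp [ev]]⟩

theorem core {T : Type} [Fintype T] [DecidableEq T]
    (hDL : ∀ (n l : ℕ) (W : T → Fin l → G ⊕ (T × Bool)),
      DLStmt (Option ((T × Bool × Fin n) × Option Bool × Fin l))
      (Option (T × Bool)) T (Fin n) {s : T × Fin l // (W s.1 s.2).isRight})
    (w : T → Coprod G (FreeGroup T)) (d : ℕ) (hd : 0 < d)
    (hw : ∀ i j, (expo G T (w i)).toAdd j = if i = j then (d : ℤ) else 0)
    (c : G) (hc2 : c * c = 1) (hc1 : c ≠ 1) :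
    Coprod.inl c ∉ Subgroup.normalClosure (Set.range w) := by
  intro hc
  obtain ⟨Λ, hΛ⟩ := exists_tm w hc
  have h1 : ∀ i b, cnt Λ (i, b) = cnt Λ (i, true) := by
    intro i b
    have := expo_tm w d hw Λ i
    rw [hΛ] at this
    simp only [expo, Coprod.lift_apply_inl, MonoidHom.one_apply, toAdd_one, Pi.zero_apply,
      zero_eq_mul, Nat.cast_eq_zero, hd.ne', false_or] at this
    cases b
    · omega
    · rfl
  obtain ⟨Λ', h2, h3⟩ := pad w Λ (fun i => Λ.length - cnt Λ (i, true))
  obtain ⟨fs, u, f1, f2, f3⟩ := exists_index Λ' Λ.length (by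
    rintro ⟨i, b⟩
    have := cnt_le Λ (i, true)
    rw [h3, h1]; omega)
  choose lw hlw using fun i => exists_uniform (w i)
  choose lu hlu using fun k => exists_uniform (u k)
  set l := Finset.univ.sup lw + Finset.univ.sup lu
  choose W hW using fun i => hlw i (l + 1) (by
    have := Finset.le_sup (f := lw) (Finset.mem_univ i); omega)
  choose Uw hUw using fun k => hlu k (l + 1) (by
    have := Finset.le_sup (f := lu) (Finset.mem_univ k); omega)
  refine pic_contra (hDL _ _) W Uw 0 ((List.finRange l).map Fin.succ)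
    (by rw [← List.finRange_succ]; exact List.nodup_finRange _)
    (by rw [← List.finRange_succ]; exact List.mem_finRange) fs f1 f2 d hd ?_ c hc2 hc1 ?_
  · intro i j
    rw [← hw, ← hW i, map_list_prod, ← List.ofFn_eq_map, List.map_ofFn, List.prod_ofFn,
      toAdd_prod, Finset.sum_apply]
    simp [expo_ev]
  · apply red_of_prod
    rw [← List.finRange_succ, ← hΛ, ← h2, ← f3, List.map_map]
    clear f1 f2 f3
    induction fs with
    | nil => rfl
    | cons k fs ih =>
      rw [List.flatMap_cons, List.map_append, List.prod_append, ih, List.map_cons, List.prod_cons]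
      congr 1
      rcases k with ⟨i, b, a⟩
      simp only [Function.comp, tm, ← hW, ← hUw, List.prod_inv_reverse, block]
      cases b <;> simp [plab, ev_linv, Function.comp_def, mul_assoc]

end Crest.Agent.R174
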