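import Mathlib

set_option autoImplicit false

namespace Crest.Agent.R174
open Matrix

variable {E S F : Type*} [Fintype E] [DecidableEq E] [Fintype S] [DecidableEq S]
  [Fintype F] [DecidableEq F]

/-- inclusion of a slot -/
def Bm (pos : S × F → E) (s : S) : Matrix E F ℂ :=
  Matrix.of fun x a => if x = pos (s, a) then 1 else 0

omit [Fintype S] [Fintype F] in
lemma Bm_orth {pos : S × F → E} (h : Function.Injective pos) (s s' : S) :
    (Bm pos s)ᴴ * Bm pos s' = if s = s' then 1 else 0 := by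
  ext a b
  simp only [Bm, Matrix.mul_apply, Matrix.conjTranspose_apply, Matrix.of_apply, mul_ite, mul_one,
    mul_zero, Finset.sum_ite_eq', Finset.mem_univ, if_true, h.eq_iff, Prod.mk.injEq]
  by_cases hs : s = s'
  · subst hs; simp [Matrix.one_apply, eq_comm]
  · simp [hs, Ne.symm hs]

/-- block diagonal matrix with the block `m s` on slot `s` -/
noncomputable def DD (pos : S × F → E) (m : S → Matrix F F ℂ) : Matrix E E ℂ :=
  1 + ∑ s, Bm pos s * (m s - 1) * (Bm pos s)ᴴ

omit [Fintype S] [DecidableEq S] [DecidableEq F] [Fintype E] in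
lemma Bm_conj_apply (pos : S × F → E) (s : S) (N : Matrix F F ℂ) (x y : E) :
    (Bm pos s * N * (Bm pos s)ᴴ) x y
      = ∑ a, ∑ b, if x = pos (s, a) ∧ y = pos (s, b) then N a b else 0 := by
  simp only [Bm, Matrix.mul_apply, Matrix.conjTranspose_apply, Matrix.of_apply, Finset.sum_mul]
  rw [Finset.sum_comm]
  refine Finset.sum_congr rfl fun a _ => Finset.sum_congr rfl fun b _ => ?_
  by_cases h1 : x = pos (s, a) <;> by_cases h2 : y = pos (s, b) <;> simp [h1, h2]

omit [Fintype E] in
lemma DD_pos_pos {pos : S × F → E} (h : Function.Injective pos) (m : S → Matrix F F ℂ)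
    (s s' : S) (a a' : F) :
    DD pos m (pos (s, a)) (pos (s', a')) = if s = s' then m s a a' else 0 := by
  simp only [DD, Matrix.add_apply, Matrix.sum_apply, Bm_conj_apply, h.eq_iff, Prod.mk.injEq,
    Matrix.one_apply]
  by_cases hs : s = s'
  · subst hs
    rw [Finset.sum_eq_single s (by intro t _ ht; simp [Ne.symm ht]) (by simp)]
    simp [ite_and, Matrix.one_apply]
  · rw [Finset.sum_eq_zero]
    · simp [hs]
    · intro t _
      by_cases h1 : s = t
      · subst h1; simp [Ne.symm hs]
      · simp [h1]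

omit [Fintype E] [DecidableEq S] in
lemma DD_left {pos : S × F → E} (m : S → Matrix F F ℂ) {x : E} (hx : ∀ s, x ≠ pos s) (y : E) :
    DD pos m x y = if x = y then 1 else 0 := by
  simp [DD, Matrix.sum_apply, Bm_conj_apply, hx, Matrix.one_apply]

omit [Fintype E] [DecidableEq S] in
lemma DD_right {pos : S × F → E} (m : S → Matrix F F ℂ) (x : E) {y : E} (hy : ∀ s, y ≠ pos s) :
    DD pos m x y = if x = y then 1 else 0 := by
  simp [DD, Matrix.sum_apply, Bm_conj_apply, hy, Matrix.one_apply]

omit [Fintype E] [DecidableEq S] in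
lemma star_DD (pos : S × F → E) (m : S → Matrix F F ℂ) :
    star (DD pos m) = DD pos (fun s => star (m s)) := by
  simp [DD, Matrix.star_eq_conjTranspose, Matrix.conjTranspose_sum, Matrix.mul_assoc]

lemma DD_mul {pos : S × F → E} (h : Function.Injective pos) (m m' : S → Matrix F F ℂ) :
    DD pos m * DD pos m' = DD pos (fun s => m s * m' s) := by
  have e : ∀ s, (Bm pos s * (m s - 1) * (Bm pos s)ᴴ) * ∑ t, Bm pos t * (m' t - 1) * (Bm pos t)ᴴ
      = Bm pos s * ((m s - 1) * (m' s - 1)) * (Bm pos s)ᴴ := by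
    intro s
    rw [Finset.mul_sum, Finset.sum_eq_single s _ (by simp)]
    · simp only [Matrix.mul_assoc]
      rw [← Matrix.mul_assoc (Bm pos s)ᴴ, Bm_orth h]; simp
    · intro t _ ht
      simp only [Matrix.mul_assoc]
      rw [← Matrix.mul_assoc (Bm pos s)ᴴ, Bm_orth h]; simp [Ne.symm ht]
  simp only [DD, add_mul, mul_add, one_mul, mul_one, Finset.sum_mul, e, add_assoc]
  rw [← Finset.sum_add_distrib, ← Finset.sum_add_distrib]
  congr 1
  refine Finset.sum_congr rfl fun s _ => ?_
  rw [← Matrix.add_mul, ← Matrix.add_mul, ← Matrix.mul_add, ← Matrix.mul_add]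
  congr 2
  noncomm_ring

omit [Fintype E] [DecidableEq S] in
lemma DD_one (pos : S × F → E) : DD pos (fun _ => 1) = 1 := by simp [DD]

lemma DD_mem {pos : S × F → E} (h : Function.Injective pos) {m : S → Matrix F F ℂ}
    (hm : ∀ s, m s ∈ unitary (Matrix F F ℂ)) : DD pos m ∈ unitary (Matrix E E ℂ) := by
  rw [Unitary.mem_iff, star_DD, DD_mul h, DD_mul h]
  simp only [fun s => (Unitary.mem_iff.1 (hm s)).1, fun s => (Unitary.mem_iff.1 (hm s)).2, DD_one,
    and_self]

/-- the degree lemma -/
def DLStmt (E B T F S : Type*) [Fintype E] [DecidableEq E] [Fintype S] [DecidableEq S]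
    [Fintype F] [DecidableEq F] [Fintype T] [DecidableEq T] [DecidableEq B] : Prop :=
  ∀ (blk : E → B) (pos : S × F → E) (_ : Function.Injective pos) (ty : S → T) (e : S → Bool)
    (bl : S → B) (_ : ∀ s a, blk (pos (s, a)) = bl s) (β : T → B) (_ : Function.Injective β)
    (d : ℕ) (_ : 0 < d)
    (_ : ∀ i b, (∑ s, if ty s = i ∧ bl s = b then (if e s then 1 else -1) else 0 : ℤ)
      = if b = β i then d else 0)
    (V : Matrix E E ℂ) (_ : V ∈ unitary (Matrix E E ℂ)) (_ : ∀ x y, blk x ≠ blk y → V x y = 0),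
    ∃ (U : T → Matrix F F ℂ) (Q : Matrix E E ℂ), (∀ i, U i ∈ unitary (Matrix F F ℂ)) ∧
      star Q = Q ∧ Q * Q = Q ∧ Q.trace = Fintype.card T * Fintype.card F ∧
      (∀ x y, Q x y ≠ 0 → ∃ j, blk x = β j) ∧
      V * DD pos (fun s => if e s then U (ty s) else star (U (ty s))) * Q = Q

end Crest.Agent.R174
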