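import Crest.Agent.R174.Sign
import Crest.Agent.R174.DD

set_option autoImplicit false

namespace Crest.Agent.R174
open Matrix

variable {E B T Pr F : Type*} [Fintype E] [DecidableEq E] [DecidableEq B] [Fintype T]
  [DecidableEq T] [Fintype F] [DecidableEq F]

omit [DecidableEq B] [DecidableEq F] in
lemma Bm_pat {S : Type*} {blk : E → B} {pos : S × F → E} {bl : S → B}
    (hbl : ∀ s a, blk (pos (s, a)) = bl s) {s s' : S} (h : bl s = bl s') (N : Matrix F F ℂ) :
    Bm pos s * N * (Bm pos s')ᴴ ∈ Pat blk := by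
  intro x y hxy
  simp only [Matrix.mul_apply, Bm, Matrix.conjTranspose_apply, Matrix.of_apply, Finset.sum_mul]
  refine Finset.sum_eq_zero fun b _ => Finset.sum_eq_zero fun a _ => ?_
  split_ifs with h1 h2
  · exact absurd (by rw [h1, h2, hbl, hbl, h]) hxy
  all_goals simp

omit [DecidableEq F] [Fintype E] in
lemma Bm_proj {S : Type*} {pos : S × F → E} (h : Function.Injective pos) (s : S) :
    Bm pos s * (Bm pos s)ᴴ = Matrix.diagonal fun x => if ∃ a, x = pos (s, a) then 1 else 0 := by
  ext x y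
  simp only [Matrix.mul_apply, Bm, Matrix.conjTranspose_apply, Matrix.of_apply,
    Matrix.diagonal_apply]
  by_cases hx : ∃ a, x = pos (s, a)
  · obtain ⟨a, rfl⟩ := hx
    rw [Finset.sum_eq_single a (by intro b _ hb; simp [h.eq_iff, Ne.symm hb]) (by simp)]
    by_cases hy : y = pos (s, a)
    · simp [hy, h.eq_iff]
    · simp [hy, Ne.symm hy]
  · rw [Finset.sum_eq_zero fun a _ => by rw [if_neg fun h => hx ⟨a, h⟩, zero_mul]]
    simp [hx]

theorem DL_model [Fintype Pr] [DecidableEq Pr] {n : ℕ} (blk : E → B) (pos : Sl T Pr n × F → E)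
    (hpos : Function.Injective pos) (ty : Sl T Pr n → T) (ty_inl : ∀ j a, ty (.inl (j, a)) = j)
    (ty_nx : ∀ s, ty (nx s) = ty s) (bl : Sl T Pr n → B) (hbl : ∀ s a, blk (pos (s, a)) = bl s)
    (β : T → B) (hβ : Function.Injective β) (bl_inl : ∀ j a, bl (.inl (j, a)) = β j)
    (bl_nx : ∀ s, bl (nx s) = bl s)
    (V : Matrix E E ℂ) (hV : V ∈ unitary (Matrix E E ℂ)) (hV' : V ∈ Pat blk) :
    ∃ (U : T → Matrix F F ℂ) (Q : Matrix E E ℂ), (∀ i, U i ∈ unitary (Matrix F F ℂ)) ∧
      star Q = Q ∧ Q * Q = Q ∧ Q.trace = Fintype.card T * Fintype.card F ∧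
      (∀ x y, Q x y ≠ 0 → ∃ j, blk x = β j) ∧
      V * DD pos (fun s => if sg s then U (ty s) else star (U (ty s))) * Q = Q := by
  classical
  let z : E → Prop := fun x => ∃ j a, x = pos (.inl (j, 0), a)
  have ho : ∀ s, (Bm pos s)ᴴ * Bm pos s = 1 := fun s => by rw [Bm_orth hpos, if_pos rfl]
  have hsum : ∑ j, Bm pos (.inl (j, 0)) * (Bm pos (.inl (j, 0)))ᴴ = P0 z := by
    simp only [Bm_proj hpos, P0]
    ext x y
    rw [Matrix.sum_apply]
    by_cases hxy : x = y
    · subst hxy
      simp only [Matrix.diagonal_apply_eq]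
      by_cases hx : z x
      · obtain ⟨j, a, rfl⟩ := id hx
        rw [if_pos hx, Finset.sum_eq_single j (by
          intro i _ hi; simp [hpos.eq_iff, Ne.symm hi]) (by simp)]
        simp [hpos.eq_iff]
      · rw [if_neg hx]
        exact Finset.sum_eq_zero fun j _ => if_neg fun ⟨a, h⟩ => hx ⟨j, a, h⟩
    · simp [Matrix.diagonal_apply_ne _ hxy]
  let M : MD blk z T Pr n :=
    { Bh := fun s => Bm pos s * (Bm pos (.inl (ty s, 0)))ᴴ
      Pj := fun j => Bm pos (.inl (j, 0)) * (Bm pos (.inl (j, 0)))ᴴ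
      ty := ty
      ty_inl := ty_inl
      ty_nx := ty_nx
      orth := fun s s' => by
        rw [Matrix.star_eq_conjTranspose, Matrix.conjTranspose_mul,
          Matrix.conjTranspose_conjTranspose, Matrix.mul_assoc, ← Matrix.mul_assoc (Bm pos s)ᴴ,
          Bm_orth hpos]
        split_ifs with h
        · subst h; simp
        · simp
      mul_Pj := fun s => by
        rw [Matrix.mul_assoc, ← Matrix.mul_assoc _ (Bm pos (.inl (ty s, 0))), ho, Matrix.one_mul]
      B0 := fun j => by rw [ty_inl]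
      sum_Pj := hsum
      comm := fun N h1 h2 j => by
        have : Bm pos (.inl (j, 0)) * (Bm pos (.inl (j, 0)))ᴴ
            = P0 z * Matrix.diagonal ((fun b => if b = β j then 1 else 0) ∘ blk) := by
          rw [Bm_proj hpos, P0, Matrix.diagonal_mul_diagonal]
          congr 1; funext x
          by_cases hx : z x
          · obtain ⟨i, a, rfl⟩ := id hx
            simp [hx, hpos.eq_iff, hbl, bl_inl, hβ.eq_iff]
          · rw [if_neg fun ⟨a, h⟩ => hx ⟨j, a, h⟩, if_neg hx, zero_mul]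
        rw [this]
        exact h2.mul_right (mem_Pat_iff_commute.1 h1 _)
      pat := fun s N => by
        have := Bm_pat hbl (s := s) (s' := s) rfl
          ((Bm pos (.inl (ty s, 0)))ᴴ * N * Bm pos (.inl (ty s, 0)))
        simpa [Matrix.star_eq_conjTranspose, Matrix.mul_assoc] using this
      pat_nx := fun s N => by
        have := Bm_pat hbl (bl_nx s)
          ((Bm pos (.inl (ty (nx s), 0)))ᴴ * N * Bm pos (.inl (ty s, 0)))
        simpa [Matrix.star_eq_conjTranspose, Matrix.mul_assoc] using this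
      pat_inl := fun ⟨j, a⟩ => by
        have := Bm_pat hbl (s := .inl (j, a)) (s' := .inl (j, 0)) (by rw [bl_inl, bl_inl]) 1
        simpa [ty_inl] using this }
  obtain ⟨lam, hl1, hl2⟩ : ∃ lam : E → ℂ, (∀ x, star (lam x) * lam x = 1) ∧
      Function.Injective fun x => star (lam x ^ (n + 1)) := by
    have hζ := Complex.isPrimitiveRoot_exp ((n + 1) * (Fintype.card E + 1)) (by positivity)
    have hζ' := hζ.pow (by positivity) rfl
    refine ⟨fun x => Complex.exp (2 * Real.pi * Complex.I / ((n + 1) * (Fintype.card E + 1) : ℕ))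
      ^ (Fintype.equivFin E x).1, fun x => ?_, fun x y h => ?_⟩
    · rw [Complex.star_def, Complex.conj_mul', norm_pow, hζ.norm'_eq_one (by positivity)]; simp
    · have h1 := star_injective h
      simp only [← pow_mul, mul_comm _ (n + 1)] at h1
      simp only [pow_mul] at h1
      exact (Fintype.equivFin E).injective (Fin.ext (hζ'.pow_inj (by omega) (by omega) h1))
  have hc : ∀ x, star (star (lam x ^ (n + 1))) * star (lam x ^ (n + 1)) = 1 := fun x => by
    rw [star_star, star_pow, ← mul_pow, mul_comm, hl1, one_pow]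
  obtain ⟨x₀, hx₀⟩ := M.exists_sol hl1
  obtain ⟨x, hx⟩ := M.hd.surj (M.V0_mem hc) (M.V0_pat _) hV hV' x₀ hx₀ (M.jac_pos hc hl2)
  have u0 := (x.1 0).2
  have u1 := (x.2 0).1
  have u2 := MD.u_comm x
  have γa := (Unitary.mem_iff.1 (x.1 1).2).1
  have γb := (Unitary.mem_iff.1 (x.1 1).2).2
  refine ⟨fun j => (Bm pos (.inl (j, 0)))ᴴ * (x.1 0 : Matrix E E ℂ) * Bm pos (.inl (j, 0)),
    star (x.1 1 : Matrix E E ℂ) * P0 z * x.1 1, fun j => ?_, by simp [star_P0, mul_assoc], ?_, ?_,
    ?_, ?_⟩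
  · have : star ((Bm pos (.inl (j, 0)))ᴴ * (x.1 0 : Matrix E E ℂ) * Bm pos (.inl (j, 0))) *
        ((Bm pos (.inl (j, 0)))ᴴ * (x.1 0 : Matrix E E ℂ) * Bm pos (.inl (j, 0))) = 1 := by
      have e := (M.comm _ u1 u2 j).eq
      calc _ = (Bm pos (.inl (j, 0)))ᴴ * (star (x.1 0 : Matrix E E ℂ) * (M.Pj j * (x.1 0 : Matrix E E ℂ)))
            * Bm pos (.inl (j, 0)) := by
            simp [M, Matrix.star_eq_conjTranspose, Matrix.mul_assoc]
        _ = _ := by
            rw [← e, ← mul_assoc, (Unitary.mem_iff.1 u0).1, one_mul]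
            simp only [M, ← Matrix.mul_assoc, ho, Matrix.one_mul]
    exact Unitary.mem_iff.2 ⟨this, mul_eq_one_comm.1 this⟩
  · simp only [mul_assoc]
    rw [← mul_assoc (x.1 1 : Matrix E E ℂ), γb, one_mul, P0_P0']
  · rw [Matrix.trace_mul_cycle, γb, one_mul, ← hsum, Matrix.trace_sum]
    simp [Matrix.trace_mul_comm (Bm pos _), ho]
  · intro a b h
    rw [Matrix.mul_apply] at h
    obtain ⟨w, -, hw⟩ := Finset.exists_ne_zero_of_sum_ne_zero h
    rw [P0, Matrix.mul_diagonal] at hw
    have h1 : z w := by by_contra h'; simp [h'] at hw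
    have h2 : blk a = blk w := by
      by_contra h'
      rw [star_mem_Pat (x.2 1).1 a w h'] at hw
      simp at hw
    obtain ⟨j, c, rfl⟩ := h1
    exact ⟨j, by rw [h2, hbl, bl_inl]⟩
  · have e1 : DD pos (fun s => if sg s then (Bm pos (.inl (ty s, 0)))ᴴ * (x.1 0 : Matrix E E ℂ) *
        Bm pos (.inl (ty s, 0)) else star ((Bm pos (.inl (ty s, 0)))ᴴ * (x.1 0 : Matrix E E ℂ) *
        Bm pos (.inl (ty s, 0)))) = M.Dn (x.1 0) := by
      rw [DD, MD.Dn, MD.mon, MD.Pst, one_smul, sub_add, ← Finset.sum_sub_distrib, sub_eq_add_neg,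
        ← Finset.sum_neg_distrib]
      congr 1
      refine Finset.sum_congr rfl fun s _ => ?_
      have : ∀ N : Matrix F E ℂ, (Bm pos (.inl (ty s, 0)))ᴴ * (Bm pos (.inl (ty s, 0)) * N) = N :=
        fun N => by rw [← Matrix.mul_assoc, ho, Matrix.one_mul]
      split_ifs <;>
        simp [M, Matrix.star_eq_conjTranspose, Matrix.mul_assoc, Matrix.mul_sub, Matrix.sub_mul,
          this]
    rw [e1, ← hx, M.hd.f_eq, M.em_gD, mul_assoc _ (star _),
      (Unitary.mem_iff.1 (M.Dn_mem u0 u1 u2)).1, mul_one]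
    simp only [mul_assoc]
    rw [← mul_assoc (x.1 1 : Matrix E E ℂ), γb, one_mul, ← mul_assoc (x.1 2 : Matrix E E ℂ)]
    congr 2
    exact (x.2 2).2

theorem DL {S : Type*} [Fintype S] [DecidableEq S] : DLStmt E B T F S := by
  intro blk pos hpos ty e bl hbl β hβ d hd hcnt V hV hV'
  obtain ⟨n, rfl⟩ : ∃ n, d = n + 1 := ⟨d - 1, by omega⟩
  let f : S → T × B × Bool := fun s => (ty s, bl s, e s)
  let g : Sl T {s // e s = false} n → T × B × Bool := fun s => match s with
    | .inl s => (s.1, β s.1, true)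
    | .inr r => (ty r.1.1, bl r.1.1, r.2)
  have hc : ∀ c, Fintype.card {k // g k = c} = Fintype.card {k // f k = c} := by
    rintro ⟨i, b, t⟩
    have h1 : ∀ i b, (∑ r : {s // e s = false}, if ty r.1 = i ∧ bl r.1 = b then 1 else 0 : ℕ)
        = ∑ s, if ty s = i ∧ bl s = b ∧ e s = false then 1 else 0 := by
      intro i b
      rw [← Fintype.sum_subtype_add_sum_subtype (fun s => e s = false),
        Finset.sum_eq_zero (s := (Finset.univ : Finset {s // ¬e s = false}))
          (fun s _ => if_neg fun h => s.2 h.2.2), add_zero]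
      exact Finset.sum_congr rfl fun s _ => by simp [s.2]
    rw [Fintype.card_subtype, Fintype.card_subtype, Finset.card_filter, Finset.card_filter,
      Fintype.sum_sum_type, Fintype.sum_prod_type, Fintype.sum_prod_type]
    simp only [f, g, Prod.mk.injEq, Fintype.sum_bool]
    cases t
    · simp only [Bool.true_eq_false, and_false, if_false, Finset.sum_const_zero, and_true,
        zero_add, h1]
    · simp only [Bool.false_eq_true, and_false, if_false, and_true, add_zero, h1]
      have h2 := hcnt i b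
      have h3 : (∑ s, if ty s = i ∧ bl s = b then (if e s then 1 else -1) else 0 : ℤ)
          = ((∑ s, if ty s = i ∧ bl s = b ∧ e s = true then 1 else 0 : ℕ) : ℤ)
            - ((∑ s, if ty s = i ∧ bl s = b ∧ e s = false then 1 else 0 : ℕ) : ℤ) := by
        push_cast
        rw [← Finset.sum_sub_distrib]
        refine Finset.sum_congr rfl fun s _ => ?_
        cases e s <;> split_ifs <;> simp_all
      have h4 : (∑ j : T, ∑ _a : Fin (n + 1), if j = i ∧ β j = b then 1 else 0 : ℕ)
          = if b = β i then n + 1 else 0 := by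
        simp [ite_and, eq_comm (a := b)]
      rw [h4]
      rw [h3] at h2
      split_ifs at h2 ⊢ <;> omega
  let σ := Equiv.ofFiberEquiv (f := g) (g := f) fun c => Fintype.equivOfCardEq (hc c)
  have hσ : ∀ k, f (σ k) = g k := fun k => Equiv.ofFiberEquiv_map _ k
  have s1 : ∀ k, ty (σ k) = (g k).1 := fun k => congrArg (·.1) (hσ k)
  have s2 : ∀ k, bl (σ k) = (g k).2.1 := fun k => congrArg (·.2.1) (hσ k)
  have s3 : ∀ k, e (σ k) = sg k := fun k => (congrArg (·.2.2) (hσ k)).trans (by
    rcases k with _ | _ <;> rfl)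
  obtain ⟨U, Q, h1, h2, h3, h4, h5, h6⟩ := DL_model blk (fun s => pos (σ s.1, s.2))
    (hpos.comp (Equiv.prodCongr σ (Equiv.refl F)).injective) (fun s => ty (σ s))
    (fun j a => s1 _) (by rintro (_ | _) <;> simp only [s1] <;> rfl) (fun s => bl (σ s))
    (fun s a => hbl _ _) β hβ (fun j a => s2 _) (by rintro (_ | _) <;> simp only [s2] <;> rfl)
    V hV hV'
  refine ⟨U, Q, h1, h2, h3, h4, h5, Eq.trans ?_ h6⟩
  congr 2
  rw [DD, DD, ← Equiv.sum_comp σ]
  simp only [s3]
  rfl

end Crest.Agent.R174
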