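import Mathlib

set_option autoImplicit false

namespace Crest.Agent.R174
open Matrix NormedSpace

variable {E B : Type*} [Fintype E] [DecidableEq E]

/-- block preserving matrices -/
def Pat (blk : E → B) : Subalgebra ℂ (Matrix E E ℂ) where
  carrier := {M | ∀ x y, blk x ≠ blk y → M x y = 0}
  mul_mem' {a b} ha hb x y h := by
    rw [Matrix.mul_apply]
    refine Finset.sum_eq_zero fun w _ => ?_
    by_cases h' : blk x = blk w
    · rw [hb w y (h' ▸ h), mul_zero]
    · rw [ha x w h', zero_mul]
  add_mem' {a b} ha hb x y h := by rw [Matrix.add_apply, ha x y h, hb x y h, add_zero]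
  algebraMap_mem' c x y h := by
    rw [Matrix.algebraMap_matrix_apply, if_neg]
    rintro rfl; exact h rfl

lemma mem_Pat {blk : E → B} {M : Matrix E E ℂ} :
    M ∈ Pat blk ↔ ∀ x y, blk x ≠ blk y → M x y = 0 := Iff.rfl

lemma star_mem_Pat {blk : E → B} {M : Matrix E E ℂ} (h : M ∈ Pat blk) : star M ∈ Pat blk :=
  fun x y hxy => by rw [Matrix.star_apply, h y x (Ne.symm hxy), star_zero]

lemma diagonal_mem_Pat (blk : E → B) (v : E → ℂ) : Matrix.diagonal v ∈ Pat blk :=
  fun x y h => Matrix.diagonal_apply_ne _ (by rintro rfl; exact h rfl)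

lemma mem_Pat_iff_commute {blk : E → B} {M : Matrix E E ℂ} :
    M ∈ Pat blk ↔ ∀ φ : B → ℂ, Commute M (Matrix.diagonal (φ ∘ blk)) := by
  classical
  constructor
  · intro h φ
    ext x y
    rw [Matrix.mul_diagonal, Matrix.diagonal_mul]
    by_cases hxy : blk x = blk y
    · simp [hxy, mul_comm]
    · simp [h x y hxy]
  · intro h x y hxy
    have := congrFun (congrFun (h fun b => if b = blk x then 1 else 0).eq x) y
    simpa [Matrix.mul_diagonal, Matrix.diagonal_mul, Ne.symm hxy] using this.symm

/-- one parameter groups -/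
noncomputable def xp (A : Matrix E E ℂ) (t : ℝ) : Matrix E E ℂ := exp (t • A)

set_option backward.isDefEq.respectTransparency false in
open scoped Matrix.Norms.Operator in
lemma hasDerivAt_xp (A : Matrix E E ℂ) (t : ℝ) (x y : E) :
    HasDerivAt (fun s => xp A s x y) ((A * xp A t) x y) t := by
  have h := hasDerivAt_exp_smul_const' (𝕂 := ℝ) A t
  let φ : Matrix E E ℂ →L[ℝ] ℂ := LinearMap.toContinuousLinearMap (Matrix.entryLinearMap ℝ ℂ x y)
  exact φ.hasFDerivAt.comp_hasDerivAt t h

lemma continuous_xp (A : Matrix E E ℂ) : Continuous (xp A) :=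
  continuous_matrix fun x y =>
    continuous_iff_continuousAt.2 fun t => (hasDerivAt_xp A t x y).continuousAt

lemma xp_zero (A : Matrix E E ℂ) : xp A 0 = 1 := by simp [xp]

lemma xp_commute {A C : Matrix E E ℂ} (h : Commute A C) (t : ℝ) : Commute (xp A t) C :=
  (h.smul_left t).exp_left

lemma xp_mem_Pat {blk : E → B} {A : Matrix E E ℂ} (h : A ∈ Pat blk) (t : ℝ) : xp A t ∈ Pat blk :=
  mem_Pat_iff_commute.2 fun φ => xp_commute (mem_Pat_iff_commute.1 h φ) t

lemma star_xp {A : Matrix E E ℂ} (h : star A = -A) (t : ℝ) : star (xp A t) = xp A (-t) := by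
  rw [xp, star_exp, star_smul, h, xp]; simp

lemma xp_add (A : Matrix E E ℂ) (s t : ℝ) : xp A (s + t) = xp A s * xp A t := by
  rw [xp, add_smul, Matrix.exp_add_of_commute _ _ (((Commute.refl A).smul_left s).smul_right t)]
  rfl

lemma xp_mem_unitary {A : Matrix E E ℂ} (h : star A = -A) (t : ℝ) :
    xp A t ∈ unitary (Matrix E E ℂ) := by
  rw [Unitary.mem_iff, star_xp h, ← xp_add, ← xp_add]; simp [xp_zero]

lemma xp_mul_eq {A P : Matrix E E ℂ} (h : A * P = 0) (t : ℝ) : xp A t * P = P := by
  ext x y
  have hd : ∀ s, HasDerivAt (fun s => (xp A s * P) x y) 0 s := by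
    intro s
    have := HasDerivAt.fun_sum (u := Finset.univ)
      fun w _ => (hasDerivAt_xp A s x w).mul_const (P w y)
    rw [← Matrix.mul_apply, ← (xp_commute (Commute.refl A) s).eq, mul_assoc, h, mul_zero] at this
    exact this
  have := is_const_of_deriv_eq_zero (fun s => (hd s).differentiableAt) (fun s => (hd s).deriv) t 0
  simpa [xp_zero] using this

set_option backward.isDefEq.respectTransparency false in
open scoped Matrix.Norms.L2Operator in
lemma exists_log {u : Matrix E E ℂ} (hu : u ∈ unitary (Matrix E E ℂ)) :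
    ∃ A : Matrix E E ℂ, star A = -A ∧ xp A 1 = u ∧ ∀ C, Commute u C → Commute A C := by
  have hn : IsStarNormal u := isStarNormal_of_mem_unitary hu
  have hfin : (spectrum ℂ u).Finite := Matrix.finite_spectrum u
  have hc : ∀ f : ℂ → ℂ, ContinuousOn f (spectrum ℂ u) := fun f => hfin.continuousOn f
  have h1 : ∀ z ∈ spectrum ℂ u, ‖z‖ = 1 := fun z hz => spectrum.norm_eq_one_of_unitary hu hz
  refine ⟨cfc Complex.log u, ?_, ?_, ?_⟩
  · rw [← cfc_star, ← cfc_neg]
    refine cfc_congr fun z hz => ?_
    simp [Complex.log, h1 z hz]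
  · rw [xp, one_smul, ← CFC.complex_exp_eq_normedSpace_exp, ← cfc_comp' Complex.exp Complex.log u
      (by fun_prop) (hc _)]
    conv_rhs => rw [← cfc_id' ℂ u]
    refine cfc_congr fun z hz => Complex.exp_log ?_
    rintro rfl
    simpa using h1 0 hz
  · intro C hC
    refine hC.cfc ?_ _
    have h2 := (Unitary.mem_iff.1 hu)
    calc star u * C = star u * C * (u * star u) := by rw [h2.2, mul_one]
      _ = star u * (u * C) * star u := by rw [hC.eq]; simp only [mul_assoc]
      _ = C * star u := by rw [← mul_assoc, h2.1, one_mul]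

end Crest.Agent.R174
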