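import Mathlib

set_option autoImplicit false

namespace Crest.Agent.R174
open Complex

lemma hda_congr {F : Type*} [NormedAddCommGroup F] [NormedSpace ℝ F] {f g : ℝ → F} {f' g' : F}
    {x : ℝ} (h : HasDerivAt f f' x) (hf : ∀ t, g t = f t) (hd : g' = f') : HasDerivAt g g' x := by
  rw [hd, funext hf]; exact h

section Phase
variable {A : Type*} [Ring A] [StarRing A] [Algebra ℂ A] [StarModule ℂ A]

/-- rotation by angle `θ` on the range of the projection `Q` -/
noncomputable def rot (Q : A) (θ : ℝ) : A := 1 + (Complex.exp (θ * I) - 1) • Q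

omit [StarRing A] [StarModule ℂ A] in
lemma rot_mul_rot {Q : A} (hQ : Q * Q = Q) (s t : ℝ) : rot Q s * rot Q t = rot Q (s + t) := by
  simp only [rot, mul_add, add_mul, one_mul, mul_one, smul_mul_assoc, mul_smul_comm, hQ]
  push_cast
  rw [add_mul, Complex.exp_add]
  module

omit [StarRing A] [StarModule ℂ A] in
lemma rot_zero (Q : A) : rot Q 0 = 1 := by simp [rot]

lemma star_rot {Q : A} (hQ : star Q = Q) (s : ℝ) : star (rot Q s) = rot Q (-s) := by
  simp [rot, hQ, ← Complex.exp_conj]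

lemma rot_mem {Q : A} (h1 : star Q = Q) (h2 : Q * Q = Q) (s : ℝ) : rot Q s ∈ unitary A := by
  rw [Unitary.mem_iff, star_rot h1, rot_mul_rot h2, rot_mul_rot h2]
  simp [rot_zero]

noncomputable def dpow (x b : A) : ℕ → A
  | 0 => 0
  | n + 1 => dpow x b n * x + x ^ n * b

omit [StarRing A] [StarModule ℂ A] in
lemma weak_deriv (a b : A) (c : ℝ → ℂ) (c' : ℂ) (s : ℝ) (hc : HasDerivAt c c' s) (n : ℕ) :
    ∀ φ : A →ₗ[ℂ] ℂ, HasDerivAt (fun t => φ ((a + c t • b) ^ n))
      (φ (dpow (a + c s • b) (c' • b) n)) s := by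
  induction n with
  | zero => intro φ; simpa [dpow] using hasDerivAt_const s (φ 1)
  | succ n ih =>
    intro φ
    have h1 := ih (φ.comp (LinearMap.mulRight ℂ a))
    have h2 := hc.mul (ih (φ.comp (LinearMap.mulRight ℂ b)))
    have h3 := h1.add h2
    refine hda_congr h3 (fun t => ?_) ?_
    · simp [pow_succ, mul_add]
    · simp [dpow, mul_add]
      ring

omit [StarRing A] [StarModule ℂ A] in
lemma tr_dpow (τ : A →ₗ[ℂ] ℂ) (htr : ∀ a b, τ (a * b) = τ (b * a)) (x b : A) (n : ℕ) :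
    ∀ m : ℕ, τ (dpow x b (n + 1) * x ^ m) = (n + 1) * τ (b * x ^ (n + m)) := by
  induction n with
  | zero => intro m; simp [dpow]
  | succ n ih =>
    intro m
    rw [dpow, add_mul, map_add, mul_assoc, ← pow_succ', ih, mul_assoc, htr (x ^ (n + 1)),
      mul_assoc, ← pow_add]
    rw [show n + (m + 1) = n + 1 + m by ring, show m + (n + 1) = n + 1 + m by ring]
    push_cast
    ring

omit [StarRing A] [StarModule ℂ A] in
lemma hasDerivAt_tr_pow (τ : A →ₗ[ℂ] ℂ) (htr : ∀ a b, τ (a * b) = τ (b * a))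
    (a b : A) (c : ℝ → ℂ) (c' : ℂ) (s : ℝ) (hc : HasDerivAt c c' s) (n : ℕ) :
    HasDerivAt (fun t => τ ((a + c t • b) ^ (n + 1)))
      ((n + 1) * (c' * τ (b * (a + c s • b) ^ n))) s := by
  have := weak_deriv a b c c' s hc (n + 1) τ
  have h2 := tr_dpow τ htr (a + c s • b) (c' • b) n 0
  simp only [pow_zero, mul_one, add_zero, smul_mul_assoc, map_smul, smul_eq_mul] at h2
  rwa [h2] at this

lemma hasDerivAt_expI (s : ℝ) :
    HasDerivAt (fun t : ℝ => Complex.exp (t * I)) (Complex.exp (s * I) * I) s := by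
  have h : HasDerivAt (fun t : ℝ => (t : ℂ) * I) (1 * I) s :=
    (Complex.ofRealCLM.hasDerivAt (x := s)).mul_const I
  simpa using h.cexp

lemma hasDerivAt_tr_zpow (τ : A →ₗ[ℂ] ℂ) (htr : ∀ a b, τ (a * b) = τ (b * a))
    (v : unitary A) {Q : A} (h1 : star Q = Q) (h2 : Q * Q = Q) (s : ℝ) (n : ℤ) :
    HasDerivAt (fun t => τ (((v * ⟨rot Q t, rot_mem h1 h2 t⟩) ^ n : unitary A) : A))
      (n * I * τ ((((v * ⟨rot Q s, rot_mem h1 h2 s⟩) ^ n : unitary A) : A) * Q)) s := by
  have e1 : ∀ t : ℝ, ((v * ⟨rot Q t, rot_mem h1 h2 t⟩ : unitary A) : A)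
      = v * (1 - Q) + Complex.exp (t * I) • (v * Q) := by
    intro t
    simp only [Submonoid.coe_mul, rot, mul_add, mul_sub, mul_one, mul_smul_comm, sub_smul,
      one_smul]
    abel
  have e2 : ∀ t : ℝ, (((v * ⟨rot Q t, rot_mem h1 h2 t⟩)⁻¹ : unitary A) : A)
      = (1 - Q) * star (v : A) + Complex.exp (-(t * I)) • (Q * star (v : A)) := by
    intro t
    rw [← Unitary.star_eq_inv, Unitary.coe_star, e1]
    simp [h1, ← Complex.exp_conj]
  rcases lt_trichotomy n 0 with hn | rfl | hn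
  · obtain ⟨m, rfl⟩ := Int.eq_negSucc_of_lt_zero hn
    have hc : HasDerivAt (fun t : ℝ => Complex.exp (-(t * I))) (-(Complex.exp (-(s * I)) * I)) s := by
      have h : HasDerivAt (fun t : ℝ => -((t : ℂ) * I)) (-(1 * I)) s :=
        ((Complex.ofRealCLM.hasDerivAt (x := s)).mul_const I).neg
      simpa using h.cexp
    have := hasDerivAt_tr_pow τ htr ((1 - Q) * star (v : A)) (Q * star (v : A)) _ _ s hc m
    simp only [zpow_negSucc, ← inv_pow, SubmonoidClass.coe_pow, e2]
    refine hda_congr this (fun t => rfl) ?_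
    rw [htr _ Q, pow_succ', ← mul_assoc Q, mul_add, ← mul_assoc Q, mul_sub, h2, mul_one,
      sub_self, zero_mul, zero_add, mul_smul_comm, ← mul_assoc Q, h2, smul_mul_assoc, map_smul]
    simp only [Int.cast_negSucc, smul_eq_mul]
    push_cast
    ring
  · simpa using hasDerivAt_const s (τ 1)
  · obtain ⟨m, rfl⟩ := Int.eq_succ_of_zero_lt hn
    have := hasDerivAt_tr_pow τ htr (v * (1 - Q)) (v * Q) _ _ s (hasDerivAt_expI s) m
    have e3 : ((m : ℤ) + 1) = ((m + 1 : ℕ) : ℤ) := by push_cast; ring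
    simp only [e3, zpow_natCast, SubmonoidClass.coe_pow, e1]
    refine hda_congr this (fun t => rfl) ?_
    rw [htr (v * Q), pow_succ, mul_assoc (_ ^ m), add_mul, mul_assoc (v : A), sub_mul, h2,
      one_mul, sub_self, mul_zero, zero_add, smul_mul_assoc, mul_assoc (v : A), h2,
      mul_smul_comm, map_smul]
    simp only [smul_eq_mul]
    push_cast
    ring

/-- evaluation of a Laurent polynomial at a unitary -/
noncomputable def lev (u : unitary A) : AddMonoidAlgebra ℂ ℤ →ₐ[ℂ] A :=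
  AddMonoidAlgebra.lift ℂ A ℤ ((unitary A).subtype.comp (zpowersHom (unitary A) u))

omit [StarModule ℂ A] in
lemma lev_single (u : unitary A) (n : ℤ) (c : ℂ) :
    lev u (AddMonoidAlgebra.single n c) = c • ((u ^ n : unitary A) : A) := by
  rw [lev, AddMonoidAlgebra.lift_single]; simp

omit [StarModule ℂ A] in
lemma lev_apply (u : unitary A) (q : AddMonoidAlgebra ℂ ℤ) :
    lev u q = ∑ n ∈ q.coeff.support, q.coeff n • ((u ^ n : unitary A) : A) := by
  simp [lev, AddMonoidAlgebra.lift_apply, Finsupp.sum]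

/-- complex phase function -/
noncomputable def phc (τ : A →ₗ[ℂ] ℂ) (q : AddMonoidAlgebra ℂ ℤ) (u : unitary A) : ℂ :=
  ∑ n ∈ q.coeff.support, q.coeff n / (n * I) * τ ((u ^ n : unitary A) : A)

lemma hasDerivAt_phc (τ : A →ₗ[ℂ] ℂ) (htr : ∀ a b, τ (a * b) = τ (b * a))
    (q : AddMonoidAlgebra ℂ ℤ)
    (v : unitary A) {Q : A} (h1 : star Q = Q) (h2 : Q * Q = Q) (s : ℝ) :
    HasDerivAt (fun t => phc τ q (v * ⟨rot Q t, rot_mem h1 h2 t⟩))
      (τ (lev (v * ⟨rot Q s, rot_mem h1 h2 s⟩) q * Q) - q.coeff 0 * τ Q) s := by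
  have := HasDerivAt.fun_sum (u := q.coeff.support)
    (fun n _ => (hasDerivAt_tr_zpow τ htr v h1 h2 s n).const_mul (q.coeff n / (n * I)))
  refine hda_congr this (fun t => rfl) ?_
  rw [lev_apply, Finset.sum_mul, map_sum]
  have e : q.coeff 0 * τ Q = ∑ n ∈ q.coeff.support, if n = 0 then q.coeff 0 * τ Q else 0 := by
    rw [Finset.sum_ite_eq']
    split_ifs with h
    · rfl
    · simp [Finsupp.notMem_support_iff.1 h]
  rw [e, ← Finset.sum_sub_distrib]
  refine Finset.sum_congr rfl fun n _ => ?_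
  split_ifs with h
  · subst h; simp
  · have : (n : ℂ) * I ≠ 0 := mul_ne_zero (by exact_mod_cast h) I_ne_zero
    rw [smul_mul_assoc, map_smul, smul_eq_mul, sub_zero]
    field_simp

omit [StarModule ℂ A] in
lemma phc_conj (τ : A →ₗ[ℂ] ℂ) (htr : ∀ a b, τ (a * b) = τ (b * a))
    (q : AddMonoidAlgebra ℂ ℤ) (u v : unitary A) : phc τ q (v * u * v⁻¹) = phc τ q u := by
  unfold phc
  refine Finset.sum_congr rfl fun n _ => ?_
  rw [conj_zpow, Submonoid.coe_mul, htr, ← Submonoid.coe_mul]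
  simp

/-- the peaked kernel -/
noncomputable def kerP (ζ : ℂ) (k : ℕ) : AddMonoidAlgebra ℂ ℤ :=
  (1 + AddMonoidAlgebra.single (-1) (star ζ)) ^ k * (1 + AddMonoidAlgebra.single 1 ζ) ^ k

lemma lev_kerP (ζ : ℂ) (k : ℕ) (u : unitary A) :
    lev u (kerP ζ k) = star ((1 + ζ • (u : A)) ^ k) * (1 + ζ • (u : A)) ^ k := by
  simp only [kerP, map_mul, map_pow, map_add, map_one, lev_single]
  simp [← Unitary.star_eq_inv]

/-- the scalar unitary `e^{is}` -/
noncomputable def scal (A : Type*) [Ring A] [StarRing A] [Algebra ℂ A] [StarModule ℂ A] (s : ℝ) :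
    unitary A := ⟨rot 1 s, rot_mem (star_one A) (one_mul 1) s⟩

lemma coe_scal (s : ℝ) : (scal A s : A) = Complex.exp (s * I) • (1 : A) := by
  simp [scal, rot, sub_smul]

lemma lev_kerP_scal (e : ℝ) (k : ℕ) (s : ℝ) :
    lev (scal A s) (kerP (Complex.exp (e * I)) k)
      = (((2 + 2 * Real.cos (s + e)) ^ k : ℝ) : ℂ) • (1 : A) := by
  rw [lev_kerP, coe_scal, smul_smul, ← Complex.exp_add, star_pow]
  have : ∀ z : ℂ, (1 : A) + z • (1 : A) = (1 + z) • (1 : A) := fun z => by rw [add_smul, one_smul]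
  rw [this, star_smul, star_one, smul_pow, smul_pow, one_pow, smul_mul_smul_comm, one_mul,
    ← mul_pow]
  congr 1
  push_cast
  congr 1
  rw [show (e : ℂ) * I + s * I = (s + e) * I by ring, Complex.cos]
  simp only [star_add, star_one, Complex.star_def, ← Complex.exp_conj, map_mul, map_add,
    conj_ofReal, conj_I]
  have : Complex.exp ((s + e) * -I) * Complex.exp ((s + e) * I) = 1 := by
    rw [← Complex.exp_add]; simp
  rw [show -((s : ℂ) + e) * I = (s + e) * -I by ring]
  linear_combination this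

lemma phc_scal_sub (τ : A →ₗ[ℂ] ℂ) (htr : ∀ a b, τ (a * b) = τ (b * a)) (e : ℝ) (k : ℕ)
    (a b : ℝ) :
    phc τ (kerP (Complex.exp (e * I)) k) (scal A b) - phc τ (kerP (Complex.exp (e * I)) k) (scal A a)
      = (((∫ s in a..b, (2 + 2 * Real.cos (s + e)) ^ k : ℝ) : ℂ)
        - (b - a) * (kerP (Complex.exp (e * I)) k).coeff 0) * τ 1 := by
  have hd : ∀ s ∈ Set.uIcc a b, HasDerivAt
      (fun t => phc τ (kerP (Complex.exp (e * I)) k) (scal A t))
      (((((2 + 2 * Real.cos (s + e)) ^ k : ℝ) : ℂ)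
        - (kerP (Complex.exp (e * I)) k).coeff 0) * τ 1) s := by
    intro s _
    have := hasDerivAt_phc τ htr (kerP (Complex.exp (e * I)) k) 1 (star_one A) (one_mul 1) s
    refine hda_congr this (fun t => by rw [one_mul]; rfl) ?_
    rw [one_mul, mul_one]
    change _ = τ (lev (scal A s) _) - _
    rw [lev_kerP_scal, map_smul, smul_eq_mul]
    ring
  rw [← intervalIntegral.integral_eq_sub_of_hasDerivAt hd
    (Continuous.intervalIntegrable (by fun_prop) _ _), intervalIntegral.integral_mul_const,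
    intervalIntegral.integral_sub (Continuous.intervalIntegrable (by fun_prop) _ _)
      (Continuous.intervalIntegrable (by fun_prop) _ _), intervalIntegral.integral_ofReal]
  simp

lemma kerP_coeff (e : ℝ) (k : ℕ) (a : ℝ) :
    (kerP (Complex.exp (e * I)) k).coeff 0
      = (((∫ s in a..(a + 2 * Real.pi), (2 + 2 * Real.cos (s + e)) ^ k) / (2 * Real.pi) : ℝ) : ℂ) := by
  have h := phc_scal_sub (A := ℂ) LinearMap.id (fun a b => mul_comm a b) e k a (a + 2 * Real.pi)
  have h2 : scal ℂ (a + 2 * Real.pi) = scal ℂ a := by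
    apply Subtype.ext
    rw [coe_scal, coe_scal]
    push_cast
    rw [add_mul, Complex.exp_add, Complex.exp_two_pi_mul_I, mul_one]
  rw [h2, sub_self] at h
  have hp : (Real.pi : ℂ) ≠ 0 := by exact_mod_cast Real.pi_ne_zero
  simp only [LinearMap.id_coe, id_eq, mul_one] at h
  rw [Complex.ofReal_div]
  generalize (∫ s in a..(a + 2 * Real.pi), (2 + 2 * Real.cos (s + e)) ^ k) = T at h ⊢
  push_cast at h ⊢
  field_simp
  linear_combination h

lemma concentration (ε η : ℝ) (hε : 0 < ε) (hε' : ε ≤ Real.pi) (hη : 0 < η) :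
    ∃ k : ℕ, 0 < (∫ s in (-ε)..(-ε + 2 * Real.pi), (2 + 2 * Real.cos (s + ε / 2)) ^ k) ∧
      (2 * Real.pi - η) * ((∫ s in (-ε)..(-ε + 2 * Real.pi), (2 + 2 * Real.cos (s + ε / 2)) ^ k)
        / (2 * Real.pi)) ≤ ∫ s in (-ε)..0, (2 + 2 * Real.cos (s + ε / 2)) ^ k := by
  have hpi := Real.pi_pos
  set r₁ := 2 + 2 * Real.cos (ε / 2) with hr₁
  set r₂ := 2 + 2 * Real.cos (ε / 4) with hr₂
  have h12 : r₁ < r₂ := by
    have := Real.cos_lt_cos_of_nonneg_of_le_pi (x := ε / 4) (y := ε / 2) (by positivity)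
      (by linarith) (by linarith)
    linarith
  have h1 : 0 ≤ r₁ := by have := Real.neg_one_le_cos (ε / 2); linarith
  have h2 : 0 < r₂ := by linarith
  obtain ⟨k, hk⟩ := exists_pow_lt_of_lt_one (x := η * ε / (8 * Real.pi ^ 2)) (y := r₁ / r₂)
    (by positivity) ((div_lt_one h2).2 h12)
  refine ⟨k, ?_⟩
  have hc : Continuous fun s : ℝ => (2 + 2 * Real.cos (s + ε / 2)) ^ k := by fun_prop
  have hnn : ∀ s : ℝ, 0 ≤ (2 + 2 * Real.cos (s + ε / 2)) ^ k := fun s => by
    have := Real.neg_one_le_cos (s + ε / 2)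
    exact pow_nonneg (by linarith) _
  have hA : (∫ s in (0 : ℝ)..(-ε + 2 * Real.pi), (2 + 2 * Real.cos (s + ε / 2)) ^ k)
      ≤ 2 * Real.pi * r₁ ^ k := by
    have := intervalIntegral.integral_mono_on (μ := MeasureTheory.volume) (a := 0)
      (b := -ε + 2 * Real.pi)
      (f := fun s => (2 + 2 * Real.cos (s + ε / 2)) ^ k) (g := fun _ => r₁ ^ k) (by linarith)
      (hc.intervalIntegrable _ _) (continuous_const.intervalIntegrable _ _) (fun s hs => by
        have h0 := Real.neg_one_le_cos (s + ε / 2)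
        refine pow_le_pow_left₀ (by linarith) ?_ k
        have : Real.cos (s + ε / 2) ≤ Real.cos (ε / 2) := by
          rcases le_total (s + ε / 2) Real.pi with h | h
          · exact Real.cos_le_cos_of_nonneg_of_le_pi (by positivity) h (by linarith [hs.1])
          · rw [← Real.cos_two_pi_sub (s + ε / 2)]
            exact Real.cos_le_cos_of_nonneg_of_le_pi (by positivity) (by linarith)
              (by linarith [hs.2])
        linarith)
    simp only [intervalIntegral.integral_const, smul_eq_mul] at this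
    have : 0 ≤ r₁ ^ k := pow_nonneg h1 k
    nlinarith
  have hB : ε / 2 * r₂ ^ k ≤ ∫ s in (-ε)..(-ε + 2 * Real.pi), (2 + 2 * Real.cos (s + ε / 2)) ^ k := by
    have h3 := intervalIntegral.integral_mono_on (μ := MeasureTheory.volume) (a := -(3 * ε / 4))
      (b := -(ε / 4))
      (g := fun s => (2 + 2 * Real.cos (s + ε / 2)) ^ k) (f := fun _ => r₂ ^ k) (by linarith)
      (continuous_const.intervalIntegrable _ _) (hc.intervalIntegrable _ _) (fun s hs => by
        refine pow_le_pow_left₀ h2.le ?_ k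
        have : Real.cos (ε / 4) ≤ Real.cos (s + ε / 2) := by
          rw [← Real.cos_abs (s + ε / 2)]
          refine Real.cos_le_cos_of_nonneg_of_le_pi (abs_nonneg _) (by linarith) ?_
          rw [abs_le]; constructor <;> linarith [hs.1, hs.2]
        linarith)
    have h4 := intervalIntegral.integral_mono_interval (μ := MeasureTheory.volume)
      (f := fun s => (2 + 2 * Real.cos (s + ε / 2)) ^ k) (c := -ε) (d := -ε + 2 * Real.pi)
      (a := -(3 * ε / 4)) (b := -(ε / 4)) (by linarith) (by linarith) (by linarith)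
      (Filter.Eventually.of_forall hnn) (hc.intervalIntegrable _ _)
    simp only [intervalIntegral.integral_const, smul_eq_mul] at h3
    linarith
  have hsplit := intervalIntegral.integral_add_adjacent_intervals (μ := MeasureTheory.volume)
    (a := -ε) (b := 0) (c := -ε + 2 * Real.pi) (hc.intervalIntegrable _ _)
    (hc.intervalIntegrable _ _)
  have hpos : 0 < r₂ ^ k := pow_pos h2 k
  refine ⟨lt_of_lt_of_le (by positivity) hB, ?_⟩
  rw [div_pow, div_lt_div_iff₀ hpos (by positivity)] at hk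
  set T := ∫ s in (-ε)..(-ε + 2 * Real.pi), (2 + 2 * Real.cos (s + ε / 2)) ^ k
  have h5 : 2 * Real.pi * r₁ ^ k ≤ η * (T / (2 * Real.pi)) := by
    rw [← mul_div_assoc, le_div_iff₀ (by positivity)]
    nlinarith
  have h6 : (2 * Real.pi - η) * (T / (2 * Real.pi)) = T - η * (T / (2 * Real.pi)) := by
    field_simp
  linarith

theorem exists_phase (τ : A →ₗ[ℂ] ℂ) (htr : ∀ a b, τ (a * b) = τ (b * a))
    (hpos : ∀ a, 0 ≤ (τ (star a * a)).re) (ε η : ℝ) (hε : 0 < ε) (hε' : ε ≤ Real.pi)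
    (hη : 0 < η) :
    ∃ Φ : unitary A → ℝ, (∀ u v, Φ (v * u * v⁻¹) = Φ u) ∧
      (∀ (v u : unitary A) (Q : A) (θ : ℝ), star Q = Q → Q * Q = Q → 0 ≤ θ → (u : A) = rot Q θ →
        Φ v - θ * (τ Q).re ≤ Φ (v * u)) ∧
      Φ (scal A (-ε)) - Φ 1 ≤ -(2 * Real.pi - ε - η) * (τ 1).re := by
  obtain ⟨k, hk0, hk⟩ := concentration ε η hε hε' hη
  have hq := kerP_coeff (ε / 2) k (-ε)
  set T := ∫ s in (-ε)..(-ε + 2 * Real.pi), (2 + 2 * Real.cos (s + ε / 2)) ^ k
  set a₀ := T / (2 * Real.pi)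
  have ha : 0 < a₀ := by have := Real.pi_pos; positivity
  set q := kerP (Complex.exp ((ε / 2 : ℝ) * I)) k with hqd
  refine ⟨fun u => (phc τ q u).re / a₀, fun u v => by simp only [phc_conj τ htr], ?_, ?_⟩
  · intro v u Q θ h1 h2 hθ hu
    have hd : ∀ s : ℝ, HasDerivAt
        (fun t : ℝ => (phc τ q (v * ⟨rot Q t, rot_mem h1 h2 t⟩)).re / a₀ + t * (τ Q).re)
        ((τ (lev (v * ⟨rot Q s, rot_mem h1 h2 s⟩) q * Q)).re / a₀) s := by
      intro s
      have h3 := (Complex.reCLM.hasFDerivAt.comp_hasDerivAt s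
        (hasDerivAt_phc τ htr q v h1 h2 s)).div_const a₀
      have h4 := h3.add ((hasDerivAt_id s).mul_const (τ Q).re)
      refine hda_congr h4 (fun t => rfl) ?_
      rw [hq]
      simp
      field_simp
      ring
    have hm : Monotone
        (fun t : ℝ => (phc τ q (v * ⟨rot Q t, rot_mem h1 h2 t⟩)).re / a₀ + t * (τ Q).re) := by
      refine monotone_of_deriv_nonneg (fun s => (hd s).differentiableAt) fun s => ?_
      rw [(hd s).deriv]
      refine div_nonneg ?_ ha.le
      rw [hqd, lev_kerP]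
      set x := (1 + Complex.exp ((ε / 2 : ℝ) * I) • ((v * ⟨rot Q s, rot_mem h1 h2 s⟩ : unitary A) : A)) ^ k
      have := hpos (x * Q)
      rwa [star_mul, h1, mul_assoc, htr Q, mul_assoc, mul_assoc, h2, ← mul_assoc] at this
    have h5 := hm hθ
    have e0 : (⟨rot Q 0, rot_mem h1 h2 0⟩ : unitary A) = 1 := Subtype.ext (rot_zero Q)
    have e1 : (⟨rot Q θ, rot_mem h1 h2 θ⟩ : unitary A) = u := Subtype.ext hu.symm
    simp only [e0, e1, mul_one, zero_mul, add_zero] at h5
    linarith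
  · have h := phc_scal_sub τ htr (ε / 2) k (-ε) 0
    have e0 : scal A 0 = 1 := Subtype.ext (rot_zero 1)
    rw [e0, ← hqd, hq] at h
    have h1 := congrArg Complex.re h
    have h2 : 0 ≤ (τ 1).re := by simpa using hpos 1
    rw [← Complex.ofReal_sub, ← Complex.ofReal_mul, ← Complex.ofReal_sub, Complex.re_ofReal_mul,
      Complex.sub_re] at h1
    simp only
    rw [← sub_div, div_le_iff₀ ha]
    nlinarith

end Phase
end Crest.Agent.R174
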