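import Crest.Agent.R174.ExpLog
import Crest.Agent.R174.Phase

set_option autoImplicit false

namespace Crest.Agent.R174
open Matrix MeasureTheory

section General
variable {X : Type*} [TopologicalSpace X] [CompactSpace X] [MeasurableSpace X] [BorelSpace X]
  (μ : Measure X) [IsFiniteMeasure μ]

lemma integrable_of_cont {F : Type*} [NormedAddCommGroup F] [SecondCountableTopology F]
    {f : X → F} (hf : Continuous f) : Integrable f μ := by
  obtain ⟨C, hC⟩ := isCompact_univ.exists_bound_of_continuousOn hf.continuousOn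
  exact Integrable.of_bound hf.aestronglyMeasurable C
    (Filter.Eventually.of_forall fun x => hC x trivial)

lemma hasDerivAt_integral_cpt (F F' : ℝ → X → ℂ) (hF' : Continuous fun p : ℝ × X => F' p.1 p.2)
    (hF : ∀ s, Continuous (F s)) (hd : ∀ s x, HasDerivAt (fun t => F t x) (F' s x) s) (s : ℝ) :
    HasDerivAt (fun t => ∫ x, F t x ∂μ) (∫ x, F' s x ∂μ) s := by
  obtain ⟨C, hC⟩ := ((isCompact_closedBall s 1).prod (isCompact_univ (X := X))).exists_bound_of_continuousOn
    hF'.continuousOn
  exact (hasDerivAt_integral_of_dominated_loc_of_deriv_le (bound := fun _ => C)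
    (Metric.closedBall_mem_nhds s one_pos)
    (Filter.Eventually.of_forall fun t => (hF t).aestronglyMeasurable)
    (integrable_of_cont μ (hF s))
    (hF'.comp (Continuous.prodMk continuous_const continuous_id)).aestronglyMeasurable
    (Filter.Eventually.of_forall fun x t ht => hC (t, x) ⟨ht, trivial⟩) (integrable_const C)
    (Filter.Eventually.of_forall fun x t _ => hd t x)).2

lemma laplace [μ.IsOpenPosMeasure] (r₀ r₁ J : X → ℝ) (c₀ : Continuous r₀) (c₁ : Continuous r₁)
    (cJ : Continuous J) (m : ℝ) (h0 : ∀ x, 0 ≤ r₀ x) (h1 : ∀ x, 0 ≤ r₁ x) (h2 : ∀ x, r₀ x ≤ m)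
    (h3 : ∀ x, r₁ x < m) (x₀ : X) (hx₀ : r₀ x₀ = m) (hJ : ∀ x, r₀ x = m → 0 < J x)
    (h : ∀ k : ℕ, ∫ x, r₀ x ^ k * J x ∂μ = ∫ x, r₁ x ^ k * J x ∂μ) : False := by
  have key : ∀ (f : X → ℝ) (Z : Set X), Continuous f → IsClosed Z → (∀ x ∈ Z, f x < m) →
      ∃ r, 0 ≤ r ∧ r < m ∧ ∀ x ∈ Z, f x ≤ r := by
    intro f Z hf hZ hm
    have hm0 : 0 < m := (h1 x₀).trans_lt (h3 x₀)
    rcases Z.eq_empty_or_nonempty with rfl | hne
    · exact ⟨0, le_rfl, hm0, by simp⟩
    · obtain ⟨x, hx, hx'⟩ := hZ.isCompact.exists_isMaxOn hne hf.continuousOn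
      exact ⟨max 0 (f x), le_max_left _ _, max_lt hm0 (hm x hx),
        fun y hy => le_max_of_le_right (hx' hy)⟩
  obtain ⟨a, ha0, ha1, ha2⟩ := key r₀ {x | J x ≤ 0} c₀ (isClosed_le cJ continuous_const)
    (fun x hx => lt_of_le_of_ne (h2 x) fun h => absurd (hJ x h) (not_lt.2 hx))
  obtain ⟨b, hb0, hb1, hb2⟩ := key r₁ Set.univ c₁ isClosed_univ (fun x _ => h3 x)
  obtain ⟨C, hC⟩ := isCompact_univ.exists_bound_of_continuousOn cJ.continuousOn
  have hC' : ∀ x, |J x| ≤ C := fun x => hC x trivial
  set r := max a b with hr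
  have hr0 : 0 ≤ r := le_max_of_le_left ha0
  obtain ⟨r', hr1, hr2⟩ := exists_between (max_lt ha1 hb1 : r < m)
  have hr' : 0 < r' := hr0.trans_lt hr1
  set O := {x | r' < r₀ x} ∩ {x | J x₀ / 2 < J x} with hO
  have hJ0 := hJ x₀ hx₀
  have hOo : IsOpen O := (isOpen_lt continuous_const c₀).inter (isOpen_lt continuous_const cJ)
  have hOp : 0 < μ.real O := ENNReal.toReal_pos
    (hOo.measure_pos μ ⟨x₀, by simpa [hx₀] using hr2, by simpa using hJ0⟩).ne' (measure_ne_top _ _)
  have hC0 : 0 < C := hJ0.trans_le ((le_abs_self _).trans (hC' x₀))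
  have hU : 0 < μ.real Set.univ := hOp.trans_le (measureReal_mono (Set.subset_univ _))
  obtain ⟨k, hk⟩ := exists_pow_lt_of_lt_one
    (x := J x₀ / 2 * μ.real O / (2 * C * μ.real Set.univ)) (y := r / r') (by positivity)
    ((div_lt_one hr').2 hr1)
  have i1 : ∫ x, r₁ x ^ k * J x ∂μ ≤ ∫ _ : X, r ^ k * C ∂μ := by
    refine integral_mono (integrable_of_cont μ (by fun_prop)) (integrable_const _) fun x => ?_
    calc r₁ x ^ k * J x ≤ r₁ x ^ k * C :=
          mul_le_mul_of_nonneg_left ((le_abs_self _).trans (hC' x)) (pow_nonneg (h1 x) k)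
      _ ≤ _ := mul_le_mul_of_nonneg_right (pow_le_pow_left₀ (h1 x)
          ((hb2 x trivial).trans (le_max_right _ _)) k) hC0.le
  have i2 : ∫ x, (O.indicator (fun _ => r' ^ k * (J x₀ / 2)) x - r ^ k * C) ∂μ
      ≤ ∫ x, r₀ x ^ k * J x ∂μ := by
    refine integral_mono (((integrable_const _).indicator hOo.measurableSet).sub
      (integrable_const _)) (integrable_of_cont μ (by fun_prop)) fun x => ?_
    have p1 : 0 ≤ r ^ k * C := by positivity
    have p2 : 0 ≤ r₀ x ^ k := pow_nonneg (h0 x) k
    by_cases hx : x ∈ O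
    · simp only [Set.indicator_of_mem hx]
      have : r' ^ k * (J x₀ / 2) ≤ r₀ x ^ k * J x :=
        mul_le_mul (pow_le_pow_left₀ hr'.le hx.1.le k) hx.2.le (by positivity) p2
      linarith
    · simp only [Set.indicator_of_notMem hx, zero_sub]
      rcases le_total (J x) 0 with hj | hj
      · have q1 : r₀ x ^ k ≤ r ^ k :=
          pow_le_pow_left₀ (h0 x) ((ha2 x hj).trans (le_max_left _ _)) k
        have q2 := (abs_le.1 (hC' x)).1
        nlinarith
      · have := mul_nonneg p2 hj
        linarith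
  rw [integral_sub ((integrable_const _).indicator hOo.measurableSet) (integrable_const _),
    integral_indicator_const _ hOo.measurableSet, h k] at i2
  simp only [integral_const, smul_eq_mul] at i1 i2
  rw [div_pow, div_lt_div_iff₀ (pow_pos hr' k) (by positivity)] at hk
  nlinarith

end General

section Group
variable {E B ι : Type*} [Fintype E] [DecidableEq E]

instance compact_unitary : CompactSpace (unitary (Matrix E E ℂ)) := by
  refine isCompact_iff_compactSpace.1 (IsCompact.of_isClosed_subset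
    (isCompact_univ_pi fun _ : E => isCompact_univ_pi fun _ : E => isCompact_closedBall (0 : ℂ) 1)
    isClosed_unitary ?_)
  intro M hM x _ y _
  simpa using entry_norm_bound_of_unitary hM x y

/-- the parameter group -/
def GG (blk : E → B) (κ : ι → Matrix E E ℂ) : Subgroup (ι → unitary (Matrix E E ℂ)) where
  carrier := {x | ∀ i, (x i : Matrix E E ℂ) ∈ Pat blk ∧ (x i : Matrix E E ℂ) * κ i = κ i}
  mul_mem' {a b} ha hb i := ⟨mul_mem (ha i).1 (hb i).1, by
    rw [Pi.mul_apply, Submonoid.coe_mul, mul_assoc, (hb i).2, (ha i).2]⟩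
  one_mem' i := ⟨one_mem _, one_mul _⟩
  inv_mem' {a} ha i := ⟨star_mem_Pat (ha i).1, by
    rw [Pi.inv_apply, ← Unitary.star_eq_inv, Unitary.coe_star]
    conv_lhs => rw [← (ha i).2]
    rw [← mul_assoc, Unitary.coe_star_mul_self, one_mul]⟩

instance compact_GG (blk : E → B) (κ : ι → Matrix E E ℂ) : CompactSpace (GG blk κ) := by
  refine isCompact_iff_compactSpace.1 (IsClosed.isCompact ?_)
  have : (GG blk κ : Set (ι → unitary (Matrix E E ℂ))) = ⋂ i, (⋂ a, ⋂ b, ⋂ _ : blk a ≠ blk b,
      {x | (x i : Matrix E E ℂ) a b = 0}) ∩ {x | (x i : Matrix E E ℂ) * κ i = κ i} := by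
    ext x; simp [GG, mem_Pat]
  rw [this]
  have hc : ∀ i, Continuous fun x : ι → unitary (Matrix E E ℂ) => (x i : Matrix E E ℂ) :=
    fun i => continuous_subtype_val.comp (continuous_apply i)
  refine isClosed_iInter fun i => IsClosed.inter (isClosed_iInter fun a => isClosed_iInter fun b =>
    isClosed_iInter fun _ => isClosed_eq ((hc i).matrix_elem a b) continuous_const)
    (isClosed_eq ((hc i).mul continuous_const) continuous_const)

noncomputable instance meas_GG (blk : E → B) (κ : ι → Matrix E E ℂ) : MeasurableSpace (GG blk κ) := borel _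
instance borel_GG (blk : E → B) (κ : ι → Matrix E E ℂ) : BorelSpace (GG blk κ) := ⟨rfl⟩

/-- Haar measure -/
noncomputable def mu (blk : E → B) (κ : ι → Matrix E E ℂ) : Measure (GG blk κ) := Measure.haar

instance haar_mu (blk : E → B) (κ : ι → Matrix E E ℂ) : (mu blk κ).IsHaarMeasure := by
  unfold mu; infer_instance

/-- polynomial functions -/
abbrev PR (ι E : Type*) := MvPolynomial (ι × Bool × E × E) ℂ

/-- generic matrices (`false`: the inverse) -/
noncomputable def gX (i : ι) (b : Bool) : Matrix E E (PR ι E) :=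
  Matrix.of fun r c => MvPolynomial.X (i, b, r, c)

/-- constant matrices -/
noncomputable def cM : Matrix E E ℂ →ₐ[ℂ] Matrix E E (PR ι E) := (Algebra.ofId ℂ (PR ι E)).mapMatrix

/-- evaluation -/
noncomputable def evl (x : ι → Matrix E E ℂ) : PR ι E →ₐ[ℂ] ℂ :=
  MvPolynomial.aeval fun v => (if v.2.1 then x v.1 else star (x v.1)) v.2.2.1 v.2.2.2

/-- invariant derivations -/
noncomputable def Ld : (ι → Matrix E E ℂ) →ₗ[ℂ] Derivation ℂ (PR ι E) (PR ι E) where
  toFun η := MvPolynomial.mkDerivation ℂ fun v : ι × Bool × E × E =>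
    (if v.2.1 then cM (η v.1) * gX v.1 true else -(gX v.1 false * cM (η v.1)) :
      Matrix E E (PR ι E)) v.2.2.1 v.2.2.2
  map_add' a b := MvPolynomial.derivation_ext fun ⟨i, t, r, c⟩ => by
    simp only [Derivation.add_apply, MvPolynomial.mkDerivation_X, Pi.add_apply, map_add, mul_add,
      add_mul, neg_add]
    cases t <;> rfl
  map_smul' a b := MvPolynomial.derivation_ext fun ⟨i, t, r, c⟩ => by
    simp only [Derivation.smul_apply, MvPolynomial.mkDerivation_X, Pi.smul_apply, map_smul,
      smul_mul_assoc, mul_smul_comm, RingHom.id_apply, ← smul_neg]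
    cases t <;> rfl

lemma Ld_X (η : ι → Matrix E E ℂ) (v : ι × Bool × E × E) : Ld η (MvPolynomial.X v)
    = (if v.2.1 then cM (η v.1) * gX v.1 true else -(gX v.1 false * cM (η v.1)) :
      Matrix E E (PR ι E)) v.2.2.1 v.2.2.2 := MvPolynomial.mkDerivation_X _ _ _

lemma Ld_gX_true (η : ι → Matrix E E ℂ) (i : ι) :
    (gX i true).map (Ld η) = cM (η i) * gX i true := by
  ext1 r c; exact Ld_X η (i, true, r, c)

lemma Ld_gX_false (η : ι → Matrix E E ℂ) (i : ι) :
    (gX i false).map (Ld η) = -(gX i false * cM (η i)) := by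
  ext1 r c; exact Ld_X η (i, false, r, c)

omit [DecidableEq E] in
lemma map_der_mul {R : Type*} [CommRing R] [Algebra ℂ R] (D : Derivation ℂ R R)
    (M N : Matrix E E R) : (M * N).map D = M.map D * N + M * N.map D := by
  ext1 r c
  simp only [Matrix.map_apply, Matrix.mul_apply, map_sum, Derivation.leibniz, smul_eq_mul,
    Matrix.add_apply, ← Finset.sum_add_distrib]
  exact Finset.sum_congr rfl fun _ _ => by ring

lemma map_der_cM (D : Derivation ℂ (PR ι E) (PR ι E)) (M : Matrix E E ℂ) :
    (cM M).map D = 0 := by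
  ext1 r c
  exact D.map_algebraMap _

omit [DecidableEq E] [Fintype E] in
lemma map_der_neg {R : Type*} [CommRing R] [Algebra ℂ R] (D : Derivation ℂ R R)
    (M : Matrix E E R) : (-M).map D = -M.map D := by
  ext1 r c; simp

omit [DecidableEq E] [Fintype E] in
lemma map_der_add {R : Type*} [CommRing R] [Algebra ℂ R] (D : Derivation ℂ R R)
    (M N : Matrix E E R) : (M + N).map D = M.map D + N.map D := by
  ext1 r c; simp

lemma Ld_bracket (η ζ : ι → Matrix E E ℂ) (φ : PR ι E) :
    Ld η (Ld ζ φ) - Ld ζ (Ld η φ) = Ld (ζ * η - η * ζ) φ := by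
  rw [← Derivation.commutator_apply]
  congr 1
  refine MvPolynomial.derivation_ext fun ⟨i, b, r, c⟩ => ?_
  rw [Derivation.commutator_apply]
  cases b
  · change (((gX i false).map (Ld ζ)).map (Ld η) - ((gX i false).map (Ld η)).map (Ld ζ)) r c
      = (gX i false).map (Ld (ζ * η - η * ζ)) r c
    simp only [Ld_gX_false, map_der_neg, map_der_mul, map_der_cM]
    simp [mul_sub, mul_assoc]
  · change (((gX i true).map (Ld ζ)).map (Ld η) - ((gX i true).map (Ld η)).map (Ld ζ)) r c
      = (gX i true).map (Ld (ζ * η - η * ζ)) r c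
    simp only [Ld_gX_true, map_der_mul, map_der_cM]
    simp [sub_mul, mul_assoc]

lemma evl_gX (x : ι → Matrix E E ℂ) (i : ι) (b : Bool) :
    (evl x).mapMatrix (gX i b) = if b then x i else star (x i) := by
  ext r c; simp [gX, evl]

lemma evl_cM (x : ι → Matrix E E ℂ) (M : Matrix E E ℂ) : (evl x).mapMatrix (cM M) = M := by
  ext r c; simp [cM]

lemma evl_entry (x : ι → Matrix E E ℂ) (M : Matrix E E (PR ι E)) (r c : E) :
    (evl x).mapMatrix M r c = evl x (M r c) := rfl

omit [Fintype E] [DecidableEq E] in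
lemma continuous_evl {Y : Type*} [TopologicalSpace Y] {x : Y → ι → Matrix E E ℂ}
    (hx : ∀ i, Continuous fun y => x y i) (φ : PR ι E) : Continuous fun y => evl (x y) φ := by
  induction φ using MvPolynomial.induction_on with
  | C a => simpa using continuous_const
  | add p q hp hq => simpa using hp.fun_add hq
  | mul_X p v hp =>
    simp only [map_mul]
    refine hp.mul ?_
    rcases v with ⟨i, _ | _, r, c⟩ <;> simp only [evl, MvPolynomial.aeval_X]
    · exact (hx i).star.matrix_elem r c
    · exact (hx i).matrix_elem r c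

lemma hasDerivAt_evl {η : ι → Matrix E E ℂ} (hη : ∀ i, star (η i) = -η i)
    (x : ι → Matrix E E ℂ) (φ : PR ι E) (s : ℝ) :
    HasDerivAt (fun t => evl (fun i => xp (η i) t * x i) φ)
      (evl (fun i => xp (η i) s * x i) (Ld η φ)) s := by
  have h1 : ∀ i r c, HasDerivAt (fun t => (xp (η i) t * x i) r c)
      ((η i * (xp (η i) s * x i)) r c) s := by
    intro i r c
    have := HasDerivAt.fun_sum (u := Finset.univ)
      fun w _ => (hasDerivAt_xp (η i) s r w).mul_const (x i w c)
    rw [← Matrix.mul_apply, mul_assoc] at this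
    exact this
  induction φ using MvPolynomial.induction_on with
  | C a => simpa using hasDerivAt_const s a
  | add p q hp hq => simpa using hp.fun_add hq
  | mul_X p v hp =>
    have hv : HasDerivAt (fun t => evl (fun i => xp (η i) t * x i) (MvPolynomial.X v))
        (evl (fun i => xp (η i) s * x i) (Ld η (MvPolynomial.X v))) s := by
      rcases v with ⟨i, _ | _, r, c⟩
      · refine hda_congr (h1 i c r).star (fun t => by
          simp only [evl, MvPolynomial.aeval_X]; rfl) ?_
        rw [Ld_X, ← evl_entry (E := E), if_neg (by simp), map_neg, map_mul, evl_gX, evl_cM,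
          ← Matrix.star_apply (η i * (xp (η i) s * x i)), star_mul (η i), hη]
        simp
      · refine hda_congr (h1 i r c) (fun t => by simp [evl]) ?_
        rw [Ld_X, ← evl_entry (E := E), if_pos rfl, map_mul, evl_gX, evl_cM]
        simp
    refine hda_congr (hp.fun_mul hv) (fun t => by simp) ?_
    simp only [Derivation.leibniz, smul_eq_mul, map_add, map_mul]
    ring

variable {blk : E → B} {κ : ι → Matrix E E ℂ}

/-- evaluation at a point of the group -/
noncomputable def evG (x : GG blk κ) : PR ι E →ₐ[ℂ] ℂ := evl fun i => (x.1 i : Matrix E E ℂ)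

lemma continuous_evG (φ : PR ι E) : Continuous fun x : GG blk κ => evG x φ :=
  continuous_evl (x := fun (x : GG blk κ) i => (x.1 i : Matrix E E ℂ))
    (fun i => continuous_subtype_val.comp ((continuous_apply i).comp continuous_subtype_val)) φ

/-- complexified Lie algebra -/
def InLie (blk : E → B) (κ : ι → Matrix E E ℂ) (η : ι → Matrix E E ℂ) : Prop :=
  ∀ i, η i ∈ Pat blk ∧ η i * κ i = 0 ∧ star (η i) * κ i = 0

lemma lie_induction (P : (ι → Matrix E E ℂ) →ₗ[ℂ] ℂ)
    (h : ∀ η, InLie blk κ η → (∀ i, star (η i) = -η i) → P η = 0) {η : ι → Matrix E E ℂ}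
    (hη : InLie blk κ η) : P η = 0 := by
  have h1 := h (fun i => η i - star (η i)) (fun i => ⟨sub_mem (hη i).1 (star_mem_Pat (hη i).1),
    by simp [sub_mul, (hη i).2], by simp [sub_mul, (hη i).2]⟩) (fun i => by simp)
  have h2 := h (fun i => Complex.I • (η i + star (η i))) (fun i =>
    ⟨Subalgebra.smul_mem _ (add_mem (hη i).1 (star_mem_Pat (hη i).1)) _,
    by simp [add_mul, (hη i).2], by simp [add_mul, (hη i).2]⟩) (fun i => by simp [add_comm])
  have : η = (1 / 2 : ℂ) • (fun i => η i - star (η i))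
      - (Complex.I / 2) • (fun i => Complex.I • (η i + star (η i))) := by
    funext i
    simp only [Pi.sub_apply, Pi.smul_apply, smul_smul]
    rw [show Complex.I / 2 * Complex.I = -(1 / 2) by
      rw [div_mul_eq_mul_div, Complex.I_mul_I]; ring]
    module
  rw [this, map_sub, map_smul, map_smul, h1, h2]; simp

/-- one parameter subgroup of the parameter group -/
noncomputable def xpG {η : ι → Matrix E E ℂ} (h : InLie blk κ η) (hη : ∀ i, star (η i) = -η i)
    (t : ℝ) : GG blk κ :=
  ⟨fun i => ⟨xp (η i) t, xp_mem_unitary (hη i) t⟩,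
    fun i => ⟨xp_mem_Pat (h i).1 t, xp_mul_eq (h i).2.1 t⟩⟩

lemma evG_xpG {η : ι → Matrix E E ℂ} (h : InLie blk κ η) (hη : ∀ i, star (η i) = -η i)
    (t : ℝ) (x : GG blk κ) :
    evG (xpG h hη t * x) = evl fun i => xp (η i) t * (x.1 i : Matrix E E ℂ) := rfl

/-- derivative of a polynomial as a function of the direction -/
noncomputable def LdAt (φ : PR ι E) : (ι → Matrix E E ℂ) →ₗ[ℂ] PR ι E where
  toFun η := Ld η φ
  map_add' a b := by simp
  map_smul' a b := by simp

lemma evG_Ld_eq_zero {φ : PR ι E} (h : ∀ x : GG blk κ, evG x φ = 0) {η : ι → Matrix E E ℂ}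
    (hη : InLie blk κ η) (x : GG blk κ) : evG x (Ld η φ) = 0 := by
  refine lie_induction ((evG x).toLinearMap ∘ₗ LdAt φ) (fun η h1 h2 => ?_) hη
  have := hasDerivAt_evl h2 (fun i => (x.1 i : Matrix E E ℂ)) φ 0
  simp only [← evG_xpG h1 h2, h] at this
  have h3 := this.unique (hasDerivAt_const _ _)
  rw [evG_xpG] at h3
  simp only [xp_zero, one_mul] at h3
  exact h3

lemma integral_Ld (φ : PR ι E) {η : ι → Matrix E E ℂ} (hη : InLie blk κ η) :
    ∫ x, evG x (Ld η φ) ∂(mu blk κ) = 0 := by
  let P : (ι → Matrix E E ℂ) →ₗ[ℂ] ℂ :=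
    { toFun := fun η => ∫ x, evG x (Ld η φ) ∂(mu blk κ)
      map_add' := fun a b => by
        simp only [map_add, Derivation.add_apply]
        exact integral_add (integrable_of_cont _ (continuous_evG _))
          (integrable_of_cont _ (continuous_evG _))
      map_smul' := fun a b => by
        simp only [map_smul, Derivation.smul_apply, RingHom.id_apply, integral_smul] }
  refine lie_induction P (fun η h1 h2 => ?_) hη
  have hc : ∀ i, Continuous fun x : GG blk κ => (x.1 i : Matrix E E ℂ) := fun i =>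
    continuous_subtype_val.comp ((continuous_apply i).comp continuous_subtype_val)
  have := hasDerivAt_integral_cpt (mu blk κ) (fun t x => evG (xpG h1 h2 t * x) φ)
    (fun t x => evG (xpG h1 h2 t * x) (Ld η φ))
    (continuous_evl (x := fun (p : ℝ × GG blk κ) i => xp (η i) p.1 * (p.2.1 i : Matrix E E ℂ))
      (fun i => ((continuous_xp _).comp continuous_fst).mul ((hc i).comp continuous_snd)) _)
    (fun s => (continuous_evG φ).comp (continuous_const.mul continuous_id))
    (fun s x => hasDerivAt_evl h2 _ φ s) 0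
  simp only [integral_mul_left_eq_self (fun x => evG x φ)] at this
  have h3 := this.unique (hasDerivAt_const _ _)
  simp only [evG_xpG, xp_zero, one_mul] at h3
  exact h3

end Group
end Crest.Agent.R174
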