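import Crest.Agent.R174.Piola

set_option autoImplicit false

namespace Crest.Agent.R174
open Matrix MeasureTheory

variable {E B : Type*} [Fintype E] [DecidableEq E] [DecidableEq B] {blk : E → B}
  {z : E → Prop} [DecidablePred z] {gD : Bool → Matrix E E (PR (Fin 3) E)}

/-- squared Frobenius norm -/
noncomputable def nsq (M : Matrix E E ℂ) : ℝ := ∑ c, ∑ r, ‖M r c‖ ^ 2

omit [DecidableEq E] in
lemma trace_star_mul (M : Matrix E E ℂ) : (star M * M).trace = nsq M := by
  simp [Matrix.trace, Matrix.mul_apply, nsq, Complex.conj_mul']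

omit [DecidableEq E] in
lemma nsq_nonneg (M : Matrix E E ℂ) : 0 ≤ nsq M := by unfold nsq; positivity

omit [DecidableEq E] in
lemma nsq_eq_zero {M : Matrix E E ℂ} (h : nsq M = 0) : M = 0 := by
  ext r c
  have h1 := (Finset.sum_eq_zero_iff_of_nonneg (fun c _ => by positivity)).1 h c (Finset.mem_univ _)
  have h2 := (Finset.sum_eq_zero_iff_of_nonneg (fun c _ => by positivity)).1 h1 r (Finset.mem_univ _)
  simpa using h2

lemma nsq_add_sub {f V : Matrix E E ℂ} (hf : f ∈ unitary (Matrix E E ℂ))
    (hV : V ∈ unitary (Matrix E E ℂ)) : nsq (f + V) + nsq (f - V) = 4 * Fintype.card E := by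
  apply Complex.ofReal_injective
  push_cast
  rw [← trace_star_mul, ← trace_star_mul, ← Matrix.trace_add]
  have : star (f + V) * (f + V) + star (f - V) * (f - V) = (4 : ℂ) • (1 : Matrix E E ℂ) := by
    simp only [star_add, star_sub, add_mul, mul_add, sub_mul, mul_sub, (Unitary.mem_iff.1 hf).1,
      (Unitary.mem_iff.1 hV).1]
    module
  rw [this]; simp

omit [DecidableEq B] in
lemma continuous_em (M : Matrix E E (PR (Fin 3) E)) :
    Continuous fun x : GG blk (kap z) => em x M :=
  continuous_matrix fun r c => continuous_evG (M r c)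

lemma continuous_Jac : Continuous fun x : GG blk (kap z) => Jac gD x := by
  refine Continuous.matrix_det (continuous_matrix fun r c => ?_)
  simp only [mat, Matrix.of_apply, LinearMap.comp_apply, th_apply, co]
  exact (continuous_em _).matrix_elem _ _

lemma hasDerivAt_trace_xp (M A N : Matrix E E ℂ) (s : ℝ) :
    HasDerivAt (fun t => (M * xp A t * N).trace) ((M * (A * xp A s) * N).trace) s := by
  simp only [Matrix.trace, Matrix.diag_apply, Matrix.mul_apply (M := M * _), Matrix.mul_apply (M := M)]
  exact HasDerivAt.fun_sum fun i _ => HasDerivAt.fun_sum fun j _ =>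
    (HasDerivAt.fun_sum fun k _ => (hasDerivAt_xp A s k j).const_mul _).mul_const _

lemma HD.invariant (H : HD blk z gD) {A V : Matrix E E ℂ} (hA : A ∈ Pat blk) (hA' : star A = -A)
    (k : ℕ) :
    ∫ x, (star (em x (gf gD true) + xp A 1 * V) * (em x (gf gD true) + xp A 1 * V)).trace ^ k
        * Jac gD x ∂(mu blk (kap z))
      = ∫ x, (star (em x (gf gD true) + V) * (em x (gf gD true) + V)).trace ^ k
        * Jac gD x ∂(mu blk (kap z)) := by
  let ρ : Matrix E E ℂ → GG blk (kap z) → ℂ := fun W x =>
    (star (em x (gf gD true) + W) * (em x (gf gD true) + W)).trace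
  let l : Matrix E E ℂ → GG blk (kap z) → Matrix E E ℂ →ₗ[ℂ] ℂ := fun W x =>
    (k * ρ W x ^ (k - 1)) • (Matrix.traceLinearMap E ℂ ℂ ∘ₗ
      (LinearMap.mulLeftRight ℂ (star W, em x (gf gD true))
        - LinearMap.mulLeftRight ℂ (star (em x (gf gD true)), W)))
  have hl : ∀ W x θ, l W x θ = k * ρ W x ^ (k - 1) * ((star W * θ * em x (gf gD true)).trace
      - (star (em x (gf gD true)) * θ * W).trace) := fun W x θ => by simp [l]
  have h1 : ∀ W, ∫ x, l W x A * Jac gD x ∂(mu blk (kap z)) = 0 := by
    intro W
    refine H.piola hA (((gf gD false + cM (star W)) * (gf gD true + cM W)).trace ^ k) (l W) ?_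
    intro x η hη
    have t1 : ∀ M : Matrix E E (PR (Fin 3) E), evG x M.trace = (em x M).trace := fun M => by
      simp [Matrix.trace, em_apply]
    have t2 : ∀ M : Matrix E E (PR (Fin 3) E), Ld η M.trace = (M.map (Ld η)).trace := fun M => by
      simp [Matrix.trace]
    rw [Derivation.leibniz_pow, hl, t2]
    simp only [nsmul_eq_mul, smul_eq_mul, map_mul, map_pow, map_natCast, t1, map_der_mul,
      map_der_add, map_der_cM, map_add, em_cM, H.f_star, H.df x η, H.df' x hη, add_zero, ρ,
      star_add, mul_assoc]
    congr 2
    simp only [neg_mul, mul_add, add_mul, Matrix.trace_add, Matrix.trace_neg, mul_assoc]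
    ring
  have hcW : Continuous fun p : ℝ × GG blk (kap z) => xp A p.1 * V :=
    ((continuous_xp A).comp continuous_fst).mul continuous_const
  have hcf : Continuous fun p : ℝ × GG blk (kap z) => em p.2 (gf gD true) :=
    (continuous_em _).comp continuous_snd
  have hd : ∀ s, HasDerivAt (fun t => ∫ x, ρ (xp A t * V) x ^ k * Jac gD x ∂(mu blk (kap z)))
      0 s := by
    intro s
    have := hasDerivAt_integral_cpt (mu blk (kap z)) (fun t x => ρ (xp A t * V) x ^ k * Jac gD x)
      (fun t x => -(l (xp A t * V) x A * Jac gD x)) (by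
        simp only [hl, ρ]
        exact (((continuous_const.mul ((((hcf.add hcW).star.mul
          (hcf.add hcW)).matrix_trace).pow _)).mul
          (((hcW.star.mul continuous_const).mul hcf).matrix_trace.sub
            ((hcf.star.mul continuous_const).mul hcW).matrix_trace)).mul
          (continuous_Jac.comp continuous_snd)).neg)
      (fun t => (((((continuous_em _).add continuous_const).star.mul
          ((continuous_em _).add continuous_const)).matrix_trace).pow _).mul continuous_Jac)
      (fun s x => by
        set f := em x (gf gD true)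
        have d1 := hasDerivAt_trace_xp (star f) A V s
        have d2 : HasDerivAt (fun t => ρ (xp A t * V) x)
            ((star f * (A * xp A s) * V).trace + star (star f * (A * xp A s) * V).trace) s := by
          refine hda_congr ((d1.fun_add d1.star).const_add
            ((star f * f).trace + (star V * V).trace)) (fun t => ?_) rfl
          have : star (xp A t * V) * (xp A t * V) = star V * V := by
            rw [star_mul, mul_assoc, ← mul_assoc (star (xp A t)),
              (Unitary.mem_iff.1 (xp_mem_unitary hA' t)).1, one_mul]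
          change (star (f + xp A t * V) * (f + xp A t * V)).trace = _
          simp only [star_add, add_mul, mul_add, Matrix.trace_add, this,
            ← Matrix.trace_conjTranspose, ← Matrix.star_eq_conjTranspose,
            star_mul (star f), star_star, mul_assoc]
          ring
        refine hda_congr ((d2.fun_pow k).mul_const (Jac gD x)) (fun t => rfl) ?_
        rw [hl]
        simp only [← Matrix.trace_conjTranspose, ← Matrix.star_eq_conjTranspose, star_mul,
          star_star, hA', mul_assoc, neg_mul, mul_neg, Matrix.trace_neg]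
        ring) s
    rwa [integral_neg, h1, neg_zero] at this
  have := is_const_of_deriv_eq_zero (fun s => (hd s).differentiableAt) (fun s => (hd s).deriv) 1 0
  simpa only [xp_zero, one_mul] using this

theorem HD.surj (H : HD blk z gD) {V₀ V : Matrix E E ℂ} (h0 : V₀ ∈ unitary (Matrix E E ℂ))
    (h0' : V₀ ∈ Pat blk) (h1 : V ∈ unitary (Matrix E E ℂ)) (h1' : V ∈ Pat blk)
    (x₀ : GG blk (kap z)) (hx₀ : em x₀ (gf gD true) = V₀)
    (hJ : ∀ x : GG blk (kap z), em x (gf gD true) = V₀ → 0 < (Jac gD x).re) :
    ∃ x : GG blk (kap z), em x (gf gD true) = V := by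
  by_contra hne
  push Not at hne
  obtain ⟨A, a1, a2, a3⟩ := exists_log (mul_mem h1 (Unitary.star_mem h0))
  have hA : A ∈ Pat blk := mem_Pat_iff_commute.2 fun φ =>
    a3 _ (mem_Pat_iff_commute.1 (mul_mem h1' (star_mem_Pat h0')) φ)
  have hc : ∀ W : Matrix E E ℂ, Continuous fun x : GG blk (kap z) =>
      nsq (em x (gf gD true) + W) := by
    intro W
    have : (fun x : GG blk (kap z) => nsq (em x (gf gD true) + W)) = fun x =>
      (star (em x (gf gD true) + W) * (em x (gf gD true) + W)).trace.re := by
      funext x; rw [trace_star_mul]; rfl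
    rw [this]
    exact Complex.continuous_re.comp (((continuous_em _).add continuous_const).star.mul
      ((continuous_em _).add continuous_const)).matrix_trace
  refine laplace (mu blk (kap z)) (fun x => nsq (em x (gf gD true) + V₀))
    (fun x => nsq (em x (gf gD true) + V)) (fun x => (Jac gD x).re) (hc _) (hc _)
    (Complex.continuous_re.comp continuous_Jac) (4 * Fintype.card E) (fun x => nsq_nonneg _)
    (fun x => nsq_nonneg _) (fun x => ?_) (fun x => ?_) x₀ ?_ (fun x hx => hJ x ?_) fun k => ?_
  · have := nsq_add_sub (H.f_mem x) h0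
    have := nsq_nonneg (em x (gf gD true) - V₀)
    linarith
  · have := nsq_add_sub (H.f_mem x) h1
    have h3 := lt_of_le_of_ne (nsq_nonneg (em x (gf gD true) - V))
      (fun h => hne x (sub_eq_zero.1 (nsq_eq_zero h.symm)))
    linarith
  · have := nsq_add_sub (H.f_mem x₀) h0
    rw [hx₀, sub_self, show nsq (0 : Matrix E E ℂ) = 0 by simp [nsq], add_zero] at this
    rw [hx₀, this]
  · have := nsq_add_sub (H.f_mem x) h0
    exact sub_eq_zero.1 (nsq_eq_zero (by linarith))
  · have := H.invariant (V := V₀) hA a1 k
    rw [a2, mul_assoc, (Unitary.mem_iff.1 h0).1, mul_one] at this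
    simp only [trace_star_mul] at this
    have e : ∀ W : Matrix E E ℂ, ∫ x, nsq (em x (gf gD true) + W) ^ k * (Jac gD x).re
        ∂(mu blk (kap z)) = (∫ x, (nsq (em x (gf gD true) + W) : ℂ) ^ k * Jac gD x
        ∂(mu blk (kap z))).re := by
      intro W
      have hcc : Continuous fun x : GG blk (kap z) =>
          (nsq (em x (gf gD true) + W) : ℂ) ^ k * Jac gD x :=
        ((Complex.continuous_ofReal.comp (hc W)).pow k).mul continuous_Jac
      rw [← Complex.reCLM_apply, ← ContinuousLinearMap.integral_comp_comm _
        (integrable_of_cont _ hcc)]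
      congr 1
      funext x
      rw [Complex.reCLM_apply, ← Complex.ofReal_pow, Complex.re_ofReal_mul]
    rw [e, e, this]

end Crest.Agent.R174
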