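import Crest.Agent.R174.ExpLog

set_option autoImplicit false

namespace Crest.Agent.R174
open Matrix

section Det
variable {n : Type*} [Fintype n] [DecidableEq n]

omit [Fintype n] in
lemma der_prod {R : Type*} [CommRing R] [Algebra ℂ R] (D : Derivation ℂ R R) (f : n → R)
    (s : Finset n) : D (∏ i ∈ s, f i) = ∑ i ∈ s, (∏ j ∈ s.erase i, f j) • D (f i) := by
  induction s using Finset.induction_on with
  | empty => simp
  | insert a s ha ih =>
    rw [Finset.prod_insert ha, Derivation.leibniz, ih, Finset.sum_insert ha, Finset.erase_insert ha,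
      add_comm, Finset.smul_sum]
    congr 1
    refine Finset.sum_congr rfl fun i hi => ?_
    rw [Finset.erase_insert_of_ne (by rintro rfl; exact ha hi), Finset.prod_insert
      (fun h => ha (Finset.mem_of_mem_erase h)), mul_smul]

lemma der_det {R : Type*} [CommRing R] [Algebra ℂ R] (D : Derivation ℂ R R) (M : Matrix n n R) :
    D M.det = ∑ b, (M.updateCol b fun r => D (M r b)).det := by
  simp only [Matrix.det_apply, map_sum, Units.smul_def, map_zsmul, der_prod,
    Finset.smul_sum]
  rw [Finset.sum_comm]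
  refine Finset.sum_congr rfl fun b _ => Finset.sum_congr rfl fun σ _ => ?_
  congr 1
  rw [← Finset.mul_prod_erase Finset.univ _ (Finset.mem_univ b), Matrix.updateCol_self,
    smul_eq_mul, mul_comm]
  congr 1
  exact Finset.prod_congr rfl fun i hi => (Matrix.updateCol_ne (Finset.ne_of_mem_erase hi)).symm

lemma sum_det_updateCol (N T : Matrix n n ℂ) :
    ∑ b, (N.updateCol b (T *ᵥ N.col b)).det = T.trace * N.det := by
  have : ∀ b, (N.updateCol b (T *ᵥ N.col b)).det = (N.adjugate * (T * N)) b b := by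
    intro b
    rw [← Matrix.cramer_apply, Matrix.cramer_eq_adjugate_mulVec]
    rfl
  simp only [this]
  change (N.adjugate * (T * N)).trace = _
  rw [Matrix.trace_mul_comm, mul_assoc, Matrix.mul_adjugate]
  simp [mul_comm]

lemma det_swap_cols (Θ : Matrix n n ℂ) {a b : n} (h : a ≠ b) (u v : n → ℂ) :
    ((Θ.updateCol a u).updateCol b v).det = -((Θ.updateCol b u).updateCol a v).det := by
  have : (Θ.updateCol a u).updateCol b v
      = ((Θ.updateCol b u).updateCol a v).submatrix id (Equiv.swap a b) := by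
    ext r c
    simp only [Matrix.submatrix_apply, id, Matrix.updateCol_apply, Equiv.swap_apply_def]
    split_ifs <;> simp_all
  rw [this, Matrix.det_permute', Equiv.Perm.sign_swap h]
  simp

lemma piola_pt (Θ : Matrix n n ℂ) (A : n → ℂ) (s C : n → n → n → ℂ) (T : n → Matrix n n ℂ)
    (T' : Matrix n n ℂ) (hs : ∀ a b, s a b - s b a = T a *ᵥ Θ.col b + Θ *ᵥ C a b)
    (hT : ∀ a, (T a).trace = 0) (hT' : T'.trace = 0) (hTA : ∀ a, T a *ᵥ A = T' *ᵥ Θ.col a)
    (hC : ∀ a b, C a b = -C b a) (hC' : ∀ a, ∑ b, C a b b = 0) :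
    ∑ a, ∑ b, (if b = a then 0 else ((Θ.updateCol a A).updateCol b (s a b)).det) = 0 := by
  have hCa : ∀ a, C a a a = 0 := fun a => by
    have := congrFun (hC a a) a
    simp only [Pi.neg_apply] at this
    linear_combination this / 2
  have h1 : ∑ a, ∑ b, (if b = a then 0 else ((Θ.updateCol a A).updateCol b (s a b)).det)
      = -∑ a, ∑ b, (if b = a then 0 else ((Θ.updateCol a A).updateCol b (s b a)).det) := by
    rw [Finset.sum_comm, ← Finset.sum_neg_distrib]
    refine Finset.sum_congr rfl fun a _ => ?_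
    rw [← Finset.sum_neg_distrib]
    refine Finset.sum_congr rfl fun b _ => ?_
    by_cases h : a = b
    · simp [h]
    · rw [if_neg h, if_neg (Ne.symm h), det_swap_cols _ (Ne.symm h)]
  have h2 : ∀ a b, b ≠ a → ((Θ.updateCol a A).updateCol b (s a b)).det
      - ((Θ.updateCol a A).updateCol b (s b a)).det
      = ((Θ.updateCol a A).updateCol b (T a *ᵥ (Θ.updateCol a A).col b)).det
        + (C a b b * (Θ.updateCol a A).det + C b a a * (Θ.updateCol b A).det) := by
    intro a b h
    rw [← Matrix.cramer_apply, ← Matrix.cramer_apply (Θ.updateCol a A), ← Pi.sub_apply, ← map_sub,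
      hs, map_add, Pi.add_apply, Matrix.cramer_apply]
    congr 1
    · congr 3
      funext r
      simp [Matrix.updateCol_ne h]
    · have e : Θ *ᵥ C a b = (Θ.updateCol a A) *ᵥ C a b + C a b a • Θ.col a - C a b a • A := by
        funext r
        simp only [Matrix.mulVec, dotProduct, Pi.add_apply, Pi.sub_apply, Pi.smul_apply,
          smul_eq_mul, Matrix.col_apply]
        rw [← Finset.add_sum_erase _ _ (Finset.mem_univ a),
          ← Finset.add_sum_erase _ _ (Finset.mem_univ a), Matrix.updateCol_self,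
          Finset.sum_congr rfl (g := fun i => Θ.updateCol a A r i * C a b i) fun i hi => by
            rw [Matrix.updateCol_ne (Finset.ne_of_mem_erase hi)]]
        ring
      rw [e, map_sub, map_add, map_smul, map_smul]
      simp only [Pi.add_apply, Pi.sub_apply, Pi.smul_apply, smul_eq_mul]
      have e1 : (Θ.updateCol a A).cramer ((Θ.updateCol a A) *ᵥ C a b) b
          = C a b b * (Θ.updateCol a A).det := by
        rw [Matrix.cramer_eq_adjugate_mulVec, Matrix.mulVec_mulVec, Matrix.adjugate_mul]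
        simp [Matrix.smul_mulVec, mul_comm]
      have e2 : (Θ.updateCol a A).cramer A b = 0 := by
        rw [Matrix.cramer_apply]
        exact Matrix.det_zero_of_column_eq h fun r => by simp [Matrix.updateCol_ne (Ne.symm h)]
      have e3 : (Θ.updateCol a A).cramer (Θ.col a) b = -(Θ.updateCol b A).det := by
        rw [Matrix.cramer_apply, det_swap_cols _ (Ne.symm h)]
        congr 2
        ext r c
        simp only [Matrix.updateCol_apply, Matrix.col_apply]
        by_cases hc : c = a
        · simp [hc, Ne.symm h]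
        · simp [hc]
      rw [e1, e2, e3, hC b a]
      simp
  have h3 : ∑ a, ∑ b, ((if b = a then 0 else ((Θ.updateCol a A).updateCol b (s a b)).det)
      - (if b = a then 0 else ((Θ.updateCol a A).updateCol b (s b a)).det))
      = ∑ a, ∑ b, (((Θ.updateCol a A).updateCol b (T a *ᵥ (Θ.updateCol a A).col b)).det
        - (if b = a then (Θ.updateCol a (T' *ᵥ Θ.col a)).det else 0)
        + (C a b b * (Θ.updateCol a A).det + C b a a * (Θ.updateCol b A).det)) := by
    refine Finset.sum_congr rfl fun a _ => Finset.sum_congr rfl fun b _ => ?_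
    by_cases h : b = a
    · subst h
      have : (Θ.updateCol b A).col b = A := by funext r; simp
      simp [this, hTA, hCa]
    · simp only [if_neg h, h2 a b h, sub_zero]
  simp only [Finset.sum_sub_distrib, Finset.sum_add_distrib, sum_det_updateCol, hT, hT',
    Finset.sum_ite_eq', Finset.mem_univ, if_true, ← Finset.sum_mul, hC'] at h3
  rw [Finset.sum_comm (f := fun a b => C b a a * (Θ.updateCol b A).det)] at h3
  simp only [← Finset.sum_mul, hC', zero_mul, Finset.sum_const_zero, sub_zero, add_zero] at h3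
  linear_combination (h1 + h3) / 2

end Det

section Coord
variable {E B : Type*} [Fintype E] [DecidableEq E] [DecidableEq B]

/-- coordinates of block matrices -/
abbrev Pt (blk : E → B) := {p : E × E // blk p.1 = blk p.2}

variable {blk : E → B}

/-- coordinates -/
def co (blk : E → B) {R : Type*} (M : Matrix E E R) : Pt blk → R := fun p => M p.1.1 p.1.2

/-- basis matrices -/
noncomputable def bas (c : Pt blk) : Matrix E E ℂ := Matrix.single c.1.1 c.1.2 1

omit [DecidableEq B] in
lemma bas_mem (c : Pt blk) : bas c ∈ Pat blk := fun x y h => by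
  rw [bas, Matrix.single_apply, if_neg]
  rintro ⟨rfl, rfl⟩; exact h c.2

lemma sum_co_bas {M : Matrix E E ℂ} (h : M ∈ Pat blk) : ∑ c : Pt blk, co blk M c • bas c = M := by
  ext x y
  simp only [Matrix.sum_apply, Matrix.smul_apply, bas, Matrix.single_apply, co, smul_eq_mul]
  by_cases hxy : blk x = blk y
  · rw [Finset.sum_eq_single (⟨(x, y), hxy⟩ : Pt blk)]
    · simp
    · rintro ⟨⟨a, b⟩, hab⟩ _ hne
      rw [if_neg, mul_zero]
      rintro ⟨rfl, rfl⟩; exact hne rfl
    · simp
  · rw [h x y hxy]
    refine Finset.sum_eq_zero fun c _ => ?_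
    rw [if_neg, mul_zero]
    rintro ⟨rfl, rfl⟩; exact hxy c.2

/-- matrix of an operator -/
noncomputable def mat (blk : E → B) (Θ : Matrix E E ℂ →ₗ[ℂ] Matrix E E ℂ) :
    Matrix (Pt blk) (Pt blk) ℂ := Matrix.of fun r c => co blk (Θ (bas c)) r

lemma mat_mulVec (Θ : Matrix E E ℂ →ₗ[ℂ] Matrix E E ℂ) {M : Matrix E E ℂ} (h : M ∈ Pat blk) :
    mat blk Θ *ᵥ co blk M = co blk (Θ M) := by
  conv_rhs => rw [← sum_co_bas h]
  funext r
  simp [mat, Matrix.mulVec, dotProduct, co, Matrix.sum_apply, mul_comm]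

/-- transposition of coordinates -/
def sw (blk : E → B) : Pt blk ≃ Pt blk where
  toFun c := ⟨(c.1.2, c.1.1), c.2.symm⟩
  invFun c := ⟨(c.1.2, c.1.1), c.2.symm⟩
  left_inv _ := rfl
  right_inv _ := rfl

omit [DecidableEq E] in
lemma sum_antisymm (g : Pt blk → ℂ) (h : ∀ c, g (sw blk c) = -g c) : ∑ c, g c = 0 := by
  have := Equiv.sum_comp (sw blk) g
  simp only [h, Finset.sum_neg_distrib] at this
  linear_combination -this / 2

lemma trace_mat_ad (u : Matrix E E ℂ) :
    (mat blk (LinearMap.mulLeft ℂ u - LinearMap.mulRight ℂ u)).trace = 0 := by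
  have : ∀ c : Pt blk, (mat blk (LinearMap.mulLeft ℂ u - LinearMap.mulRight ℂ u)).diag c
      = u c.1.1 c.1.1 - u c.1.2 c.1.2 := by
    intro c; simp [mat, co, bas]
  rw [Matrix.trace, Finset.sum_congr rfl fun c _ => this c]
  exact sum_antisymm _ fun c => by simp [sw]

lemma det_pos_of_homotopy (Θ : ℝ → Matrix E E ℂ →ₗ[ℂ] Matrix E E ℂ)
    (hc : ∀ ξ, Continuous fun s => Θ s ξ) (hW : ∀ s, ∀ ξ ∈ Pat blk, Θ s ξ ∈ Pat blk)
    (hσ : ∀ s ξ, Θ s (star ξ) = star (Θ s ξ))
    (hi : ∀ s ∈ Set.Icc (0 : ℝ) 1, ∀ ξ ∈ Pat blk, Θ s ξ = 0 → ξ = 0)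
    (h0 : ∀ ξ, Θ 0 ξ = ξ) : 0 < (mat blk (Θ 1)).det.re := by
  have hre : ∀ s, (mat blk (Θ s)).det.im = 0 := by
    intro s
    rw [← Complex.conj_eq_iff_im, RingHom.map_det, ← Matrix.det_submatrix_equiv_self (sw blk)]
    congr 1
    ext r c
    have : bas (sw blk c) = star (bas c) := by
      simp [bas, sw, Matrix.star_eq_conjTranspose]
    simp only [Matrix.submatrix_apply, RingHom.mapMatrix_apply, Matrix.map_apply, mat,
      Matrix.of_apply, this, hσ]
    simp [co, sw]
  have hne : ∀ s ∈ Set.Icc (0 : ℝ) 1, (mat blk (Θ s)).det.re ≠ 0 := by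
    intro s hs h
    obtain ⟨v, hv, hv'⟩ := Matrix.exists_mulVec_eq_zero_iff.2
      (Complex.ext h (hre s) : (mat blk (Θ s)).det = 0)
    have hm : ∑ c, v c • bas c ∈ Pat blk :=
      Subalgebra.sum_mem _ fun c _ => Subalgebra.smul_mem _ (bas_mem c) _
    have hco : co blk (∑ c, v c • bas c) = v := by
      funext ⟨⟨x, y⟩, hxy⟩
      simp only [co, Matrix.sum_apply, Matrix.smul_apply, bas, Matrix.single_apply, smul_eq_mul]
      rw [Finset.sum_eq_single (⟨(x, y), hxy⟩ : Pt blk)]
      · simp
      · rintro ⟨⟨a, b⟩, hab⟩ _ hne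
        rw [if_neg, mul_zero]
        rintro ⟨rfl, rfl⟩; exact hne rfl
      · simp
    rw [← hco, mat_mulVec _ hm] at hv'
    have := hi s hs _ hm (by rw [← sum_co_bas (hW s _ hm), hv']; simp)
    rw [this] at hco
    exact hv hco.symm
  have hcont : Continuous fun s => (mat blk (Θ s)).det.re :=
    Complex.continuous_re.comp (Continuous.matrix_det
      (continuous_matrix fun r c => (hc _).matrix_elem _ _))
  have h1 : (mat blk (Θ 0)).det.re = 1 := by
    have : mat blk (Θ 0) = 1 := by
      ext ⟨⟨x, y⟩, hxy⟩ ⟨⟨a, b⟩, hab⟩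
      simp [mat, co, h0, bas, Matrix.single_apply, Matrix.one_apply, eq_comm]
    simp [this]
  by_contra hneg
  obtain ⟨s, hs, hs'⟩ := intermediate_value_Icc' zero_le_one hcont.continuousOn
    (show (0 : ℝ) ∈ Set.Icc _ _ from ⟨not_lt.1 hneg, by simp [h1]⟩)
  exact hne s hs hs'

end Coord
end Crest.Agent.R174
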