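import Crest.Agent.R174.Inv

set_option autoImplicit false

namespace Crest.Agent.R174
open Matrix

variable {E B T Pr : Type*} [Fintype E] [DecidableEq E] [Fintype T] [DecidableEq T]
  [Fintype Pr] [DecidableEq Pr] {n : ℕ}

/-- slots -/
abbrev Sl (T Pr : Type*) (n : ℕ) := (T × Fin (n + 1)) ⊕ (Pr × Bool)

/-- sign of a slot -/
def sg : Sl T Pr n → Bool
  | .inl _ => true
  | .inr r => r.2

/-- next slot -/
def nx : Equiv.Perm (Sl T Pr n) :=
  Equiv.sumCongr (Equiv.prodCongr (Equiv.refl T) (finRotate (n + 1)))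
    (Equiv.prodCongr (Equiv.refl Pr) Equiv.boolNot)

/-- slot data -/
structure MD (blk : E → B) (z : E → Prop) [DecidablePred z] (T Pr : Type*) [Fintype T]
    [DecidableEq T] [DecidableEq Pr] (n : ℕ) where
  /-- partial isometries -/
  Bh : Sl T Pr n → Matrix E E ℂ
  /-- initial projections -/
  Pj : T → Matrix E E ℂ
  /-- type of a slot -/
  ty : Sl T Pr n → T
  ty_inl : ∀ j a, ty (.inl (j, a)) = j
  ty_nx : ∀ s, ty (nx s) = ty s
  orth : ∀ s s', star (Bh s) * Bh s' = if s = s' then Pj (ty s) else 0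
  mul_Pj : ∀ s, Bh s * Pj (ty s) = Bh s
  B0 : ∀ j, Bh (.inl (j, 0)) = Pj j
  sum_Pj : ∑ j, Pj j = P0 z
  comm : ∀ M ∈ Pat blk, Commute M (P0 z) → ∀ j, Commute M (Pj j)
  pat : ∀ s N, Bh s * N * star (Bh s) ∈ Pat blk
  pat_nx : ∀ s N, Bh (nx s) * N * star (Bh s) ∈ Pat blk
  pat_inl : ∀ s, Bh (.inl s) ∈ Pat blk

variable {blk : E → B} {z : E → Prop} [DecidablePred z] (M : MD blk z T Pr n)

namespace MD

/-- projection on the rest -/
noncomputable def Pst : Matrix E E ℂ := 1 - ∑ s, M.Bh s * star (M.Bh s)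

/-- monomial-type matrices -/
noncomputable def mon (ε : ℂ) (σ : Equiv.Perm (Sl T Pr n)) (m : Sl T Pr n → Matrix E E ℂ) :
    Matrix E E ℂ := ε • M.Pst + ∑ s, M.Bh (σ s) * m s * star (M.Bh s)

omit [Fintype Pr] in
lemma star_Pj (j : T) : star (M.Pj j) = M.Pj j := by
  have := M.orth (.inl (j, 0)) (.inl (j, 0))
  rw [if_pos rfl, M.ty_inl] at this
  rw [← this, star_mul, star_star]

omit [Fintype Pr] in
lemma Pj_mul (s : Sl T Pr n) : M.Pj (M.ty s) * star (M.Bh s) = star (M.Bh s) := by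
  simpa [M.star_Pj] using congrArg star (M.mul_Pj s)

omit [Fintype Pr] in
lemma Pj_Pj (i j : T) : M.Pj i * M.Pj j = if i = j then M.Pj i else 0 := by
  simpa [M.B0, M.star_Pj, M.ty_inl] using M.orth (.inl (i, 0)) (.inl (j, 0))

omit [Fintype Pr] in
lemma Pj_P0 (j : T) : M.Pj j * P0 z = M.Pj j := by
  simp [← M.sum_Pj, Finset.mul_sum, M.Pj_Pj]

omit [Fintype Pr] in
lemma Bh_P0 (s : Sl T Pr n) : M.Bh s * P0 z = M.Bh s := by
  rw [← M.mul_Pj, mul_assoc, M.Pj_P0]

omit [Fintype Pr] in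
lemma P0_Bh (s : Sl T Pr n) : P0 z * star (M.Bh s) = star (M.Bh s) := by
  simpa [star_P0] using congrArg star (M.Bh_P0 s)

lemma star_Pst : star M.Pst = M.Pst := by simp [Pst]

lemma Pst_Bh (s : Sl T Pr n) : M.Pst * M.Bh s = 0 := by
  simp [Pst, sub_mul, Finset.sum_mul, mul_assoc, M.orth, M.mul_Pj, -Fintype.sum_sum_type]

lemma Bh_Pst (s : Sl T Pr n) : star (M.Bh s) * M.Pst = 0 := by
  simpa [M.star_Pst] using congrArg star (M.Pst_Bh s)

lemma Pst_Pst : M.Pst * M.Pst = M.Pst := by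
  conv_lhs => rw [Pst]; rw [sub_mul, ← Pst]
  simp [Finset.sum_mul, mul_assoc, M.Bh_Pst, -Fintype.sum_sum_type]

lemma Pst_pat : M.Pst ∈ Pat blk :=
  sub_mem (one_mem _) (Subalgebra.sum_mem _ fun s _ => by simpa using M.pat s 1)

lemma decomp (Y : Matrix E E ℂ) : Y = M.Pst * Y + ∑ s, M.Bh s * (star (M.Bh s) * Y) := by
  simp [Pst, sub_mul, Finset.sum_mul, mul_assoc, -Fintype.sum_sum_type]

lemma Pst_mon (ε σ m) : M.Pst * M.mon ε σ m = ε • M.Pst := by
  simp [mon, mul_add, Finset.mul_sum, ← mul_assoc, M.Pst_Bh, M.Pst_Pst]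

lemma Bh_mon (ε : ℂ) {σ : Equiv.Perm (Sl T Pr n)} (hσ : ∀ s, M.ty (σ s) = M.ty s)
    {m : Sl T Pr n → Matrix E E ℂ} (hm : ∀ s, Commute (m s) (M.Pj (M.ty s))) (s : Sl T Pr n) :
    star (M.Bh (σ s)) * M.mon ε σ m = m s * star (M.Bh s) := by
  simp only [mon, mul_add, Finset.mul_sum, ← mul_assoc, mul_smul_comm, M.Bh_Pst, smul_zero,
    zero_add, M.orth, σ.injective.eq_iff, ite_mul, zero_mul, Finset.sum_ite_eq, Finset.mem_univ,
    if_true, hσ]
  rw [← (hm s).eq, mul_assoc, M.Pj_mul]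

lemma mon_Bh (ε : ℂ) {σ : Equiv.Perm (Sl T Pr n)} (hσ : ∀ s, M.ty (σ s) = M.ty s)
    {m : Sl T Pr n → Matrix E E ℂ} (hm : ∀ s, Commute (m s) (M.Pj (M.ty s))) (s : Sl T Pr n) :
    M.mon ε σ m * M.Bh s = M.Bh (σ s) * m s := by
  simp only [mon, add_mul, Finset.sum_mul, mul_assoc, smul_mul_assoc, M.Pst_Bh, smul_zero,
    zero_add, M.orth, mul_ite, mul_zero, Finset.sum_ite_eq', Finset.mem_univ, if_true]
  rw [(hm s).eq, ← mul_assoc, ← hσ s, M.mul_Pj]

lemma mon_Pst (ε σ m) : M.mon ε σ m * M.Pst = ε • M.Pst := by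
  simp [mon, add_mul, Finset.sum_mul, mul_assoc, M.Bh_Pst, M.Pst_Pst]

lemma mon_mem {ε : ℂ} (hε : star ε * ε = 1) {σ : Equiv.Perm (Sl T Pr n)}
    (hσ : ∀ s, M.ty (σ s) = M.ty s) {m : Sl T Pr n → Matrix E E ℂ}
    (hm : ∀ s, Commute (m s) (M.Pj (M.ty s))) (hm' : ∀ s, star (m s) * m s = 1) :
    M.mon ε σ m ∈ unitary (Matrix E E ℂ) := by
  have : star (M.mon ε σ m) * M.mon ε σ m = 1 := by
    conv_lhs => lhs; rw [mon]
    simp only [star_add, star_smul, star_sum, star_mul, star_star, M.star_Pst, add_mul,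
      Finset.sum_mul, smul_mul_assoc, M.Pst_mon, smul_smul, hε, one_smul, mul_assoc,
      M.Bh_mon ε hσ hm]
    simp only [← mul_assoc (star (m _)), hm', one_mul]
    simp [Pst]
  exact Unitary.mem_iff.2 ⟨this, mul_eq_one_comm.1 this⟩

/-- the block diagonal matrix -/
noncomputable def Dn (u : Matrix E E ℂ) : Matrix E E ℂ :=
  M.mon 1 1 fun s => if sg s then u else star u

/-- polynomial version -/
noncomputable def gD (b : Bool) : Matrix E E (PR (Fin 3) E) :=
  cM M.Pst + ∑ s, cM (M.Bh s) * gX 0 (if b then sg s else !sg s) * cM (star (M.Bh s))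

lemma em_gD (x : GG blk (kap z)) : em x (M.gD true) = M.Dn (x.1 0) := by
  simp [gD, Dn, mon, em_cM, em_gX]

omit [Fintype T] [DecidableEq T] [Fintype Pr] [DecidableEq Pr] in
lemma u_comm (x : GG blk (kap z)) : Commute (x.1 0 : Matrix E E ℂ) (P0 z) := by
  have h1 : (x.1 0 : Matrix E E ℂ) * P1 z = P1 z := (x.2 0).2
  have h2 : star (x.1 0 : Matrix E E ℂ) * P1 z = P1 z := ((GG blk (kap z)).inv_mem x.2 0).2
  have h3 : P1 z * (x.1 0 : Matrix E E ℂ) = P1 z := by simpa [star_P1] using congrArg star h2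
  rw [show P0 z = 1 - P1 z by rw [← P0_add_P1 (z := z)]; simp]
  exact (Commute.one_right _).sub_right (h1.trans h3.symm)

omit [Fintype Pr] in
lemma sg_comm {u : Matrix E E ℂ} (h1 : u ∈ Pat blk) (h2 : Commute u (P0 z)) (s : Sl T Pr n) :
    Commute (if sg s then u else star u) (M.Pj (M.ty s)) := by
  split_ifs
  · exact M.comm _ h1 h2 _
  · simpa [M.star_Pj] using (M.comm _ h1 h2 (M.ty s)).star_star

lemma Dn_mem {u : Matrix E E ℂ} (h0 : u ∈ unitary (Matrix E E ℂ)) (h1 : u ∈ Pat blk)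
    (h2 : Commute u (P0 z)) : M.Dn u ∈ unitary (Matrix E E ℂ) :=
  M.mon_mem (by simp) (fun _ => rfl) (M.sg_comm h1 h2) fun s => by
    split_ifs
    · exact (Unitary.mem_iff.1 h0).1
    · rw [star_star]; exact (Unitary.mem_iff.1 h0).2

lemma Dn_pat (u : Matrix E E ℂ) : M.Dn u ∈ Pat blk :=
  add_mem (Subalgebra.smul_mem _ M.Pst_pat _) (Subalgebra.sum_mem _ fun s _ => M.pat s _)

lemma map_gD (η : Fin 3 → Matrix E E ℂ) : (M.gD false).map (Ld η) = ∑ s, cM (M.Bh s) *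
    (if sg s then -(gX 0 false * cM (η 0)) else cM (η 0) * gX 0 true) * cM (star (M.Bh s)) := by
  rw [gD, map_der_add, map_der_cM, zero_add]
  have : ∀ f : Sl T Pr n → Matrix E E (PR (Fin 3) E),
      (∑ s, f s).map (Ld η) = ∑ s, (f s).map (Ld η) := by
    intro f; ext1 r c; simp [Matrix.sum_apply]
  rw [this]
  refine Finset.sum_congr rfl fun s _ => ?_
  cases sg s <;> simp [map_der_mul, map_der_cM, Ld_gX_true, Ld_gX_false]

lemma hd : HD blk z M.gD where
  h0 η h := by simp [M.map_gD, h]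
  h1 x := by
    rw [M.em_gD]
    simp only [gD, Dn, mon, map_add, map_sum, map_mul, em_cM, em_gX, star_add, one_smul, star_sum,
      star_mul, star_star, M.star_Pst, Equiv.Perm.one_apply, mul_assoc]
    congr 1
    refine Finset.sum_congr rfl fun s _ => ?_
    cases sg s <;> simp
  h2 x := by rw [M.em_gD]; exact M.Dn_mem (x.1 0).2 (x.2 0).1 (u_comm x)
  h3 x := by rw [M.em_gD]; exact M.Dn_pat _

/-- twisting coefficients -/
noncomputable def cf (c : E → ℂ) : Sl T Pr n → Matrix E E ℂ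
  | .inl (_, a) => if a = Fin.last n then Matrix.diagonal c else 1
  | .inr (_, b) => if b then 1 else -1

/-- the model -/
noncomputable def V0 (c : E → ℂ) : Matrix E E ℂ := M.mon (-1) nx (cf c)

omit [Fintype Pr] in
lemma cf_comm (c : E → ℂ) (s : Sl T Pr n) : Commute (cf c s) (M.Pj (M.ty s)) := by
  rcases s with ⟨j, a⟩ | ⟨r, b⟩ <;> simp only [cf] <;> split_ifs
  · exact M.comm _ (diagonal_mem_Pat _ _) (Matrix.commute_diagonal _ _) _
  · exact Commute.one_left _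
  · exact Commute.one_left _
  · exact (Commute.one_left _).neg_left

lemma V0_mem {c : E → ℂ} (hc : ∀ x, star (c x) * c x = 1) : M.V0 c ∈ unitary (Matrix E E ℂ) :=
  M.mon_mem (by simp) M.ty_nx (M.cf_comm c) fun s => by
    rcases s with ⟨j, a⟩ | ⟨r, b⟩ <;> simp only [cf] <;> split_ifs
    · rw [Matrix.star_eq_conjTranspose, Matrix.diagonal_conjTranspose,
        Matrix.diagonal_mul_diagonal, ← Matrix.diagonal_one]
      congr 1; funext x; exact hc x
    all_goals simp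

lemma V0_pat (c : E → ℂ) : M.V0 c ∈ Pat blk :=
  add_mem (Subalgebra.smul_mem _ M.Pst_pat _) (Subalgebra.sum_mem _ fun s _ => M.pat_nx s _)

/-- propagator -/
noncomputable def Xi (u : Matrix E E ℂ) : Matrix E E ℂ :=
  ∑ s : T × Fin (n + 1), M.Bh (.inl s) * u ^ s.2.1

lemma fixed {u : Matrix E E ℂ} (h0 : u ∈ unitary (Matrix E E ℂ)) (h1 : u ∈ Pat blk)
    (h2 : Commute u (P0 z)) (c : E → ℂ) {Y : Matrix E E ℂ} (hY : M.V0 c * M.Dn u * Y = Y) :
    (∀ r, star (M.Bh (.inr r)) * Y = 0) ∧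
    (∀ j a, star (M.Bh (.inl (j, a))) * Y = u ^ a.1 * M.Pj j * Y) ∧
    Y = M.Xi u * (P0 z * Y) ∧ Matrix.diagonal c * u ^ (n + 1) * (P0 z * Y) = P0 z * Y := by
  have k0 : M.Pst * Y = 0 := by
    have : M.Pst * Y = -(M.Pst * Y) := by
      conv_lhs => rw [← hY, ← mul_assoc, ← mul_assoc, V0, M.Pst_mon, smul_mul_assoc, Dn, M.Pst_mon]
      simp
    have h3 : (2 : ℂ) • (M.Pst * Y) = 0 := by
      rw [two_smul]; nth_rewrite 1 [this]; simp
    simpa using h3
  have k1 : ∀ s, star (M.Bh (nx s)) * Y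
      = cf c s * (if sg s then u else star u) * (star (M.Bh s) * Y) := by
    intro s
    conv_lhs => rw [← hY, ← mul_assoc, ← mul_assoc, V0, M.Bh_mon _ M.ty_nx (M.cf_comm c),
      mul_assoc (cf c s), Dn]
    have := M.Bh_mon 1 (σ := 1) (fun _ => rfl) (M.sg_comm h1 h2) s
    rw [Equiv.Perm.one_apply] at this
    rw [this]; simp only [mul_assoc]
  have k2 : ∀ r, star (M.Bh (.inr (r, true))) * Y = 0 := by
    intro r
    have a1 := k1 (.inr (r, true))
    have a2 := k1 (.inr (r, false))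
    simp only [nx, Equiv.sumCongr_apply, Sum.map_inr, Equiv.prodCongr_apply, Equiv.coe_refl,
      Prod.map_apply, id_eq, Equiv.boolNot_apply, Bool.not_true, Bool.not_false, cf, sg, if_true,
      one_mul, Bool.false_eq_true, if_false] at a1 a2
    rw [a1, mul_assoc, ← mul_assoc (star u), (Unitary.mem_iff.1 h0).1, one_mul, neg_one_mul] at a2
    have h3 : (2 : ℂ) • (star (M.Bh (.inr (r, true))) * Y) = 0 := by
      rw [two_smul]; nth_rewrite 1 [a2]; simp
    simpa using h3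
  have k3 : ∀ r, star (M.Bh (.inr r)) * Y = 0 := by
    rintro ⟨r, _ | _⟩
    · have a1 := k1 (.inr (r, true))
      rw [k2, mul_zero] at a1
      exact a1
    · exact k2 r
  have k4 : ∀ j a, star (M.Bh (.inl (j, a))) * Y = u ^ a.1 * M.Pj j * Y := by
    intro j a
    induction a using Fin.induction with
    | zero => simp [M.B0, M.star_Pj]
    | succ a ih =>
      have a1 := k1 (.inl (j, a.castSucc))
      simp only [nx, Equiv.sumCongr_apply, Sum.map_inl, Equiv.prodCongr_apply, Equiv.coe_refl,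
        Prod.map_apply, id_eq, finRotate_apply, Fin.coeSucc_eq_succ, cf, sg, if_true,
        (Fin.castSucc_lt_last a).ne, if_false, one_mul, ih] at a1
      rw [a1]; simp [pow_succ', mul_assoc]
  refine ⟨k3, k4, ?_, ?_⟩
  · conv_lhs => rw [M.decomp Y]
    simp only [k0, zero_add, Fintype.sum_sum_type, k3, mul_zero, Finset.sum_const_zero, add_zero,
      Xi, Finset.sum_mul]
    refine Finset.sum_congr rfl fun ⟨j, a⟩ _ => ?_
    rw [k4, ← ((M.comm _ h1 h2 j).pow_left a.1).symm.eq, ← mul_assoc (_ * _), mul_assoc _ _ (P0 z),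
      (h2.pow_left _).eq, ← mul_assoc, ← mul_assoc, ← mul_assoc, M.Bh_P0]
    have := M.mul_Pj (.inl (j, a))
    rw [M.ty_inl] at this
    rw [this]
  · rw [← M.sum_Pj, Finset.sum_mul, Finset.mul_sum]
    refine Finset.sum_congr rfl fun j _ => ?_
    have a1 := k1 (.inl (j, Fin.last n))
    simp only [nx, Equiv.sumCongr_apply, Sum.map_inl, Equiv.prodCongr_apply, Equiv.coe_refl,
      Prod.map_apply, id_eq, finRotate_last, cf, sg, if_true, k4] at a1
    simpa [pow_succ', mul_assoc] using a1.symm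

omit [Fintype Pr] in
lemma Xi_star_Xi {u : Matrix E E ℂ} (h0 : u ∈ unitary (Matrix E E ℂ)) (h1 : u ∈ Pat blk)
    (h2 : Commute u (P0 z)) : star (M.Xi u) * M.Xi u = ((n + 1 : ℕ) : ℂ) • P0 z := by
  simp only [Xi, star_sum, star_mul, Finset.sum_mul, Finset.mul_sum, mul_assoc]
  simp only [← mul_assoc (star (M.Bh _)), M.orth, Sum.inl.injEq, ite_mul, zero_mul, mul_ite,
    mul_zero, Finset.sum_ite_eq', Finset.mem_univ, if_true]
  have : ∀ s : T × Fin (n + 1), star (u ^ s.2.1) * (M.Pj (M.ty (.inl s)) * u ^ s.2.1) = M.Pj s.1 := by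
    rintro ⟨j, a⟩
    rw [M.ty_inl, ← ((M.comm _ h1 h2 j).pow_left a.1).eq, ← mul_assoc,
      (Unitary.mem_iff.1 (pow_mem h0 _)).1, one_mul]
  simp only [this]
  simp [Fintype.sum_prod_type, ← M.sum_Pj, Finset.smul_sum, ← Nat.cast_smul_eq_nsmul ℂ]

omit [Fintype Pr] in
lemma P0_Xi (u : Matrix E E ℂ) : P0 z * M.Xi u = P0 z := by
  have : ∀ j, M.Pj j * M.Xi u = M.Pj j := by
    intro j
    conv_lhs => rw [← M.star_Pj, ← M.B0]
    simp [Xi, Finset.mul_sum, ← mul_assoc, M.orth, M.ty_inl]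
  rw [← M.sum_Pj, Finset.sum_mul]; simp [this]

omit [Fintype Pr] in
lemma Xi_P0 {u : Matrix E E ℂ} (h2 : Commute u (P0 z)) : M.Xi u * P0 z = M.Xi u := by
  simp only [Xi, Finset.sum_mul, mul_assoc, fun k => (h2.pow_left k).eq]
  simp only [← mul_assoc, M.Bh_P0]

omit [Fintype Pr] in
lemma Xi_pat {u : Matrix E E ℂ} (h1 : u ∈ Pat blk) : M.Xi u ∈ Pat blk :=
  Subalgebra.sum_mem _ fun s _ => mul_mem (M.pat_inl s) (pow_mem h1 _)

lemma Xi_fixed {u : Matrix E E ℂ} (h1 : u ∈ Pat blk) (h2 : Commute u (P0 z)) (c : E → ℂ)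
    (h3 : P0 z * (Matrix.diagonal c * u ^ (n + 1)) = P0 z) :
    M.V0 c * M.Dn u * M.Xi u = M.Xi u := by
  have e : ∀ s : T × Fin (n + 1), M.V0 c * M.Dn u * (M.Bh (.inl s) * u ^ s.2.1)
      = M.Bh (.inl (s.1, finRotate (n + 1) s.2)) * u ^ (finRotate (n + 1) s.2).1 := by
    rintro ⟨j, a⟩
    rw [mul_assoc, ← mul_assoc (M.Dn u), Dn, M.mon_Bh 1 (σ := 1) (fun _ => rfl) (M.sg_comm h1 h2),
      ← mul_assoc, ← mul_assoc, Equiv.Perm.one_apply, V0, M.mon_Bh _ M.ty_nx (M.cf_comm c)]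
    induction a using Fin.lastCases with
    | last =>
      simp only [nx, Equiv.sumCongr_apply, Sum.map_inl, Equiv.prodCongr_apply, Equiv.coe_refl,
        Prod.map_apply, id_eq, finRotate_last, cf, sg, if_true, Fin.val_last, Fin.val_zero,
        pow_zero, mul_one, mul_assoc, ← pow_succ']
      rw [← M.Bh_P0, mul_assoc, h3]
    | cast a =>
      simp [nx, cf, sg, (Fin.castSucc_lt_last a).ne, pow_succ', mul_assoc]
  rw [Xi, Finset.mul_sum, Finset.sum_congr rfl fun s _ => e s]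
  exact Equiv.sum_comp (Equiv.prodCongr (Equiv.refl T) (finRotate (n + 1)))
    (fun s : T × Fin (n + 1) => M.Bh (.inl s) * u ^ s.2.1)

lemma exists_sol {lam : E → ℂ} (hl : ∀ x, star (lam x) * lam x = 1) :
    ∃ x : GG blk (kap z), em x (gf M.gD true) = M.V0 (fun x => star (lam x ^ (n + 1))) := by
  set c : E → ℂ := fun x => star (lam x ^ (n + 1)) with hc
  have hc' : ∀ x, star (c x) * c x = 1 := fun x => by
    simp only [hc]
    rw [star_star, star_pow, ← mul_pow, mul_comm, hl, one_pow]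
  let u : Matrix E E ℂ := Matrix.diagonal fun x => if z x then lam x else 1
  have u0 : u ∈ unitary (Matrix E E ℂ) := by
    have : star u * u = 1 := by
      rw [Matrix.star_eq_conjTranspose, Matrix.diagonal_conjTranspose,
        Matrix.diagonal_mul_diagonal, ← Matrix.diagonal_one]
      congr 1; funext x
      by_cases h : z x
      · simpa [h] using hl x
      · simp [h]
    exact Unitary.mem_iff.2 ⟨this, mul_eq_one_comm.1 this⟩
  have u1 : u ∈ Pat blk := diagonal_mem_Pat _ _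
  have u2 : Commute u (P0 z) := Matrix.commute_diagonal _ _
  have u3 : u * P1 z = P1 z := by
    rw [P1, Matrix.diagonal_mul_diagonal]; congr 1; funext x; split_ifs <;> simp
  have u4 : P0 z * (Matrix.diagonal c * u ^ (n + 1)) = P0 z := by
    rw [Matrix.diagonal_pow, P0, Matrix.diagonal_mul_diagonal, Matrix.diagonal_mul_diagonal]
    congr 1; funext x
    by_cases h : z x
    · simp only [h, if_true, Pi.pow_apply, hc, star_pow, ← mul_pow, hl, one_pow, one_mul]
    · simp [h]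
  have hfix := M.Xi_fixed u1 u2 c u4
  set t : ℝ := (Real.sqrt (n + 1))⁻¹ with ht
  have ht0 : 0 < t := by positivity
  have ht1 : (t : ℂ) * t * ((n + 1 : ℕ) : ℂ) = 1 := by
    have : t * t * (n + 1) = 1 := by
      rw [ht, ← mul_inv, Real.mul_self_sqrt (by positivity)]; field_simp
    exact_mod_cast this
  have ht2 : (1 + (t : ℂ)) ≠ 0 := by exact_mod_cast (by positivity : (1 + t) ≠ 0)
  set Z := P0 z + (t : ℂ) • M.Xi u with hZ
  have x1 : star (M.Xi u) * P0 z = P0 z := by simpa [star_P0] using congrArg star (M.P0_Xi u)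
  have z1 : star Z * P0 z = (1 + (t : ℂ)) • P0 z := by
    simp [hZ, add_mul, star_P0, P0_P0, x1, add_smul]
  have z2 : star Z * Z = (2 * (1 + (t : ℂ))) • P0 z := by
    simp only [hZ, star_add, star_smul, star_P0, add_mul, mul_add, P0_P0, smul_mul_assoc,
      mul_smul_comm, x1, M.P0_Xi, M.Xi_star_Xi u0 u1 u2, smul_smul, Complex.star_def,
      Complex.conj_ofReal, smul_add, ← mul_assoc, ht1]
    module
  have z3 : Z * P0 z = Z := by simp [hZ, add_mul, P0_P0, M.Xi_P0 u2]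
  set g := -1 + (1 + (t : ℂ))⁻¹ • (Z * star Z) with hg
  have g1 : star g = g := by simp [hg]
  have g2 : g * g = 1 := by
    have : ((1 + (t : ℂ))⁻¹ • (Z * star Z)) * ((1 + (t : ℂ))⁻¹ • (Z * star Z))
        = (2 : ℂ) • ((1 + (t : ℂ))⁻¹ • (Z * star Z)) := by
      rw [smul_mul_smul_comm, mul_assoc Z, ← mul_assoc (star Z), z2, smul_mul_assoc, mul_smul_comm,
        ← mul_assoc Z, z3, smul_smul, smul_smul]
      congr 1
      field_simp
    simp only [hg, add_mul, mul_add, this, neg_mul, mul_neg, one_mul, mul_one]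
    module
  have g3 : g * P0 z = (t : ℂ) • M.Xi u := by
    rw [hg, add_mul, smul_mul_assoc, mul_assoc, z1, mul_smul_comm, z3, smul_smul,
      inv_mul_cancel₀ ht2, one_smul, hZ]
    simp
  have g0 : g ∈ unitary (Matrix E E ℂ) := by rw [Unitary.mem_iff, g1, g2]; simp
  have hZp : Z ∈ Pat blk := add_mem P0_mem (Subalgebra.smul_mem _ (M.Xi_pat u1) _)
  have g4 : g ∈ Pat blk :=
    add_mem (neg_mem (one_mem _)) (Subalgebra.smul_mem _ (mul_mem hZp (star_mem_Pat hZp)) _)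
  have hP := mul_mem (M.V0_mem hc') (M.Dn_mem u0 u1 u2)
  refine ⟨⟨![⟨u, u0⟩, ⟨g, g0⟩, ⟨g * (M.V0 c * M.Dn u) * g, mul_mem (mul_mem g0 hP) g0⟩], ?_⟩, ?_⟩
  · intro i
    fin_cases i
    · exact ⟨u1, u3⟩
    · exact ⟨g4, mul_zero _⟩
    · refine ⟨mul_mem (mul_mem g4 (mul_mem (M.V0_pat c) (M.Dn_pat u))) g4, ?_⟩
      change g * (M.V0 c * M.Dn u) * g * P0 z = P0 z
      rw [mul_assoc, g3, mul_smul_comm, mul_assoc, hfix, ← mul_smul_comm, ← g3, ← mul_assoc, g2,
        one_mul]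
  · rw [M.hd.f_eq, M.em_gD]
    change star g * (g * (M.V0 c * M.Dn u) * g) * g * star (M.Dn u) = _
    rw [g1, ← mul_assoc, ← mul_assoc, g2, one_mul, mul_assoc _ g g, g2, mul_one, mul_assoc,
      (Unitary.mem_iff.1 (M.Dn_mem u0 u1 u2)).2, mul_one]

end MD
end Crest.Agent.R174
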