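import Crest.Agent.R174.Cyc

set_option autoImplicit false

namespace Crest.Agent.R174
open Equiv Monoid

variable {G T : Type*} [Group G]

/-- value of a letter -/
def ev : G ⊕ (T × Bool) → Coprod G (FreeGroup T)
  | .inl g => Coprod.inl g
  | .inr (j, true) => Coprod.inr (FreeGroup.of j)
  | .inr (j, false) => Coprod.inr (FreeGroup.of j)⁻¹

lemma ev_linv (x : G ⊕ (T × Bool)) : ev (linv x) = (ev x)⁻¹ := by
  rcases x with g | ⟨j, _ | _⟩ <;> simp [ev, linv]

lemma linv_linv (x : G ⊕ (T × Bool)) : linv (linv x) = x := by
  rcases x with g | ⟨j, _ | _⟩ <;> simp [linv]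

lemma exists_word (x : Coprod G (FreeGroup T)) :
    ∃ l : List (G ⊕ (T × Bool)), (l.map ev).prod = x := by
  induction x using Coprod.induction_on with
  | inl g => exact ⟨[.inl g], by simp [ev]⟩
  | inr f =>
    induction f using FreeGroup.induction_on with
    | C1 => exact ⟨[], by simp⟩
    | of j => exact ⟨[.inr (j, true)], by simp [ev]⟩
    | inv_of j _ => exact ⟨[.inr (j, false)], by simp [ev]⟩
    | mul a b ha hb =>
      obtain ⟨l, hl⟩ := ha
      obtain ⟨l', hl'⟩ := hb
      exact ⟨l ++ l', by simp [hl, hl']⟩
  | mul a b ha hb =>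
    obtain ⟨l, hl⟩ := ha
    obtain ⟨l', hl'⟩ := hb
    exact ⟨l ++ l', by simp [hl, hl']⟩

open Classical in
/-- push a letter on a stack -/
noncomputable def push (t : T × Bool) : G × List ((T × Bool) × G) → G × List ((T × Bool) × G)
  | (g, []) => (1, [(t, g)])
  | (g, (t', g') :: r) =>
    if g = 1 ∧ t' = (t.1, !t.2) then (g', r) else (1, (t, g) :: (t', g') :: r)

/-- reduced stacks -/
def Rd (s : G × List ((T × Bool) × G)) : Prop :=
  s.2.IsChain (fun a b => ¬(a.2 = 1 ∧ b.1 = (a.1.1, !a.1.2)))

lemma Rd.push {s : G × List ((T × Bool) × G)} (h : Rd s) (t : T × Bool) : Rd (push t s) := by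
  rcases s with ⟨g, _ | ⟨⟨t', g'⟩, r⟩⟩
  · simp [R174.push, Rd]
  · simp only [R174.push]
    split_ifs with c
    · exact List.IsChain.tail h
    · exact List.isChain_cons_cons.2 ⟨c, h⟩

lemma push_push {s : G × List ((T × Bool) × G)} (h : Rd s) (t : T × Bool) :
    push (t.1, !t.2) (push t s) = s := by
  rcases s with ⟨g, _ | ⟨⟨t', g'⟩, r⟩⟩
  · simp [push]
  · simp only [push]
    split_ifs with c
    · obtain ⟨rfl, rfl⟩ := c
      rcases r with _ | ⟨⟨t'', g''⟩, r⟩
      · simp [push]
      · have := (List.isChain_cons_cons.1 h).1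
        simp only [push]
        rw [if_neg this]
    · simp [push]

/-- the action of a free generator -/
noncomputable def pushE (j : T) : Perm {s : G × List ((T × Bool) × G) // Rd s} where
  toFun s := ⟨push (j, true) s.1, s.2.push _⟩
  invFun s := ⟨push (j, false) s.1, s.2.push _⟩
  left_inv s := Subtype.ext (push_push s.2 (j, true))
  right_inv s := Subtype.ext (push_push s.2 (j, false))

/-- the action of `G` -/
def actG : G →* Perm {s : G × List ((T × Bool) × G) // Rd s} where
  toFun h :=
    { toFun := fun s => ⟨(h * s.1.1, s.1.2), s.2⟩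
      invFun := fun s => ⟨(h⁻¹ * s.1.1, s.1.2), s.2⟩
      left_inv := fun s => by simp
      right_inv := fun s => by simp }
  map_one' := by ext s <;> simp
  map_mul' a b := by ext s <;> simp [mul_assoc]

variable {I : Type*}

/-- decomposition of a word according to a stack -/
inductive Dec (lab : I → G ⊕ (T × Bool)) : List I → G × List ((T × Bool) × G) → Prop
  | base {l : List I} {g : G} : Red lab l g → Dec lab l (g, [])
  | step {l₀ l₁ : List I} {q : I} {g g₁ : G} {t : T × Bool} {r : List ((T × Bool) × G)} :
      Red lab l₀ g → lab q = .inr t → Dec lab l₁ (g₁, r) → Dec lab (l₀ ++ q :: l₁) (g, (t, g₁) :: r)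

lemma Dec.consG {lab : I → G ⊕ (T × Bool)} {l : List I} {s : G × List ((T × Bool) × G)}
    (hd : Dec lab l s) {p : I} {h : G} (hp : lab p = .inl h) :
    Dec lab (p :: l) (h * s.1, s.2) := by
  cases hd with
  | base hr => exact Dec.base (Red.consG hp hr)
  | step hr hq hd => exact Dec.step (Red.consG hp hr) hq hd

lemma Dec.consT {lab : I → G ⊕ (T × Bool)} {l : List I} {s : G × List ((T × Bool) × G)}
    (hd : Dec lab l s) {p : I} {t : T × Bool} (hp : lab p = .inr t) :
    Dec lab (p :: l) (push t s) := by
  cases hd with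
  | base hr => exact Dec.step (l₀ := []) Red.nil hp (Dec.base hr)
  | step hr hq hd =>
    simp only [push]
    split_ifs with c
    · obtain ⟨rfl, rfl⟩ := c
      cases hd with
      | base hr' => exact Dec.base (Red.pair hp hq hr hr')
      | step hr' hq' hd' =>
        have := Dec.step (Red.pair hp hq hr hr') hq' hd'
        simpa using this
    · exact Dec.step (l₀ := []) Red.nil hp (Dec.step hr hq hd)

theorem red_of_prod (lab : I → G ⊕ (T × Bool)) (l : List I) (g : G)
    (h : (l.map fun x => ev (lab x)).prod = Coprod.inl g) : Red lab l g := by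
  let φ : Coprod G (FreeGroup T) →* Perm {s : G × List ((T × Bool) × G) // Rd s} :=
    Coprod.lift actG (FreeGroup.lift pushE)
  let s₀ : {s : G × List ((T × Bool) × G) // Rd s} := ⟨(1, []), List.IsChain.nil⟩
  have key : ∀ l : List I, Dec lab l (φ (l.map fun x => ev (lab x)).prod s₀).1 := by
    intro l
    induction l with
    | nil => exact Dec.base Red.nil
    | cons p l ih =>
      rw [List.map_cons, List.prod_cons, map_mul, Perm.mul_apply]
      rcases hp : lab p with h | ⟨j, _ | _⟩
      · exact ih.consG hp
      · have := ih.consT hp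
        simp only [ev, φ, map_inv, Coprod.lift_apply_inr, FreeGroup.lift_apply_of] at this ⊢
        exact this
      · have := ih.consT hp
        simp only [ev, φ, Coprod.lift_apply_inr, FreeGroup.lift_apply_of] at this ⊢
        exact this
  have := key l
  rw [h] at this
  change Dec lab l (g * 1, []) at this
  rw [mul_one] at this
  cases this with
  | base hr => exact hr

end Crest.Agent.R174
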