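import Crest.Agent.R174.Assemble
import Crest.Agent.R174.Block
import Crest.Agent.R174.DD
import Crest.Agent.R174.Stack

set_option autoImplicit false

namespace Crest.Agent.R174
open Equiv Matrix

variable {G T F P : Type*} [Group G]

/-- labels of the boundary word -/
def plab (W : T → P → G ⊕ (T × Bool)) (Uw : T × Bool × F → P → G ⊕ (T × Bool)) :
    Option ((T × Bool × F) × Option Bool × P) → G ⊕ (T × Bool)
  | none => .inl 1
  | some (k, some false, p) => Uw k p
  | some (k, some true, p) => linv (Uw k p)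
  | some (k, none, p) => if k.2.1 then W k.1 p else linv (W k.1 p)

/-- mirror map -/
def nuF : Option ((T × Bool × F) × Option Bool × P) → Option ((T × Bool × F) × Option Bool × P)
  | none => none
  | some (k, some c, p) => some (k, some (!c), p)
  | some (k, none, p) => some ((k.1, !k.2.1, k.2.2), none, p)

lemma nuF_inv : Function.Involutive (nuF (T := T) (F := F) (P := P)) := by
  rintro (_ | ⟨⟨i, b, a⟩, _ | c, p⟩) <;> simp [nuF]

/-- mirror permutation -/
def nu : Perm (Option ((T × Bool × F) × Option Bool × P)) := nuF_inv.toPerm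

lemma plab_nu (W : T → P → G ⊕ (T × Bool)) (Uw : T × Bool × F → P → G ⊕ (T × Bool)) (x) :
    plab W Uw (nuF x) = linv (plab W Uw x) := by
  rcases x with (_ | ⟨⟨i, _ | _, a⟩, _ | _ | _, p⟩) <;> simp [nuF, plab, linv_linv]
  simp [linv]

/-- slots of all face letters -/
def posF : (T × Bool × P) × F → Option ((T × Bool × F) × Option Bool × P) :=
  fun s => some ((s.1.1, s.1.2.1, s.2), none, s.1.2.2)

lemma posF_inj : Function.Injective (posF (T := T) (F := F) (P := P)) := by
  rintro ⟨⟨i, b, p⟩, a⟩ ⟨⟨i', b', p'⟩, a'⟩ h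
  simp only [posF, Option.some.injEq, Prod.mk.injEq] at h ⊢
  tauto

/-- exponent of a letter -/
def ex [DecidableEq T] : G ⊕ (T × Bool) → T → ℤ
  | .inl _, _ => 0
  | .inr (j, b), i => if j = i then (if b then 1 else -1) else 0

lemma gl_linv (x : G ⊕ (T × Bool)) : gl (linv x) = (gl x)⁻¹ := by
  rcases x with g | ⟨j, b⟩ <;> simp [gl, linv]

variable [Fintype T] [DecidableEq T] [Fintype F] [DecidableEq F] [Fintype P] [DecidableEq P]

/-- the gluing matrix -/
noncomputable def Jm (U : T → Matrix F F ℂ) :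
    Matrix (Option ((T × Bool × F) × Option Bool × P))
      (Option ((T × Bool × F) × Option Bool × P)) ℂ :=
  pm nu * DD posF (fun s => if s.2.1 then U s.1 else star (U s.1))

/-- entries of the gluing matrix -/
def jf (U : T → Matrix F F ℂ) : Option ((T × Bool × F) × Option Bool × P) →
    Option ((T × Bool × F) × Option Bool × P) → ℂ
  | some (k, none, p), some (k', none, p') =>
    if k.1 = k'.1 ∧ (!k.2.1) = k'.2.1 ∧ p = p' then
      (if k'.2.1 then U k.1 else star (U k.1)) k.2.2 k'.2.2 else 0
  | x, y => if nuF x = y then 1 else 0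

lemma Jm_apply (U : T → Matrix F F ℂ) (x y : Option ((T × Bool × F) × Option Bool × P)) :
    Jm U x y = jf U x y := by
  rw [Jm, pm_mul]
  change DD _ _ (nuF x) y = _
  rcases x with (_ | ⟨⟨i, b, a⟩, _ | c, p⟩)
  · rw [DD_left _ (by simp [nuF, posF])]; simp [jf]
  · rcases y with (_ | ⟨⟨i', b', a'⟩, _ | c', p'⟩)
    · rw [DD_right _ _ (by simp [posF])]; simp [jf]
    · have := DD_pos_pos (posF_inj (T := T) (F := F) (P := P))
        (fun s => if s.2.1 then U s.1 else star (U s.1)) (i, !b, p) (i', b', p') a a'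
      refine this.trans ?_
      simp only [jf, Prod.mk.injEq]
      split_ifs with h h1 h2 h2
      · rfl
      · exact absurd (h.2.1 ▸ h1) h2
      · exact absurd (h.2.1 ▸ h2) h1
      · rfl
      · rfl
    · rw [DD_right _ _ (by simp [posF])]; simp [jf]
  · rw [DD_left _ (by simp [nuF, posF])]; simp [jf]

lemma star_Jm (U : T → Matrix F F ℂ) : star (Jm (P := P) U) = Jm U := by
  ext x y
  rw [Matrix.star_apply, Jm_apply, Jm_apply]
  rcases x with (_ | ⟨⟨i, b, a⟩, _ | c, p⟩) <;> rcases y with (_ | ⟨⟨i', b', a'⟩, _ | c', p'⟩) <;>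
    simp only [jf, nuF, reduceCtorEq, if_false, if_true, star_zero, star_one, Option.some.injEq,
      Prod.mk.injEq, false_and, and_false]
  · by_cases h : i = i' ∧ (!b) = b' ∧ p = p'
    · obtain ⟨rfl, rfl, rfl⟩ := h
      cases b <;> simp
    · rw [if_neg h, if_neg (by
        rintro ⟨rfl, rfl, rfl⟩
        simp at h), star_zero]
  · by_cases h : (i = i' ∧ b = b' ∧ a = a') ∧ (!c) = c' ∧ p = p'
    · obtain ⟨⟨rfl, rfl, rfl⟩, rfl, rfl⟩ := h
      simp
    · rw [if_neg h, if_neg (by
        rintro ⟨⟨rfl, rfl, rfl⟩, rfl, rfl⟩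
        simp at h), star_zero]

lemma Jm_mem {U : T → Matrix F F ℂ} (hU : ∀ i, U i ∈ unitary (Matrix F F ℂ)) :
    Jm (P := P) U ∈ unitary _ := by
  refine mul_mem (pmU nu).2 (DD_mem posF_inj fun s => ?_)
  split_ifs
  · exact hU _
  · exact Unitary.star_mem (hU _)

set_option maxHeartbeats 1000000 in
theorem pic_contra
    (hDL : ∀ (W : T → P → G ⊕ (T × Bool)), DLStmt (Option ((T × Bool × F) × Option Bool × P))
      (Option (T × Bool)) T F {s : T × P // (W s.1 s.2).isRight})
    (W : T → P → G ⊕ (T × Bool)) (Uw : T × Bool × F → P → G ⊕ (T × Bool))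
    (p₀ : P) (r : List P) (hps : (p₀ :: r).Nodup) (hps' : ∀ p, p ∈ p₀ :: r)
    (fs : List (T × Bool × F)) (hfs : fs.Nodup) (hfs' : ∀ k, k ∈ fs)
    (d : ℕ) (hd : 0 < d) (hW : ∀ i j, ∑ p, ex (W i p) j = if i = j then (d : ℤ) else 0)
    (c : G) (hc2 : c * c = 1) (hc1 : c ≠ 1)
    (hred : Red (plab W Uw) (fs.flatMap (block (fun k => k.2.1) (p₀ :: r))) c) : False := by
  obtain ⟨S, hS⟩ : ∃ S, opt (fib (fun k : T × Bool × F => fib (Pi.mulSingle none
        (if k.2.1 then cyc p₀ r else (cyc p₀ r)⁻¹)) * mir (p₀ :: r))) = S := ⟨_, rfl⟩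
  refine assemble (plab W Uw) none rfl _ (blocks_nodup _ hps hfs) (mem_blocks _ hps' hfs') c hred
    hc2 hc1 S (fs.length * (Real.pi + (p₀ :: r).length * Real.pi))
    (fun Φ hΦ hsw => by
      rw [← hS]
      exact blocks_rel' hΦ ((scU G).comp pmU) hsw (fun k : T × Bool × F => k.2.1) p₀ r hps fs hfs
        hfs') ?_
  intro π β h1 h2 h3 h4
  have hS1 : S none = none := by rw [← hS]; rfl
  have hS2 : ∀ k c p, S (some (k, some c, p)) = some (k, some (!c), p) := by
    intro k c p; rw [← hS]; simp [mir_apply, hps']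
  have hS3 : ∀ k p, S (some (k, none, p))
      = some (k, none, (if k.2.1 then cyc p₀ r else (cyc p₀ r)⁻¹) p) := by
    intro k p; rw [← hS]; simp only [opt_some, fib_apply, if_true, Perm.mul_apply,
      mir_apply, hps', Option.map_none, Pi.mulSingle_eq_same]
  set lab := plab W Uw with hlab
  let e : {s : T × P // (W s.1 s.2).isRight} → Bool := fun s => ((W s.1.1 s.1.2).getRight s.2).2
  let lt : {s : T × P // (W s.1 s.2).isRight} → T := fun s => ((W s.1.1 s.1.2).getRight s.2).1
  have hWs : ∀ s : {s : T × P // (W s.1 s.2).isRight}, W s.1.1 s.1.2 = .inr (lt s, e s) :=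
    fun s => by simp [lt, e]
  let pos : {s : T × P // (W s.1 s.2).isRight} × F → Option ((T × Bool × F) × Option Bool × P) :=
    fun s => posF ((s.1.1.1, e s.1, s.1.1.2), s.2)
  have hpos : Function.Injective pos := by
    rintro ⟨s, a⟩ ⟨s', a'⟩ h
    have := posF_inj h
    simp only [Prod.mk.injEq] at this ⊢
    exact ⟨Subtype.ext (Prod.ext this.1.1 this.1.2.2), this.2⟩
  have hYu : ym π β ∈ unitary (Matrix _ _ ℂ) := by
    rw [Unitary.mem_iff, star_ym h1 h4, ym_mul_ym h1 h4]; simp
  obtain ⟨U, Q, hU, q1, q2, q3, q4, q5⟩ := hDL W (fun x => (lab x).getRight?) pos hpos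
    (fun s => s.1.1) e (fun s => some (lt s, true)) (by
      intro s a
      simp only [hlab, pos, posF, plab, hWs s]
      cases e s <;> simp [linv])
    (fun j => some (j, true)) (fun a b h => by simpa using h) d hd (by
      intro i b
      have key : ∀ j, (∑ s : {s : T × P // (W s.1 s.2).isRight},
          if s.1.1 = i ∧ lt s = j then (if e s then 1 else -1) else 0 : ℤ)
          = if i = j then (d : ℤ) else 0 := by
        intro j
        rw [← hW i j]
        have : ∑ p, ex (W i p) j = ∑ s : T × P, if s.1 = i then ex (W s.1 s.2) j else 0 := by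
          rw [Fintype.sum_prod_type]; simp
        rw [this, ← Fintype.sum_subtype_add_sum_subtype (fun s : T × P => (W s.1 s.2).isRight)]
        rw [Finset.sum_eq_zero (s := (Finset.univ : Finset {s : T × P // ¬(W s.1 s.2).isRight})),
          add_zero]
        · refine Finset.sum_congr rfl fun s _ => ?_
          rw [hWs s]; simp [ex, ite_and]
        · intro s _
          have := s.2
          rcases h : W s.1.1 s.1.2 with g | t
          · simp [ex]
          · simp [h] at this
      rcases b with _ | ⟨j, _ | _⟩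
      · simp
      · simp
      · simpa [eq_comm (a := j)] using key j)
    (ym π β * pm nu) (mul_mem hYu (pmU nu).2) (by
      intro x y hxy
      rw [mul_pm, ym_apply, if_neg]
      rintro rfl
      apply hxy
      change (lab (π (nuF y))).getRight? = _
      rcases h : lab (nuF y) with g | t
      · rw [h2 _ (by simp [h]), hlab, plab_nu]
        rw [hlab, plab_nu] at h
        rcases h' : plab W Uw y with g | ⟨j, b⟩
        · simp [linv]
        · simp [h', linv] at h
      · rw [h3 _ (by simp [h]), hlab, plab_nu, linv_linv])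
  have q4' : ∀ x y, Q x y ≠ 0 → ∃ j, lab x = .inr (j, true) := by
    intro x y h
    obtain ⟨j, hj⟩ := q4 x y h
    exact ⟨j, by simpa using hj⟩
  have q6 : DD posF (fun s => if s.2.1 then U s.1 else star (U s.1)) * Q
      = DD pos (fun s => if e s then U s.1.1 else star (U s.1.1)) * Q := by
    ext x y
    simp only [Matrix.mul_apply]
    refine Finset.sum_congr rfl fun w _ => ?_
    by_cases h : Q w y = 0
    · simp [h]
    congr 1
    obtain ⟨j, hj⟩ := q4' w y h
    rcases w with (_ | ⟨⟨i, b, a⟩, _ | c, p⟩)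
    · simp [hlab, plab] at hj
    · have hb : W i p = .inr (j, b) := by
        cases b
        · simp only [hlab, plab, Bool.false_eq_true, if_false] at hj
          rw [← linv_linv (W i p), hj]; rfl
        · simpa [hlab, plab] using hj
      let s : {s : T × P // (W s.1 s.2).isRight} := ⟨(i, p), by simp [hb]⟩
      have hes : e s = b := by simp [e, s, hb]
      have e1 : some ((i, b, a), none, p) = pos (s, a) := by simp [pos, posF, hes, s]
      by_cases hx : ∃ s', x = pos s'
      · obtain ⟨⟨s', a'⟩, rfl⟩ := hx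
        rw [e1, DD_pos_pos hpos]
        refine (DD_pos_pos posF_inj _ _ _ _ _).trans ?_
        refine if_congr ⟨fun h => ?_, fun h => by rw [h]⟩ rfl rfl
        simp only [Prod.mk.injEq] at h
        exact Subtype.ext (Prod.ext h.1 h.2.2)
      · rw [DD_left (pos := pos) _ (by simpa using hx), if_neg (by rintro rfl; exact hx ⟨_, e1⟩)]
        by_cases hx' : ∃ s', x = posF s'
        · obtain ⟨⟨s', a'⟩, rfl⟩ := hx'
          refine (DD_pos_pos posF_inj _ s' (i, b, p) a' a).trans (if_neg ?_)
          rintro rfl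
          exact hx ⟨(s, a'), by simp [pos, hes, s]⟩
        · rw [DD_left _ (by simpa using hx'), if_neg]
          rintro rfl
          exact hx ⟨_, e1⟩
    · rw [DD_right _ _ (by simp [posF]), DD_right _ _ (by simp [pos, posF])]
  have hJu := Jm_mem (P := P) hU
  have j2 : Jm (P := P) U * Jm U = 1 := by
    have := (Unitary.mem_iff.1 hJu).1
    rwa [star_Jm] at this
  have q7 : Jm U * Q = ym π β * Q := by
    rw [Jm, mul_assoc, q6]
    conv_rhs => rw [← q5]
    simp only [← mul_assoc, ym_mul_ym h1 h4, one_mul]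
  have q8 : Q * ym π β * Q = 0 := by
    ext x y
    simp only [Matrix.mul_apply, Finset.sum_mul, Matrix.zero_apply]
    refine Finset.sum_eq_zero fun b _ => Finset.sum_eq_zero fun a _ => ?_
    by_cases hb : Q b y = 0
    · simp [hb]
    by_cases ha : Q x a = 0
    · simp [ha]
    obtain ⟨j, hj⟩ := q4' b y hb
    obtain ⟨j', hj'⟩ := q4' a x (by rw [← q1, Matrix.star_apply]; simpa using ha)
    rw [ym_apply, if_neg, mul_zero, zero_mul]
    rintro rfl
    rw [h3 b (by simp [hj]), hj] at hj'
    simp [linv] at hj'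
  have hY1 := star_ym h1 h4
  have hY2 := ym_mul_ym h1 h4
  have hJS : Jm U * pm S = pm S⁻¹ * Jm U := by
    ext x y
    rw [mul_pm, pm_mul, inv_inv, Jm_apply, Jm_apply]
    rcases x with (_ | ⟨⟨i, b, a⟩, _ | c, p⟩) <;>
      rcases y with (_ | ⟨⟨i', b', a'⟩, _ | c', p'⟩) <;>
      simp only [hS1, hS2, hS3, jf, nuF, reduceCtorEq, if_false, if_true, Option.some.injEq,
        Prod.mk.injEq, false_and, and_false]
    · refine if_congr (and_congr_right fun _ => and_congr_right fun h => ?_) rfl rfl
      subst h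
      cases b <;> simp [Equiv.symm_apply_eq, Equiv.eq_symm_apply]
    · refine if_congr (and_congr_right fun _ => and_congr_left fun h => ?_) rfl rfl
      cases c <;> cases c' <;> simp
  have hJS' : pm S * Jm U = Jm U * pm S⁻¹ := by
    calc _ = pm S * (Jm U * pm S) * pm S⁻¹ := by
          rw [mul_assoc, mul_assoc, pm_mul_pm, mul_inv_cancel, pm_one, mul_one]
      _ = _ := by rw [hJS, ← mul_assoc, pm_mul_pm, mul_inv_cancel, pm_one, one_mul]
  refine ⟨Jm U, (1 / 2 : ℂ) • ((1 - ym π β) * Q * (1 - ym π β)), star_Jm U, j2, ?_, ?_, ?_, ?_,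
    ?_, ?_, ?_, ?_, ?_⟩
  · intro x y h
    rw [Jm_apply] at h
    have : ∀ x y : Option ((T × Bool × F) × Option Bool × P), nuF x = y →
        gl (lab x) = (gl (lab y))⁻¹ := by
      rintro x y rfl; rw [hlab, plab_nu, gl_linv, inv_inv]
    rcases x with (_ | ⟨⟨i, b, a⟩, _ | c, p⟩) <;>
      rcases y with (_ | ⟨⟨i', b', a'⟩, _ | c', p'⟩) <;>
      first
      | exact this _ _ (by simpa [jf] using h)
      | skip
    simp only [jf, ne_eq, ite_eq_right_iff, Classical.not_imp] at h
    obtain ⟨⟨rfl, rfl, rfl⟩, -⟩ := h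
    cases b <;> simp [hlab, plab, gl_linv]
  · intro x
    rw [Jm_apply]
    rcases x with (_ | ⟨⟨i, b, a⟩, _ | c, p⟩) <;> simp [jf, nuF]
  · rw [star_mul, star_pm, inv_inv, star_Jm, hJS']
  · simp [hY1, q1, mul_assoc]
  · simp only [smul_mul_assoc, mul_smul_comm, smul_smul]
    have : (1 - ym π β) * Q * (1 - ym π β) * ((1 - ym π β) * Q * (1 - ym π β))
        = (1 - ym π β) * (Q * ((1 - ym π β) * (1 - ym π β)) * Q) * (1 - ym π β) := by
      simp only [mul_assoc]
    rw [this, show (1 - ym π β) * (1 - ym π β) = (2 : ℂ) • (1 - ym π β) by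
      simp only [mul_sub, sub_mul, hY2, one_mul, mul_one]; module]
    simp only [smul_mul_assoc, mul_smul_comm, smul_smul, mul_sub Q, sub_mul _ _ Q, mul_one, q2,
      q8, sub_zero]
    norm_num
  · rw [mul_smul_comm, ← smul_neg, ← mul_assoc, ← mul_assoc, mul_sub (ym π β), hY2, mul_one, ← neg_mul,
      ← neg_mul, neg_sub]
  · have : Jm U * (ym π β * Q) = Q := by rw [← q7, ← mul_assoc, j2, one_mul]
    rw [mul_smul_comm, ← smul_neg, ← mul_assoc, sub_mul 1, one_mul, mul_sub (Jm U), this, q7, ← neg_mul,
      neg_sub]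
  · intro x y h
    by_contra hx
    apply h
    have : ∀ w, ((1 - ym π β) * Q) x w = 0 := by
      intro w
      have hl : (lab x).isLeft := by simpa using hx
      have h0 : Q x w = 0 := by
        by_contra h'
        obtain ⟨j, hj⟩ := q4' x w h'
        simp [hj] at hl
      rw [sub_mul, one_mul, Matrix.sub_apply, h0, ym, mul_assoc, pm_mul,
        show π⁻¹ x = x by rw [Perm.inv_eq_iff_eq, h2 x hl], Matrix.diagonal_mul, h0]
      simp
    rw [Matrix.smul_apply, Matrix.mul_apply]
    simp [this]
  · have t1 : ((1 / 2 : ℂ) • ((1 - ym π β) * Q * (1 - ym π β))).trace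
        = Fintype.card T * Fintype.card F := by
      rw [Matrix.trace_smul, Matrix.trace_mul_cycle,
        show (1 - ym π β) * (1 - ym π β) = (2 : ℂ) • (1 - ym π β) by
          simp only [mul_sub, sub_mul, hY2, one_mul, mul_one]; module, smul_mul_assoc,
        Matrix.trace_smul, sub_mul, one_mul, Matrix.trace_sub, q3, ← q2, ← mul_assoc,
        Matrix.trace_mul_cycle, q8]
      simp
    have t2 : (Jm U * pm S⁻¹).trace
        = 1 + 2 * ((Fintype.card T : ℂ) * 2 * Fintype.card F) * Fintype.card P := by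
      rw [Matrix.trace, ← Equiv.sum_comp S]
      have : ∀ x, (Jm U * pm S⁻¹).diag (S x)
          = if (x.map fun y => y.2.1) = some none then 0 else 1 := by
        intro x
        rw [Matrix.diag_apply, mul_pm, show S⁻¹ (S x) = x by simp, Jm_apply]
        rcases x with (_ | ⟨⟨i, b, a⟩, _ | c, p⟩) <;> simp [hS1, hS2, hS3, jf, nuF]
      simp only [this, Fintype.sum_option, Fintype.sum_prod_type]
      simp
      ring
    have l1 : fs.length = Fintype.card T * 2 * Fintype.card F := by
      have h6 : fs.toFinset = Finset.univ := by ext x; simp [hfs']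
      rw [← List.toFinset_card_of_nodup hfs, h6]; simp [mul_assoc]
    have l2 : (p₀ :: r).length = Fintype.card P := by
      have h6 : (p₀ :: r).toFinset = Finset.univ := by ext x; simp only [List.mem_toFinset, hps',
        Finset.mem_univ]
      rw [← List.toFinset_card_of_nodup hps, h6]; simp
    rw [t1, t2, l1, l2]
    simp
    apply le_of_eq
    ring

end Crest.Agent.R174
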