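import Crest.Agent.R174.Haar
import Crest.Agent.R174.Lin

set_option autoImplicit false

namespace Crest.Agent.R174
open Matrix MeasureTheory

variable {E B : Type*} [Fintype E] [DecidableEq E] [DecidableEq B] {blk : E → B}
  {z : E → Prop} [DecidablePred z]

variable (z) in
/-- first projection -/
noncomputable def P0 : Matrix E E ℂ := Matrix.diagonal fun x => if z x then 1 else 0

variable (z) in
/-- complementary projection -/
noncomputable def P1 : Matrix E E ℂ := Matrix.diagonal fun x => if z x then 0 else 1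

omit [Fintype E] in
lemma P0_add_P1 : P0 z + P1 z = 1 := by
  rw [P0, P1, Matrix.diagonal_add, ← Matrix.diagonal_one]
  congr 1; funext x; split_ifs <;> simp

lemma P0_P0 : P0 z * P0 z = P0 z := by
  rw [P0, Matrix.diagonal_mul_diagonal]; congr 1; funext x; split_ifs <;> simp
lemma P1_P1 : P1 z * P1 z = P1 z := by
  rw [P1, Matrix.diagonal_mul_diagonal]; congr 1; funext x; split_ifs <;> simp
lemma P0_P1 : P0 z * P1 z = 0 := by
  rw [P0, P1, Matrix.diagonal_mul_diagonal, ← Matrix.diagonal_zero]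
  congr 1; funext x; split_ifs <;> simp
lemma P1_P0 : P1 z * P0 z = 0 := by
  rw [P0, P1, Matrix.diagonal_mul_diagonal, ← Matrix.diagonal_zero]
  congr 1; funext x; split_ifs <;> simp
lemma P0_P0' (M : Matrix E E ℂ) : P0 z * (P0 z * M) = P0 z * M := by rw [← mul_assoc, P0_P0]
lemma P1_P1' (M : Matrix E E ℂ) : P1 z * (P1 z * M) = P1 z * M := by rw [← mul_assoc, P1_P1]
lemma P0_P1' (M : Matrix E E ℂ) : P0 z * (P1 z * M) = 0 := by rw [← mul_assoc, P0_P1, zero_mul]
lemma P1_P0' (M : Matrix E E ℂ) : P1 z * (P0 z * M) = 0 := by rw [← mul_assoc, P1_P0, zero_mul]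
omit [Fintype E] in
lemma star_P0 : star (P0 z) = P0 z := by
  rw [P0, Matrix.star_eq_conjTranspose, Matrix.diagonal_conjTranspose]
  congr 1; funext x; by_cases h : z x <;> simp [h]
omit [Fintype E] in
lemma star_P1 : star (P1 z) = P1 z := by
  rw [P1, Matrix.star_eq_conjTranspose, Matrix.diagonal_conjTranspose]
  congr 1; funext x; by_cases h : z x <;> simp [h]
omit [DecidableEq B] in
lemma P0_mem : P0 z ∈ Pat blk := diagonal_mem_Pat _ _
omit [DecidableEq B] in
lemma P1_mem : P1 z ∈ Pat blk := diagonal_mem_Pat _ _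

variable (z) in
/-- constraints -/
noncomputable def kap : Fin 3 → Matrix E E ℂ := ![P1 z, 0, P0 z]

variable (z) in
/-- the frame -/
noncomputable def fr : Matrix E E ℂ →ₗ[ℂ] (Fin 3 → Matrix E E ℂ) where
  toFun ξ := ![-(P0 z * ξ * P0 z), -(P0 z * ξ * P1 z + P1 z * ξ * P0 z), P1 z * ξ * P1 z]
  map_add' a b := by
    funext i; fin_cases i <;> simp [mul_add, add_mul] <;> abel
  map_smul' a b := by
    funext i; fin_cases i <;> simp

lemma fr0 (ξ : Matrix E E ℂ) : fr z ξ 0 = -(P0 z * ξ * P0 z) := rfl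
lemma fr1 (ξ : Matrix E E ℂ) : fr z ξ 1 = -(P0 z * ξ * P1 z + P1 z * ξ * P0 z) := rfl
lemma fr2 (ξ : Matrix E E ℂ) : fr z ξ 2 = P1 z * ξ * P1 z := rfl

omit [DecidableEq B] in
lemma fr_lie {ξ : Matrix E E ℂ} (h : ξ ∈ Pat blk) : InLie blk (kap z) (fr z ξ) := by
  intro i
  fin_cases i
  · refine ⟨neg_mem (mul_mem (mul_mem P0_mem h) P0_mem), ?_, ?_⟩
    · change -(P0 z * ξ * P0 z) * P1 z = 0
      simp [mul_assoc, P0_P1]
    · change star (-(P0 z * ξ * P0 z)) * P1 z = 0
      simp [mul_assoc, P0_P1, star_P0]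
  · exact ⟨neg_mem (add_mem (mul_mem (mul_mem P0_mem h) P1_mem)
      (mul_mem (mul_mem P1_mem h) P0_mem)), mul_zero _, mul_zero _⟩
  · refine ⟨mul_mem (mul_mem P1_mem h) P1_mem, ?_, ?_⟩
    · change P1 z * ξ * P1 z * P0 z = 0
      simp [mul_assoc, P1_P0]
    · change star (P1 z * ξ * P1 z) * P0 z = 0
      simp [mul_assoc, P1_P0, star_P1]

/-- evaluation of polynomial matrices -/
noncomputable def em {ι : Type*} {κ : ι → Matrix E E ℂ} (x : GG blk κ) :
    Matrix E E (PR ι E) →ₐ[ℂ] Matrix E E ℂ := (evG x).mapMatrix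

omit [DecidableEq B] in
lemma em_apply {ι : Type*} {κ : ι → Matrix E E ℂ} (x : GG blk κ) (M : Matrix E E (PR ι E))
    (r c : E) : em x M r c = evG x (M r c) := rfl

omit [DecidableEq B] in
lemma em_gX {ι : Type*} {κ : ι → Matrix E E ℂ} (x : GG blk κ) (i : ι) (b : Bool) :
    em x (gX i b) = if b then (x.1 i : Matrix E E ℂ) else star (x.1 i : Matrix E E ℂ) :=
  evl_gX _ i b

omit [DecidableEq B] in
lemma em_cM {ι : Type*} {κ : ι → Matrix E E ℂ} (x : GG blk κ) (M : Matrix E E ℂ) :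
    em x (cM M) = M := evl_cM _ M

/-- the map `f` (`false`: its inverse) -/
noncomputable def gf (gD : Bool → Matrix E E (PR (Fin 3) E)) : Bool → Matrix E E (PR (Fin 3) E)
  | true => gX 1 false * gX 2 true * gX 1 true * gD false
  | false => gD true * (gX 1 false * gX 2 false * gX 1 true)

/-- Maurer–Cartan form -/
noncomputable def gθ (gD : Bool → Matrix E E (PR (Fin 3) E)) (η : Fin 3 → Matrix E E ℂ) :
    Matrix E E (PR (Fin 3) E) := (gf gD true).map (Ld η) * gf gD false

/-- value of the derivative of a polynomial matrix -/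
noncomputable def dm {ι : Type*} {κ : ι → Matrix E E ℂ} (x : GG blk κ) (M : Matrix E E (PR ι E)) :
    (ι → Matrix E E ℂ) →ₗ[ℂ] Matrix E E ℂ where
  toFun η := em x (M.map (Ld η))
  map_add' a b := by ext r c; simp [em_apply]
  map_smul' a b := by ext r c; simp [em_apply]

omit [DecidableEq B] in
lemma dm_apply {ι : Type*} {κ : ι → Matrix E E ℂ} (x : GG blk κ) (M : Matrix E E (PR ι E))
    (η : ι → Matrix E E ℂ) : dm x M η = em x (M.map (Ld η)) := rfl

/-- value of the Maurer–Cartan form -/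
noncomputable def th (gD : Bool → Matrix E E (PR (Fin 3) E)) (x : GG blk (kap z)) :
    (Fin 3 → Matrix E E ℂ) →ₗ[ℂ] Matrix E E ℂ :=
  LinearMap.mulRight ℂ (em x (gf gD false)) ∘ₗ dm x (gf gD true)

omit [DecidableEq B] in
lemma th_apply (gD : Bool → Matrix E E (PR (Fin 3) E)) (x : GG blk (kap z))
    (η : Fin 3 → Matrix E E ℂ) : th gD x η = em x (gθ gD η) := by
  simp [th, gθ, dm_apply]

/-- the Jacobian -/
noncomputable def Jac (gD : Bool → Matrix E E (PR (Fin 3) E)) (x : GG blk (kap z)) : ℂ :=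
  (mat blk (th gD x ∘ₗ fr z)).det

variable (blk z) in
/-- hypotheses on the block diagonal part -/
structure HD (gD : Bool → Matrix E E (PR (Fin 3) E)) : Prop where
  h0 : ∀ η : Fin 3 → Matrix E E ℂ, η 0 = 0 → (gD false).map (Ld η) = 0
  h1 : ∀ x : GG blk (kap z), em x (gD false) = star (em x (gD true))
  h2 : ∀ x : GG blk (kap z), em x (gD true) ∈ unitary (Matrix E E ℂ)
  h3 : ∀ x : GG blk (kap z), em x (gD true) ∈ Pat blk

variable {gD : Bool → Matrix E E (PR (Fin 3) E)}

omit [DecidableEq B] in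
lemma HD.f_eq (H : HD blk z gD) (x : GG blk (kap z)) : em x (gf gD true)
    = star (x.1 1 : Matrix E E ℂ) * x.1 2 * x.1 1 * star (em x (gD true)) := by
  simp [gf, em_gX, H.h1]

omit [DecidableEq B] in
lemma HD.f_star (H : HD blk z gD) (x : GG blk (kap z)) :
    em x (gf gD false) = star (em x (gf gD true)) := by
  simp [gf, em_gX, H.h1, mul_assoc]

omit [DecidableEq B] in
lemma HD.f_mem (H : HD blk z gD) (x : GG blk (kap z)) :
    em x (gf gD true) ∈ unitary (Matrix E E ℂ) := by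
  rw [H.f_eq]
  exact mul_mem (mul_mem (mul_mem (Unitary.star_mem (x.1 1).2) (x.1 2).2) (x.1 1).2)
    (Unitary.star_mem (H.h2 x))

omit [DecidableEq B] in
lemma HD.f_pat (H : HD blk z gD) (x : GG blk (kap z)) : em x (gf gD true) ∈ Pat blk := by
  rw [H.f_eq]
  exact mul_mem (mul_mem (mul_mem (star_mem_Pat (x.2 1).1) (x.2 2).1) (x.2 1).1)
    (star_mem_Pat (H.h3 x))

omit [DecidableEq B] in
lemma HD.th_pat (H : HD blk z gD) (x : GG blk (kap z)) {η : Fin 3 → Matrix E E ℂ}
    (hη : InLie blk (kap z) η) : th gD x η ∈ Pat blk := by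
  refine mul_mem (fun r c h => ?_) (by rw [H.f_star]; exact star_mem_Pat (H.f_pat x))
  exact evG_Ld_eq_zero (fun y => H.f_pat y r c h) hη x

omit [DecidableEq B] in
lemma HD.df (H : HD blk z gD) (x : GG blk (kap z)) (η : Fin 3 → Matrix E E ℂ) :
    em x ((gf gD true).map (Ld η)) = th gD x η * em x (gf gD true) := by
  rw [th_apply, gθ, map_mul, H.f_star, mul_assoc, (Unitary.mem_iff.1 (H.f_mem x)).1, mul_one]

omit [DecidableEq B] in
lemma HD.df' (H : HD blk z gD) (x : GG blk (kap z)) {η : Fin 3 → Matrix E E ℂ}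
    (hη : InLie blk (kap z) η) :
    em x ((gf gD false).map (Ld η)) = -(star (em x (gf gD true)) * th gD x η) := by
  have h1 : em x ((gf gD false * gf gD true).map (Ld η)) = 0 := by
    ext r c
    have := evG_Ld_eq_zero (φ := (gf gD false * gf gD true - 1) r c) (fun y => by
      rw [← em_apply, map_sub, map_mul, H.f_star, (Unitary.mem_iff.1 (H.f_mem y)).1]
      simp) hη x
    rw [Matrix.sub_apply, map_sub, show Ld η ((1 : Matrix E E (PR (Fin 3) E)) r c) = 0 by
      rw [Matrix.one_apply]; split_ifs <;> simp, sub_zero] at this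
    exact this
  rw [map_der_mul, map_add, map_mul, map_mul, H.df, H.f_star, ← mul_assoc, ← add_mul] at h1
  have h2 := congrArg (· * star (em x (gf gD true))) h1
  simp only [mul_assoc, (Unitary.mem_iff.1 (H.f_mem x)).2, mul_one, zero_mul] at h2
  exact eq_neg_of_add_eq_zero_left h2

omit [DecidableEq B] in
lemma HD.th_eq (H : HD blk z gD) (x : GG blk (kap z)) (η : Fin 3 → Matrix E E ℂ) :
    th gD x η = star (x.1 1 : Matrix E E ℂ) * (x.1 2 * η 1 * star (x.1 2 : Matrix E E ℂ)
        - η 1 + η 2) * x.1 1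
      + star (x.1 1 : Matrix E E ℂ) * x.1 2 * x.1 1 * dm x (gD false) η
        * star (em x (gf gD true)) := by
  rw [← H.f_star, th_apply, gθ]
  have e1 := (Unitary.mem_iff.1 (H.h2 x)).1
  have e2 : ∀ M, (x.1 1 : Matrix E E ℂ) * (star (x.1 1 : Matrix E E ℂ) * M) = M := fun M => by
    rw [← mul_assoc, (Unitary.mem_iff.1 (x.1 1).2).2, one_mul]
  have e3 : ∀ M, (x.1 2 : Matrix E E ℂ) * (star (x.1 2 : Matrix E E ℂ) * M) = M := fun M => by
    rw [← mul_assoc, (Unitary.mem_iff.1 (x.1 2).2).2, one_mul]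
  have e4 : ∀ M, star (em x (gD true)) * (em x (gD true) * M) = M := fun M => by
    rw [← mul_assoc, e1, one_mul]
  simp only [gf, map_der_mul, Ld_gX_true, Ld_gX_false, map_mul, map_add, map_neg, em_gX, em_cM,
    H.h1, dm_apply, if_true, Bool.false_eq_true, if_false, add_mul, mul_add, sub_mul, mul_sub,
    neg_mul, mul_assoc, e2, e3, e4]
  abel

omit [DecidableEq B] in
lemma HD.dm_congr (H : HD blk z gD) (x : GG blk (kap z)) {η ζ : Fin 3 → Matrix E E ℂ}
    (h : η 0 = ζ 0) : dm x (gD false) η = dm x (gD false) ζ := by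
  rw [← sub_eq_zero, ← map_sub, dm_apply, H.h0 _ (by simp [h]), map_zero]

omit [DecidableEq B] in
lemma HD.mc (H : HD blk z gD) (x : GG blk (kap z)) {η ζ : Fin 3 → Matrix E E ℂ}
    (hη : InLie blk (kap z) η) (hζ : InLie blk (kap z) ζ) :
    em x ((gθ gD η).map (Ld ζ)) - em x ((gθ gD ζ).map (Ld η))
      = (th gD x ζ * th gD x η - th gD x η * th gD x ζ) + th gD x (η * ζ - ζ * η) := by
  have e1 : em x (((gf gD true).map (Ld η)).map (Ld ζ))
      - em x (((gf gD true).map (Ld ζ)).map (Ld η))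
      = em x ((gf gD true).map (Ld (η * ζ - ζ * η))) := by
    rw [← map_sub]
    congr 1
    ext1 r c
    exact Ld_bracket ζ η _
  have e2 : ∀ M, em x (gf gD true) * (star (em x (gf gD true)) * M) = M := fun M => by
    rw [← mul_assoc, (Unitary.mem_iff.1 (H.f_mem x)).2, one_mul]
  rw [th_apply gD x (η * ζ - ζ * η)]
  simp only [gθ, map_der_mul, map_add, map_mul, H.df' x hη, H.df' x hζ, H.df x η, H.df x ζ, ← e1,
    mul_neg, mul_assoc, e2, sub_mul]
  abel

/-- structure functions of the frame -/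
noncomputable def Cf (h : Matrix E E ℂ) (η ζ : Fin 3 → Matrix E E ℂ) : Matrix E E ℂ :=
  -(η * ζ - ζ * η) 0 + (η * ζ - ζ * η) 2
    + (h * (η * ζ - ζ * η) 1 * star h - (η * ζ - ζ * η) 1)

omit [DecidableEq E] in
lemma Cf_anti (h : Matrix E E ℂ) (η ζ : Fin 3 → Matrix E E ℂ) : Cf h η ζ = -Cf h ζ η := by
  simp only [Cf, Pi.sub_apply, mul_sub, sub_mul]
  abel

omit [DecidableEq B] in
lemma HD.th_Cf (H : HD blk z gD) (x : GG blk (kap z)) (a b : Matrix E E ℂ) :
    th gD x (fr z (Cf (x.1 2) (fr z a) (fr z b))) = th gD x (fr z a * fr z b - fr z b * fr z a) := by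
  have h1 : (x.1 2 : Matrix E E ℂ) * P0 z = P0 z := (x.2 2).2
  have h2 : star (x.1 2 : Matrix E E ℂ) * P0 z = P0 z := ((GG blk (kap z)).inv_mem x.2 2).2
  have h3 : P0 z * (x.1 2 : Matrix E E ℂ) = P0 z := by simpa [star_P0] using congrArg star h2
  have h4 : P0 z * star (x.1 2 : Matrix E E ℂ) = P0 z := by simpa [star_P0] using congrArg star h1
  set ω := fr z a * fr z b - fr z b * fr z a with hω
  set N := (x.1 2 : Matrix E E ℂ) * ω 1 * star (x.1 2 : Matrix E E ℂ) - ω 1 with hN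
  have w0 : P1 z * ω 0 = 0 ∧ ω 0 * P1 z = 0 ∧ P0 z * ω 0 * P0 z = ω 0 := by
    simp [hω, fr0, mul_assoc, mul_sub, sub_mul, P0_P0, P0_P1, P0_P0', P1_P0']
  have w2 : P0 z * ω 2 = 0 ∧ ω 2 * P0 z = 0 ∧ P1 z * ω 2 * P1 z = ω 2 := by
    simp [hω, fr2, mul_assoc, mul_sub, sub_mul, P1_P1, P1_P0, P0_P1', P1_P1']
  have w1 : P0 z * ω 1 = ω 1 * P0 z := by
    simp [hω, fr1, mul_assoc, mul_sub, sub_mul, mul_add, add_mul, P0_P0, P1_P0, P0_P0', P0_P1',
      P1_P0', P1_P1']
  have n1 : P0 z * N = 0 := by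
    rw [hN, mul_sub, ← mul_assoc, ← mul_assoc, h3, w1, mul_assoc, h4, sub_self]
  have n2 : N * P0 z = 0 := by
    rw [hN, sub_mul, mul_assoc, h2, mul_assoc, ← w1, ← mul_assoc, h1, sub_self]
  have n3 : P1 z * N * P1 z = N := by
    rw [show P1 z = 1 - P0 z by rw [← P0_add_P1 (z := z)]; simp]
    simp [mul_sub, sub_mul, n1, n2]
  have c : Cf (x.1 2) (fr z a) (fr z b) = -ω 0 + ω 2 + N := rfl
  have c0 : fr z (Cf (x.1 2) (fr z a) (fr z b)) 0 = ω 0 := by
    simp [c, fr0, mul_add, n1, w2.1, w0.2.2]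
  have c1 : fr z (Cf (x.1 2) (fr z a) (fr z b)) 1 = 0 := by
    simp [c, fr1, mul_add, add_mul, n1, n2, w2.1, w2.2.1, w0.1, w0.2.1, mul_assoc]
  have c2 : fr z (Cf (x.1 2) (fr z a) (fr z b)) 2 = ω 2 + N := by
    simp [c, fr2, mul_add, add_mul, n3, w0.1, w2.2.2]
  rw [H.th_eq, H.th_eq, H.dm_congr x c0, c1, c2, ← hN]
  simp [add_comm]

omit [DecidableEq B] in
lemma Cf_pat (x : GG blk (kap z)) {a b : Matrix E E ℂ} (ha : a ∈ Pat blk) (hb : b ∈ Pat blk) :
    Cf (x.1 2) (fr z a) (fr z b) ∈ Pat blk := by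
  have : ∀ i, (fr z a * fr z b - fr z b * fr z a) i ∈ Pat blk := fun i =>
    sub_mem (mul_mem (fr_lie ha i).1 (fr_lie hb i).1) (mul_mem (fr_lie hb i).1 (fr_lie ha i).1)
  exact add_mem (add_mem (neg_mem (this 0)) (this 2)) (sub_mem (mul_mem (mul_mem (x.2 2).1 (this 1))
    (star_mem_Pat (x.2 2).1)) (this 1))

lemma sum_Cf (x : GG blk (kap z)) (a : Matrix E E ℂ) :
    ∑ b : Pt blk, co blk (Cf (x.1 2) (fr z (bas b)) (fr z a)) b = 0 := by
  have h1 : (x.1 2 : Matrix E E ℂ) * P0 z = P0 z := (x.2 2).2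
  have h2 : star (x.1 2 : Matrix E E ℂ) * P0 z = P0 z := ((GG blk (kap z)).inv_mem x.2 2).2
  have h3 : P0 z * (x.1 2 : Matrix E E ℂ) = P0 z := by simpa [star_P0] using congrArg star h2
  have h4 : P0 z * star (x.1 2 : Matrix E E ℂ) = P0 z := by simpa [star_P0] using congrArg star h1
  have key : ∀ b : Pt blk, co blk (Cf (x.1 2) (fr z (bas b)) (fr z a)) b
      = (if z b.1.1 ∧ z b.1.2 then fr z a 0 b.1.2 b.1.2 - fr z a 0 b.1.1 b.1.1 else 0)
        + (if ¬z b.1.1 ∧ ¬z b.1.2 then fr z a 2 b.1.2 b.1.2 - fr z a 2 b.1.1 b.1.1 else 0) := by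
    rintro ⟨⟨r, c⟩, hrc⟩
    set ω := fr z (bas ⟨(r, c), hrc⟩) * fr z a - fr z a * fr z (bas ⟨(r, c), hrc⟩) with hω
    set N := (x.1 2 : Matrix E E ℂ) * ω 1 * star (x.1 2 : Matrix E E ℂ) - ω 1 with hN
    have w1 : P0 z * ω 1 = ω 1 * P0 z := by
      simp [hω, fr1, mul_assoc, mul_sub, sub_mul, mul_add, add_mul, P0_P0, P1_P0, P0_P0', P0_P1',
        P1_P0', P1_P1']
    have n1 : P0 z * N = 0 := by
      rw [hN, mul_sub, ← mul_assoc, ← mul_assoc, h3, w1, mul_assoc, h4, sub_self]
    have n2 : N * P0 z = 0 := by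
      rw [hN, sub_mul, mul_assoc, h2, mul_assoc, ← w1, ← mul_assoc, h1, sub_self]
    have b0 : fr z (bas ⟨(r, c), hrc⟩) 0
        = (if z r ∧ z c then -1 else 0 : ℂ) • Matrix.single r c 1 := by
      ext p q
      simp only [fr0, bas, P0, Matrix.neg_apply, Matrix.mul_diagonal, Matrix.diagonal_mul,
        Matrix.smul_apply, Matrix.single_apply]
      split_ifs <;> simp_all
    have b2 : fr z (bas ⟨(r, c), hrc⟩) 2
        = (if ¬z r ∧ ¬z c then 1 else 0 : ℂ) • Matrix.single r c 1 := by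
      ext p q
      simp only [fr2, bas, P1, Matrix.mul_diagonal, Matrix.diagonal_mul,
        Matrix.smul_apply, Matrix.single_apply]
      split_ifs <;> simp_all
    have n3 : N r c = 0 := by
      by_cases hr : z r
      · simpa [P0, hr] using congrFun (congrFun n1 r) c
      by_cases hc : z c
      · simpa [P0, hc] using congrFun (congrFun n2 r) c
      have b1 : fr z (bas ⟨(r, c), hrc⟩) 1 = 0 := by
        ext p q
        simp only [fr1, bas, P0, P1, Matrix.neg_apply, Matrix.add_apply, Matrix.mul_diagonal,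
          Matrix.diagonal_mul, Matrix.single_apply]
        split_ifs <;> simp_all
      simp [hN, hω, b1]
    change (-ω 0 + ω 2 + N) r c = _
    simp only [Matrix.add_apply, n3, hω, Pi.sub_apply, Pi.mul_apply, b0, b2]
    split_ifs <;> simp <;> ring
  rw [Finset.sum_congr rfl fun b _ => key b]
  refine sum_antisymm _ fun b => ?_
  simp only [sw, Equiv.coe_fn_mk, and_comm (a := z b.1.2), and_comm (a := ¬z b.1.2)]
  split_ifs <;> ring

/-- the Piola identity -/
theorem HD.piola (H : HD blk z gD) {A : Matrix E E ℂ} (hA : A ∈ Pat blk) (φ : PR (Fin 3) E)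
    (l : GG blk (kap z) → Matrix E E ℂ →ₗ[ℂ] ℂ)
    (hl : ∀ x η, InLie blk (kap z) η → evG x (Ld η φ) = l x (th gD x η)) :
    ∫ x, l x A * Jac gD x ∂(mu blk (kap z)) = 0 := by
  let gΘ : Matrix (Pt blk) (Pt blk) (PR (Fin 3) E) :=
    Matrix.of fun r c => co blk (gθ gD (fr z (bas c))) r
  let gJ : Pt blk → PR (Fin 3) E := fun a => (gΘ.updateCol a (co blk (cM A))).det
  have hΘ : ∀ x : GG blk (kap z), (evG x).mapMatrix gΘ = mat blk (th gD x ∘ₗ fr z) := by
    intro x
    ext r c
    simp only [mat, Matrix.of_apply, LinearMap.comp_apply, th_apply]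
    rfl
  have hcol : ∀ (x : GG blk (kap z)) a, (mat blk (th gD x ∘ₗ fr z)).col a
      = co blk (th gD x (fr z (bas a))) := fun x a => rfl
  have hup : ∀ (x : GG blk (kap z)) (M : Matrix (Pt blk) (Pt blk) (PR (Fin 3) E)) a v,
      (evG x).mapMatrix (M.updateCol a v)
        = ((evG x).mapMatrix M).updateCol a fun r => evG x (v r) := by
    intro x M a v
    ext r c
    simp only [AlgHom.mapMatrix_apply, Matrix.map_apply, Matrix.updateCol_apply]
    split_ifs <;> rfl
  have hA' : ∀ x : GG blk (kap z), (fun r => evG x (co blk (cM A) r)) = co blk A := by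
    intro x; funext r
    exact congrFun (congrFun (em_cM x A) r.1.1) r.1.2
  have hJ : ∀ (x : GG blk (kap z)) a,
      evG x (gJ a) = (mat blk (th gD x ∘ₗ fr z)).cramer (co blk A) a := by
    intro x a
    rw [AlgHom.map_det, hup, hΘ, hA', Matrix.cramer_apply]
  have h1 : ∀ x : GG blk (kap z), ∑ a, evG x (Ld (fr z (bas a)) (gJ a)) = 0 := by
    intro x
    rw [← piola_pt (mat blk (th gD x ∘ₗ fr z)) (co blk A)
      (fun a b => co blk (em x ((gθ gD (fr z (bas b))).map (Ld (fr z (bas a))))))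
      (fun a b => co blk (Cf (x.1 2) (fr z (bas b)) (fr z (bas a))))
      (fun a => mat blk (LinearMap.mulLeft ℂ (th gD x (fr z (bas a)))
        - LinearMap.mulRight ℂ (th gD x (fr z (bas a)))))
      (-mat blk (LinearMap.mulLeft ℂ A - LinearMap.mulRight ℂ A))]
    · refine Finset.sum_congr rfl fun a _ => ?_
      rw [der_det, map_sum]
      refine Finset.sum_congr rfl fun b _ => ?_
      rw [AlgHom.map_det, hup, hup, hΘ, hA']
      split_ifs with h
      · subst h
        refine Matrix.det_eq_zero_of_column_eq_zero b fun r => ?_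
        rw [Matrix.updateCol_self, Matrix.updateCol_self]
        have := congrFun (congrFun (map_der_cM (Ld (fr z (bas b))) A) r.1.1) r.1.2
        rw [Matrix.map_apply] at this
        rw [co, this]
        exact map_zero _
      · congr 2
        funext r
        rw [Matrix.updateCol_ne h]
        rfl
    · intro a b
      rw [hcol, mat_mulVec _ (H.th_pat x (fr_lie (bas_mem b))),
        mat_mulVec _ (Cf_pat x (bas_mem b) (bas_mem a)), LinearMap.comp_apply, H.th_Cf]
      exact congrArg (co blk) (H.mc x (fr_lie (bas_mem b)) (fr_lie (bas_mem a)))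
    · intro a; exact trace_mat_ad _
    · rw [Matrix.trace_neg, trace_mat_ad, neg_zero]
    · intro a
      rw [hcol, Matrix.neg_mulVec, mat_mulVec _ hA, mat_mulVec _ (H.th_pat x (fr_lie (bas_mem a)))]
      funext r
      simp [co]
    · intro a b
      rw [Cf_anti]; rfl
    · intro a; exact sum_Cf x _
  have h2 : ∀ x : GG blk (kap z),
      ∑ a, evG x (Ld (fr z (bas a)) (φ * gJ a)) = l x A * Jac gD x := by
    intro x
    simp only [Derivation.leibniz, smul_eq_mul, map_add, map_mul, Finset.sum_add_distrib,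
      ← Finset.mul_sum, h1, mul_zero, zero_add, hJ, fun a => hl x _ (fr_lie (bas_mem (blk := blk) a))]
    have e1 : ∑ a, (mat blk (th gD x ∘ₗ fr z)).cramer (co blk A) a • th gD x (fr z (bas a))
        = Jac gD x • A := by
      have p1 : ∑ a, (mat blk (th gD x ∘ₗ fr z)).cramer (co blk A) a • th gD x (fr z (bas a))
          ∈ Pat blk := Subalgebra.sum_mem _ fun a _ =>
        Subalgebra.smul_mem _ (H.th_pat x (fr_lie (bas_mem a))) _
      rw [← sum_co_bas p1, ← sum_co_bas (Subalgebra.smul_mem _ hA _)]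
      congr 1
      funext c
      congr 1
      have := congrFun (Matrix.mulVec_cramer (mat blk (th gD x ∘ₗ fr z)) (co blk A)) c
      refine Eq.trans ?_ this
      simp [co, Matrix.sum_apply, Matrix.mulVec, dotProduct, mat, mul_comm]
    have := congrArg (l x) e1
    simpa [mul_comm] using this
  rw [← funext h2, integral_finsetSum _ fun a _ => integrable_of_cont _ (continuous_evG _)]
  exact Finset.sum_eq_zero fun a _ => integral_Ld _ (fr_lie (bas_mem a))

end Crest.Agent.R174
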