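import Crest.Agent.R174.Core

set_option autoImplicit false

namespace Crest.Agent.R174
open Equiv Monoid

lemma exists_right_inv {m n : ℕ} (E : Matrix (Fin m) (Fin n) ℤ)
    (h : (Matrix.of fun i j => (E i j : ℚ)).rank = m) :
    ∃ (B : Matrix (Fin n) (Fin m) ℤ) (d : ℕ), 0 < d ∧
      ∀ i l, ∑ j, E i j * B j l = if i = l then (d : ℤ) else 0 := by
  set A : Matrix (Fin m) (Fin n) ℚ := Matrix.of fun i j => (E i j : ℚ) with hA
  have hs : LinearMap.range A.mulVecLin = ⊤ := by
    apply Submodule.eq_top_of_finrank_eq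
    rw [Matrix.rank] at h
    simp [h]
  choose R hR using fun l : Fin m => LinearMap.range_eq_top.1 hs (Pi.single l 1)
  set d : ℕ := ∏ l, ∏ j, (R l j).den with hd
  have hdv : ∀ l j, ∃ b : ℤ, (b : ℚ) = d * R l j := by
    intro l j
    have : (R l j).den ∣ d :=
      (Finset.dvd_prod_of_mem (fun j => (R l j).den) (Finset.mem_univ j)).trans
        (Finset.dvd_prod_of_mem (fun l => ∏ j, (R l j).den) (Finset.mem_univ l))
    obtain ⟨k, hk⟩ := this
    refine ⟨k * (R l j).num, ?_⟩
    rw [hk]; push_cast
    rw [← Rat.mul_den_eq_num]; ring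
  choose b hb using hdv
  refine ⟨fun j l => b l j, d, Finset.prod_pos fun l _ => Finset.prod_pos fun j _ => (R l j).pos,
    fun i l => ?_⟩
  have := congrFun (hR l) i
  simp only [Matrix.mulVecLin_apply, Matrix.mulVec, dotProduct, hA, Matrix.of_apply,
    Pi.single_apply] at this
  apply Int.cast_injective (α := ℚ)
  push_cast
  simp only [hb, mul_left_comm _ (d : ℚ), ← Finset.mul_sum, this]
  split_ifs <;> simp

/-- embedding into a permutation group -/
def lam (G : Type*) [Group G] : G →* Perm (G × Bool) :=
  MonoidHom.mk' (fun g => Equiv.prodCongr (Equiv.mulLeft g) (Equiv.refl Bool))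
    (fun a b => by ext ⟨x, y⟩ <;> simp [mul_assoc])

theorem main {G : Type*} [Group G] (n m : ℕ)
    (hDL : ∀ (n l : ℕ) (W : Fin m → Fin l → Perm (G × Bool) ⊕ (Fin m × Bool)),
      DLStmt (Option ((Fin m × Bool × Fin n) × Option Bool × Fin l))
      (Option (Fin m × Bool)) (Fin m) (Fin n) {s : Fin m × Fin l // (W s.1 s.2).isRight})
    (w : Fin m → Coprod G (FreeGroup (Fin n)))
    (hrank : (Matrix.of fun (i : Fin m) (j : Fin n) =>
      (((expo G (Fin n) (w i)).toAdd j : ℤ) : ℚ)).rank = m) :
    Function.Injective ((QuotientGroup.mk' (Subgroup.normalClosure (Set.range w))).comp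
      (Coprod.inl : G →* Coprod G (FreeGroup (Fin n)))) := by
  classical
  rw [injective_iff_map_eq_one]
  intro g hg
  by_contra hg1
  rw [MonoidHom.comp_apply, QuotientGroup.mk'_apply, QuotientGroup.eq_one_iff] at hg
  obtain ⟨B, d, hd, hB⟩ := exists_right_inv (fun i j => (expo G (Fin n) (w i)).toAdd j) hrank
  let σ : FreeGroup (Fin n) →* FreeGroup (Fin m) :=
    FreeGroup.lift fun j => (List.ofFn fun l => FreeGroup.of l ^ B j l).prod
  let ψ : Coprod G (FreeGroup (Fin n)) →* Coprod (Perm (G × Bool)) (FreeGroup (Fin m)) :=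
    Coprod.map (lam G) σ
  have hψ : ∀ x l, (expo _ _ (ψ x)).toAdd l = ∑ j, (expo G (Fin n) x).toAdd j * B j l := by
    intro x l
    obtain ⟨a, rfl⟩ := exists_word x
    induction a with
    | nil => simp
    | cons y a ih =>
      simp only [List.map_cons, List.prod_cons, map_mul, toAdd_mul, Pi.add_apply, ih, add_mul,
        Finset.sum_add_distrib, expo_ev]
      congr 1
      have : ∀ j, (expo _ _ (ψ (Coprod.inr (FreeGroup.of j)))).toAdd l = B j l := by
        intro j
        simp only [ψ, σ, Coprod.map_apply_inr, FreeGroup.lift_apply_of, map_list_prod,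
          List.map_ofFn, List.prod_ofFn, toAdd_prod, Finset.sum_apply]
        simp [expo, Pi.single_apply]
      rcases y with g | ⟨j, _ | _⟩
      · simp [ev, ex, ψ, expo]
      · simp only [ev, map_inv, toAdd_inv, Pi.neg_apply, this]
        simp [ex]
      · simp [ev, ex, this]
  let s : Perm (G × Bool) := swap (1, false) (1, true)
  have e1 : lam G g * s * (lam G g)⁻¹ = swap (g, false) (g, true) := by
    rw [← swap_apply_apply]; simp [lam]
  refine core hDL (fun i => ψ (w i)) d hd (fun i l => by rw [hψ, hB])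
    (swap (g, false) (g, true) * s) ?_ ?_ ?_
  · have : s * swap (g, false) (g, true) = swap (g, false) (g, true) * s := by
      rw [mul_swap_eq_swap_mul, swap_apply_of_ne_of_ne (by simp [hg1]) (by simp),
        swap_apply_of_ne_of_ne (by simp) (by simp [hg1])]
    rw [mul_assoc, ← mul_assoc s, this, mul_assoc, swap_mul_self, mul_one, swap_mul_self]
  · intro h
    have := congrArg (fun σ : Perm (G × Bool) => σ (1, false)) h
    simp only [s, Perm.mul_apply, swap_apply_left, Perm.one_apply] at this
    rw [swap_apply_of_ne_of_ne (by simp) (by simp [Ne.symm hg1])] at this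
    simp at this
  · have h1 : ψ (Coprod.inl g) ∈ Subgroup.normalClosure (Set.range fun i => ψ (w i)) := by
      have : Subgroup.normalClosure (Set.range w)
          ≤ (Subgroup.normalClosure (Set.range fun i => ψ (w i))).comap ψ :=
        Subgroup.normalClosure_le_normal (by
          rintro _ ⟨i, rfl⟩
          exact Subgroup.subset_normalClosure ⟨i, rfl⟩)
      exact this hg
    have h2 := Subgroup.mul_mem _ h1 (Subgroup.normalClosure_normal.conj_mem _
      (Subgroup.inv_mem _ h1) (Coprod.inl s))
    rw [← map_inv (Coprod.inl : Perm (G × Bool) →* Coprod _ (FreeGroup (Fin m))) s, show s⁻¹ = s from swap_inv _ _] at h2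
    rw [← e1]
    simpa [ψ, mul_assoc] using h2

end Crest.Agent.R174
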