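import Crest.Agent.R174.Model

set_option autoImplicit false

namespace Crest.Agent.R174
open Matrix

variable {E B T Pr : Type*} [Fintype E] [DecidableEq E] [DecidableEq B] [Fintype T] [DecidableEq T]
  [Fintype Pr] [DecidableEq Pr] {n : ℕ}
  {blk : E → B} {z : E → Prop} [DecidablePred z] (M : MD blk z T Pr n)

lemma geom_ne_zero {μ : ℂ} (hμ : ‖μ‖ = 1) {s : ℝ} (hs : s ∈ Set.Icc (0 : ℝ) 1) (n : ℕ)
    (h : μ ^ (n + 1) = 1 → μ = 1) : ∑ a : Fin (n + 1), ((s : ℂ) * μ) ^ a.1 ≠ 0 := by
  intro h0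
  rw [Fin.sum_univ_eq_sum_range (fun a => ((s : ℂ) * μ) ^ a)] at h0
  have h1 := mul_neg_geom_sum ((s : ℂ) * μ) (n + 1)
  rw [h0, mul_zero, eq_comm, sub_eq_zero] at h1
  have h2 := congrArg norm h1
  rw [norm_one, norm_pow, norm_mul, hμ, mul_one, Complex.norm_real, Real.norm_of_nonneg hs.1,
    eq_comm, pow_eq_one_iff_of_nonneg hs.1 (by omega)] at h2
  subst h2
  rw [Complex.ofReal_one, one_mul] at h1 h0
  rw [h h1.symm] at h0
  simp only [one_pow, Finset.sum_const, Finset.card_range, nsmul_eq_mul, mul_one] at h0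
  exact Nat.cast_ne_zero.2 (Nat.succ_ne_zero n) h0

namespace MD

/-- derivative of the block diagonal matrix -/
noncomputable def Lam (u : Matrix E E ℂ) : Matrix E E ℂ →ₗ[ℂ] Matrix E E ℂ :=
  ∑ s, if sg s then LinearMap.mulLeftRight ℂ (M.Bh s * star u * P0 z, P0 z * u * star (M.Bh s))
    else -LinearMap.mulLeftRight ℂ (M.Bh s * P0 z, P0 z * star (M.Bh s))

omit [DecidableEq B] in
lemma Lam_apply (u ξ : Matrix E E ℂ) : M.Lam u ξ = ∑ s, M.Bh s *
    (if sg s then star u * (P0 z * ξ * P0 z) * u else -(P0 z * ξ * P0 z)) * star (M.Bh s) := by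
  rw [Lam, LinearMap.sum_apply]
  refine Finset.sum_congr rfl fun s _ => ?_
  split_ifs <;> simp [mul_assoc]

omit [DecidableEq B] in
lemma dm_Dn (x : GG blk (kap z)) (ξ : Matrix E E ℂ) :
    dm x (M.gD false) (fr z ξ) * M.Dn (x.1 0) = M.Lam (x.1 0) ξ := by
  rw [dm_apply, M.map_gD, M.Lam_apply, map_sum, Finset.sum_mul]
  refine Finset.sum_congr rfl fun s _ => ?_
  have := M.Bh_mon 1 (σ := 1) (fun _ => rfl) (M.sg_comm (x.2 0).1 (u_comm x)) s
  rw [Equiv.Perm.one_apply] at this
  have e : ∀ N, (x.1 0 : Matrix E E ℂ) * (star (x.1 0 : Matrix E E ℂ) * N) = N := fun N => by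
    rw [← mul_assoc, (Unitary.mem_iff.1 (x.1 0).2).2, one_mul]
  simp only [map_mul, em_cM, mul_assoc, Dn, this]
  cases sg s <;> simp [em_cM, em_gX, fr0, mul_assoc, e]

theorem jac_pos {c : E → ℂ} (hc : ∀ x, star (c x) * c x = 1) (hinj : Function.Injective c)
    (x : GG blk (kap z)) (hx : em x (gf M.gD true) = M.V0 c) : 0 < (Jac M.gD x).re := by
  obtain ⟨u, hu⟩ : ∃ u : Matrix E E ℂ, u = x.1 0 := ⟨_, rfl⟩
  obtain ⟨γ, hγ⟩ : ∃ u : Matrix E E ℂ, u = x.1 1 := ⟨_, rfl⟩
  obtain ⟨h, hh⟩ : ∃ u : Matrix E E ℂ, u = x.1 2 := ⟨_, rfl⟩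
  have u0 : u ∈ unitary (Matrix E E ℂ) := hu ▸ (x.1 0).2
  have γ0 : γ ∈ unitary (Matrix E E ℂ) := hγ ▸ (x.1 1).2
  have h0 : h ∈ unitary (Matrix E E ℂ) := hh ▸ (x.1 2).2
  have u1 : u ∈ Pat blk := hu ▸ (x.2 0).1
  have γ1 : γ ∈ Pat blk := hγ ▸ (x.2 1).1
  have h1 : h ∈ Pat blk := hh ▸ (x.2 2).1
  have u2 : Commute u (P0 z) := hu ▸ u_comm x
  have u3 : u * P1 z = P1 z := hu ▸ (x.2 0).2
  have h2 : h * P0 z = P0 z := hh ▸ (x.2 2).2
  have h3 : star h * P0 z = P0 z := hh ▸ ((GG blk (kap z)).inv_mem x.2 2).2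
  have h4 : P0 z * h = P0 z := by simpa [star_P0] using congrArg star h3
  have γa := (Unitary.mem_iff.1 γ0).1
  have γb := (Unitary.mem_iff.1 γ0).2
  have D0 := M.Dn_mem u0 u1 u2
  have hG : M.V0 c * M.Dn u = star γ * h * γ := by
    rw [← hx, M.hd.f_eq, M.em_gD, ← hu, ← hγ, ← hh, mul_assoc, (Unitary.mem_iff.1 D0).1, mul_one]
  have hth : ∀ ξ, th M.gD x (fr z ξ) = star γ * ((P0 z * ξ * P1 z + P1 z * ξ * P0 z)
      - h * (P0 z * ξ * P1 z + P1 z * ξ * P0 z) * star h + P1 z * ξ * P1 z
      + h * γ * M.Lam u ξ * star γ * star h) * γ := by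
    intro ξ
    rw [M.hd.th_eq, M.hd.f_eq, M.em_gD, hu, ← M.dm_Dn, ← hu, ← hγ, ← hh, fr1, fr2]
    simp only [star_mul, star_star, mul_add, add_mul, mul_neg, neg_mul, mul_sub, sub_mul, mul_assoc]
    abel
  set Y := star γ * P0 z with hY
  have hYf : M.V0 c * M.Dn u * Y = Y := by
    rw [hG, hY, mul_assoc, ← mul_assoc γ, γb, one_mul, mul_assoc, h2]
  obtain ⟨f1, f2, f3, f4⟩ := M.fixed u0 u1 u2 c hYf
  set y := P0 z * Y with hy
  have y1 : P0 z * y = y := P0_P0' _
  have y2 : y * P0 z = y := by rw [hy, hY, mul_assoc, mul_assoc, P0_P0]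
  have y3 : P1 z * y = 0 := P1_P0' _
  have y4 : y * P1 z = 0 := by rw [← y2, mul_assoc, P0_P1, mul_zero]
  have y3' : star y * P1 z = 0 := by simpa [star_P1] using congrArg star y3
  have y4' : P1 z * star y = 0 := by simpa [star_P1] using congrArg star y4
  have y1' : star y * P0 z = star y := by simpa [star_P0] using congrArg star y1
  set d : ℂ := ((n + 1 : ℕ) : ℂ) with hd
  have d0 : d ≠ 0 := Nat.cast_ne_zero.2 (Nat.succ_ne_zero n)
  set r : ℝ := Real.sqrt (n + 1) with hr
  have r1 : (r : ℂ) * r = d := by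
    have : r * r = n + 1 := Real.mul_self_sqrt (by positivity)
    rw [hd]; exact_mod_cast this
  have y5 : d • (star y * y) = P0 z := by
    have : star Y * Y = P0 z := by
      rw [hY, star_mul, star_star, star_P0, mul_assoc, ← mul_assoc γ, γb, one_mul, P0_P0]
    rw [f3, star_mul, mul_assoc, ← mul_assoc (star (M.Xi u)), M.Xi_star_Xi u0 u1 u2,
      smul_mul_assoc, y1, mul_smul_comm] at this
    exact this
  set w₀ := (r : ℂ) • y + P1 z with hw₀
  have w1 : star w₀ * w₀ = 1 := by
    simp only [hw₀, star_add, star_smul, star_P1, add_mul, mul_add, smul_mul_assoc, mul_smul_comm,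
      y3, y3', P1_P1, smul_smul, Complex.star_def, Complex.conj_ofReal, smul_zero, add_zero,
      zero_add, r1, y5, P0_add_P1]
  have w2 : w₀ * star w₀ = 1 := mul_eq_one_comm.1 w1
  have y6 : d • (y * star y) = P0 z := by
    simp only [hw₀, star_add, star_smul, star_P1, add_mul, mul_add, smul_mul_assoc, mul_smul_comm,
      y4, y4', P1_P1, smul_smul, Complex.star_def, Complex.conj_ofReal, smul_zero, add_zero,
      zero_add, r1] at w2
    rw [← P0_add_P1 (z := z)] at w2
    exact add_right_cancel w2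
  have c1 : Matrix.diagonal c * u ^ (n + 1) * P0 z = P0 z := by
    rw [← y6, mul_smul_comm, ← mul_assoc, f4]
  -- `u` is diagonal
  have c2 : u ^ (n + 1) * P0 z = Matrix.diagonal fun a => if z a then star (c a) else 0 := by
    have : Matrix.diagonal (fun a => star (c a)) * Matrix.diagonal c = 1 := by
      rw [Matrix.diagonal_mul_diagonal, ← Matrix.diagonal_one]; congr 1; funext a; exact hc a
    rw [← one_mul (u ^ (n + 1) * P0 z), ← this, mul_assoc, ← mul_assoc (Matrix.diagonal c), c1, P0,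
      Matrix.diagonal_mul_diagonal]
    congr 1; funext a; split_ifs <;> simp
  have cne : ∀ a, c a ≠ 0 := fun a h => by simpa [h] using hc a
  have ud : u = Matrix.diagonal fun a => u a a := by
    have hcm : Commute u (u ^ (n + 1) * P0 z) := ((Commute.refl u).pow_right _).mul_right u2
    rw [c2] at hcm
    ext a b
    by_cases hab : a = b
    · simp [hab]
    rw [Matrix.diagonal_apply_ne _ hab]
    have e1 := congrFun (congrFun hcm.eq a) b
    have e2 := congrFun (congrFun u3 a) b
    simp only [Matrix.mul_diagonal, Matrix.diagonal_mul, P1,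
      Matrix.diagonal_apply_ne _ hab] at e1 e2
    by_cases hb : z b
    · by_cases ha : z a
      · simp only [ha, hb, if_true, mul_comm (u a b)] at e1
        by_contra hne
        exact hab (hinj (star_injective (mul_right_cancel₀ hne e1))).symm
      · simpa [ha, hb, cne b] using e1
    · simpa [hb] using e2
  have un : ∀ a, star (u a a) * u a a = 1 := by
    intro a
    have := congrFun (congrFun (Unitary.mem_iff.1 u0).1 a) a
    rw [ud] at this
    simpa [Matrix.star_eq_conjTranspose] using this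
  have up : ∀ a, z a → u a a ^ (n + 1) = star (c a) := by
    intro a ha
    have := congrFun (congrFun c2 a) a
    rw [ud] at this
    simpa [Matrix.diagonal_pow, P0, ha] using this
  -- exact kernel
  have hker : ∀ s ∈ Set.Icc (0 : ℝ) 1, ∀ ζ : Matrix E E ℂ, P0 z * ζ = 0 → ζ = (s : ℂ) • (h * ζ) →
      ζ = 0 := by
    intro s hs ζ z1 z2
    rcases hs.2.lt_or_eq with hs1 | rfl
    · have e1 : (nsq ζ : ℂ) = s * s * nsq ζ := by
        rw [← trace_star_mul]
        conv_lhs => rw [z2]
        rw [star_smul, smul_mul_smul_comm, star_mul, mul_assoc, ← mul_assoc (star h),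
          (Unitary.mem_iff.1 h0).1, one_mul]
        simp
      have e2 : nsq ζ = s * s * nsq ζ := by exact_mod_cast e1
      have := nsq_nonneg ζ
      have e3 : s * s < 1 := by nlinarith [hs.1]
      exact nsq_eq_zero (by nlinarith)
    · rw [Complex.ofReal_one, one_smul] at z2
      have e1 : M.V0 c * M.Dn u * (star γ * ζ - d • (Y * (star y * (star γ * ζ))))
          = star γ * ζ - d • (Y * (star y * (star γ * ζ))) := by
        rw [mul_sub, mul_smul_comm, ← mul_assoc _ Y, hYf, hG, mul_assoc, ← mul_assoc γ, γb, one_mul,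
          mul_assoc, ← z2]
      have e2 := (M.fixed u0 u1 u2 c e1).2.2.1
      rw [mul_sub (P0 z), mul_smul_comm, ← mul_assoc _ Y, ← hy, ← mul_assoc y,
        ← smul_mul_assoc d (y * star y), y6,
        sub_self, mul_zero, sub_eq_zero] at e2
      have e3 := congrArg (γ * ·) e2
      simp only [hY, mul_smul_comm, ← mul_assoc, γb, one_mul] at e3
      rw [e3] at z1 ⊢
      simpa only [mul_smul_comm, mul_assoc, P0_P0'] using z1
  set w := u * w₀ with hw
  have w0 : w ∈ unitary (Matrix E E ℂ) := mul_mem u0 (Unitary.mem_iff.2 ⟨w1, w2⟩)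
  have w3 : w ∈ Pat blk := mul_mem u1 (add_mem (Subalgebra.smul_mem _
    (mul_mem P0_mem (mul_mem (star_mem_Pat γ1) P0_mem)) _) P1_mem)
  have w4 : P0 z * w₀ = (r : ℂ) • y := by simp [hw₀, mul_add, y1, P0_P1]
  have w5 : Commute w (P0 z) := u2.mul_left (by
    change _ = _
    simp [hw₀, mul_add, add_mul, y1, y2, P0_P1, P1_P0])
  obtain ⟨A, a1, a2, a3⟩ := exists_log w0
  obtain ⟨A', b1, b2, b3⟩ := exists_log γ0
  have a4 : A ∈ Pat blk := mem_Pat_iff_commute.2 fun φ => a3 _ (mem_Pat_iff_commute.1 w3 φ)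
  have b4 : A' ∈ Pat blk := mem_Pat_iff_commute.2 fun φ => b3 _ (mem_Pat_iff_commute.1 γ1 φ)
  let K : ℝ → Matrix E E ℂ →ₗ[ℂ] Matrix E E ℂ := fun s => ∑ a : Fin (n + 1),
    (s : ℂ) ^ a.1 • LinearMap.mulLeftRight ℂ (star (u ^ a.1) * P0 z, P0 z * u ^ a.1)
  have hK : ∀ s ξ, K s ξ = ∑ a : Fin (n + 1),
      (s : ℂ) ^ a.1 • (star (u ^ a.1) * (P0 z * ξ * P0 z) * u ^ a.1) := by
    intro s ξ; simp [K, mul_assoc]
  let Φ : Matrix E E ℂ →ₗ[ℂ] Matrix E E ℂ :=
    LinearMap.mulLeftRight ℂ (h * γ, star γ * star h) ∘ₗ M.Lam u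
  have hΦ : ∀ ξ, Φ ξ = h * γ * M.Lam u ξ * star γ * star h := fun ξ => by simp [Φ, mul_assoc]
  let O : Matrix E E ℂ →ₗ[ℂ] Matrix E E ℂ :=
    LinearMap.mulLeftRight ℂ (P0 z, P1 z) + LinearMap.mulLeftRight ℂ (P1 z, P0 z)
  have hO : ∀ ξ, O ξ = P0 z * ξ * P1 z + P1 z * ξ * P0 z := fun ξ => by simp [O]
  let Θ : ℝ → Matrix E E ℂ →ₗ[ℂ] Matrix E E ℂ := fun s =>
    LinearMap.mulLeftRight ℂ (star (xp A' s), xp A' s) ∘ₗ
      (((1 - s + s / (n + 1) : ℝ) : ℂ) • (LinearMap.mulLeftRight ℂ (star (xp A s), xp A s) ∘ₗ K s)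
        + (s : ℂ) • (Φ - LinearMap.mulLeftRight ℂ (P0 z, P0 z) ∘ₗ Φ)
        + (O - (s : ℂ) • (LinearMap.mulLeftRight ℂ (h, star h) ∘ₗ O))
        + LinearMap.mulLeftRight ℂ (P1 z, P1 z))
  have hΘ : ∀ s ξ, Θ s ξ = star (xp A' s) *
      (((1 - s + s / (n + 1) : ℝ) : ℂ) • (star (xp A s) * K s ξ * xp A s)
        + (s : ℂ) • (Φ ξ - P0 z * Φ ξ * P0 z) + (O ξ - (s : ℂ) • (h * O ξ * star h))
        + P1 z * ξ * P1 z) * xp A' s := fun s ξ => rfl
  have p0 : ∀ ξ ∈ Pat blk, P0 z * ξ * P0 z ∈ Pat blk := fun ξ hξ =>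
    mul_mem (mul_mem P0_mem hξ) P0_mem
  have h00 : ∀ ξ ∈ Pat blk, P0 z * Φ ξ * P0 z = d⁻¹ • (star w * K 1 ξ * w) := by
    intro ξ hξ
    have cξ : ∀ j, Commute (P0 z * ξ * P0 z) (M.Pj j) := M.comm _ (p0 ξ hξ) (by
      change _ = _
      simp only [mul_assoc, P0_P0, P0_P0'])
    have e1 : P0 z * Φ ξ * P0 z = star Y * M.Lam u ξ * Y := by
      rw [hΦ, hY, star_mul, star_star, star_P0]
      simp only [← mul_assoc, h4]
      simp only [mul_assoc, h3]
    have e2 : ∀ s N, star Y * (M.Bh s * N * star (M.Bh s)) * Y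
        = star (star (M.Bh s) * Y) * N * (star (M.Bh s) * Y) := by
      intro s N; simp only [star_mul, star_star, mul_assoc]
    rw [e1, M.Lam_apply, Finset.mul_sum, Finset.sum_mul]
    simp only [e2, Fintype.sum_sum_type, f1, mul_zero, Finset.sum_const_zero, add_zero,
      Fintype.sum_prod_type, f2, sg, if_true]
    rw [hK, Finset.sum_comm, Finset.mul_sum, Finset.sum_mul, Finset.smul_sum]
    refine Finset.sum_congr rfl fun a _ => ?_
    have e3 : P0 z * (u ^ a.1 * w) = (r : ℂ) • (P0 z * (u * (u ^ a.1 * Y))) := by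
      rw [hw, ← mul_assoc (u ^ a.1), ← pow_succ, ← mul_assoc, ← (u2.pow_left _).eq, mul_assoc, w4,
        mul_smul_comm, hy, ← mul_assoc, (u2.pow_left _).eq, pow_succ']
      simp only [mul_assoc]
    have e4 : ∀ j, P0 z * (u * (u ^ a.1 * M.Pj j * Y))
        = M.Pj j * (P0 z * (u * (u ^ a.1 * Y))) := by
      intro j
      have : Commute (P0 z * u * u ^ a.1) (M.Pj j) :=
        ((M.comm _ P0_mem (Commute.refl _) j).mul_left (M.comm _ u1 u2 j)).mul_left
          ((M.comm _ u1 u2 j).pow_left _)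
      simp only [← mul_assoc]
      rw [this.eq]; simp only [← mul_assoc]
    set v := P0 z * (u * (u ^ a.1 * Y)) with hv
    have e5 : ∀ j, star (u ^ a.1 * M.Pj j * Y) * (star u * (P0 z * ξ * P0 z) * u) *
        (u ^ a.1 * M.Pj j * Y) = star v * ((P0 z * ξ * P0 z) * M.Pj j) * v := by
      intro j
      calc _ = star (P0 z * (u * (u ^ a.1 * M.Pj j * Y))) * (P0 z * ξ * P0 z) *
            (P0 z * (u * (u ^ a.1 * M.Pj j * Y))) := by
              simp only [star_mul, star_P0, mul_assoc, P0_P0']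
        _ = star v * (M.Pj j * (P0 z * ξ * P0 z) * M.Pj j) * v := by
              rw [e4, star_mul, M.star_Pj]; simp only [mul_assoc]
        _ = _ := by rw [← (cξ j).eq, mul_assoc _ (M.Pj j), M.Pj_Pj, if_pos rfl]
    simp only [e5, ← Finset.sum_mul, ← Finset.mul_sum, M.sum_Pj]
    calc _ = d⁻¹ • (star ((r : ℂ) • v) * ξ * ((r : ℂ) • v)) := by
          simp only [star_smul, smul_mul_assoc, mul_smul_comm, smul_smul, Complex.star_def,
            Complex.conj_ofReal, r1, inv_mul_cancel₀ d0, one_smul, hv, star_mul, star_P0,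
            mul_assoc, P0_P0']
      _ = _ := by
          rw [← e3]
          simp only [star_mul, star_P0, mul_assoc, Complex.ofReal_one, one_pow, one_smul]
  have hm : mat blk (th M.gD x ∘ₗ fr z) = mat blk (Θ 1) := by
    ext p q
    simp only [mat, Matrix.of_apply, LinearMap.comp_apply]
    congr 1
    rw [hth, hΘ, a2, b2, h00 _ (bas_mem q), hΦ, hO]
    congr 2
    simp only [hd, sub_self, zero_add, Complex.ofReal_one, one_smul]
    push_cast
    rw [one_div]
    abel
  rw [Jac, hm]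
  have Kp : ∀ s, ∀ ξ ∈ Pat blk, K s ξ ∈ Pat blk := fun s ξ hξ => by
    rw [hK]
    exact Subalgebra.sum_mem _ fun a _ => Subalgebra.smul_mem _
      (mul_mem (mul_mem (star_mem_Pat (pow_mem u1 _)) (p0 ξ hξ)) (pow_mem u1 _)) _
  have Φp : ∀ ξ, Φ ξ ∈ Pat blk := fun ξ => by
    rw [hΦ, M.Lam_apply]
    exact mul_mem (mul_mem (mul_mem (mul_mem h1 γ1) (Subalgebra.sum_mem _ fun s _ => M.pat s _))
      (star_mem_Pat γ1)) (star_mem_Pat h1)
  have Op : ∀ ξ ∈ Pat blk, O ξ ∈ Pat blk := fun ξ hξ => by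
    rw [hO]
    exact add_mem (mul_mem (mul_mem P0_mem hξ) P1_mem) (mul_mem (mul_mem P1_mem hξ) P0_mem)
  refine det_pos_of_homotopy Θ (fun ξ => ?_) (fun s ξ hξ => ?_) (fun s ξ => ?_)
    (fun s hs ξ _ hz => ?_) (fun ξ => ?_)
  · simp only [hΘ, hK]
    have := continuous_xp A
    have := continuous_xp A'
    fun_prop
  · rw [hΘ]
    exact mul_mem (mul_mem (star_mem_Pat (xp_mem_Pat b4 s)) (add_mem (add_mem (add_mem
      (Subalgebra.smul_mem _ (mul_mem (mul_mem (star_mem_Pat (xp_mem_Pat a4 s)) (Kp s ξ hξ))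
        (xp_mem_Pat a4 s)) _)
      (Subalgebra.smul_mem _ (sub_mem (Φp ξ) (p0 _ (Φp ξ))) _))
      (sub_mem (Op ξ hξ) (Subalgebra.smul_mem _ (mul_mem (mul_mem h1 (Op ξ hξ))
        (star_mem_Pat h1)) _))) (mul_mem (mul_mem P1_mem hξ) P1_mem))) (xp_mem_Pat b4 s)
  · have s1 : K s (star ξ) = star (K s ξ) := by
      simp only [hK, star_sum, star_smul, star_mul, star_star, star_P0, mul_assoc, star_pow,
        Complex.star_def, Complex.conj_ofReal]
    have s2 : Φ (star ξ) = star (Φ ξ) := by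
      simp only [hΦ, M.Lam_apply, star_sum, star_mul, star_star, mul_assoc]
      congr 3
      refine Finset.sum_congr rfl fun s _ => ?_
      split_ifs <;> simp only [star_mul, star_star, star_neg, star_P0, mul_assoc]
    have s3 : O (star ξ) = star (O ξ) := by
      simp only [hO, star_add, star_mul, star_P0, star_P1, mul_assoc]; abel
    simp only [hΘ, s1, s2, s3, star_mul, star_add, star_sub, star_smul, star_star, star_P0,
      star_P1, Complex.star_def, Complex.conj_ofReal, mul_assoc]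
  · have i1 : ∀ (g N : Matrix E E ℂ), g ∈ unitary (Matrix E E ℂ) → star g * N * g = 0 → N = 0 := by
      intro g N hg hN
      have := congrArg (fun X => g * X * star g) hN
      simpa only [← mul_assoc, (Unitary.mem_iff.1 hg).2, one_mul, mul_assoc N, mul_one, mul_zero,
        zero_mul, mul_assoc _ g (star g)] using this
    rw [hΘ] at hz
    replace hz := i1 _ _ (xp_mem_unitary b1 s) hz
    have h4' : ∀ N, P0 z * (h * N) = P0 z * N := fun N => by rw [← mul_assoc, h4]
    have cW : Commute (xp A s) (P0 z) := xp_commute (a3 _ w5) s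
    have cW' : Commute (star (xp A s)) (P0 z) := by simpa [star_P0] using cW.star_star
    have k0 : P0 z * K s ξ * P0 z = K s ξ := by
      rw [hK, Finset.mul_sum, Finset.sum_mul]
      refine Finset.sum_congr rfl fun a _ => ?_
      have q1 := (u2.pow_left a.1).eq
      have q2 : P0 z * star (u ^ a.1) = star (u ^ a.1) * P0 z := by
        simpa only [star_mul, star_P0] using congrArg star q1
      rw [mul_smul_comm, smul_mul_assoc, ← mul_assoc, ← mul_assoc, q2, mul_assoc _ (u ^ a.1), q1]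
      simp only [mul_assoc, P0_P0']
    have k1 : K s ξ = 0 := by
      have := congrArg (fun X => P0 z * X * P0 z) hz
      simp only [mul_add, add_mul, mul_sub, sub_mul, mul_smul_comm, smul_mul_assoc, hO,
        mul_assoc, P0_P0, P0_P0', P0_P1', P1_P0, h3, h4', mul_zero, sub_self, smul_zero,
        add_zero, zero_mul] at this
      have a0 : ((1 - s + s / (n + 1) : ℝ) : ℂ) ≠ 0 := by
        have : 0 < 1 - s + s / (n + 1) := by
          rcases hs.2.lt_or_eq with h1 | h1
          · have : 0 ≤ s / (n + 1) := div_nonneg hs.1 (by positivity)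
            linarith
          · rw [h1]; simp only [sub_self, zero_add]; positivity
        exact_mod_cast this.ne'
      rw [smul_eq_zero, cW.eq, ← mul_assoc (P0 z), ← cW'.eq] at this
      refine i1 _ _ (xp_mem_unitary a1 s) ?_
      rw [← k0]
      simpa only [mul_assoc] using this.resolve_left a0
    have k2 : P0 z * ξ * P0 z = 0 := by
      ext a b
      by_cases hab : z a ∧ z b
      · have := congrFun (congrFun ((hK s ξ).symm.trans k1) a) b
        rw [ud] at this
        simp only [Matrix.sum_apply, Matrix.smul_apply, Matrix.diagonal_pow,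
          Matrix.star_eq_conjTranspose, Matrix.diagonal_conjTranspose, Matrix.mul_diagonal,
          Matrix.diagonal_mul, Pi.pow_apply, Pi.star_apply, smul_eq_mul, star_pow,
          Matrix.zero_apply] at this
        have e1 : (∑ k : Fin (n + 1), ((s : ℂ) * (star (u a a) * u b b)) ^ k.1) *
            (P0 z * ξ * P0 z) a b = 0 := by
          rw [← this, Finset.sum_mul]
          exact Finset.sum_congr rfl fun k _ => by simp only [mul_pow]; ring
        refine (mul_eq_zero.1 e1).resolve_left (geom_ne_zero ?_ hs n fun h => ?_)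
        · have n1 : ∀ a, ‖u a a‖ = 1 := fun a => by
            have := congrArg norm (un a)
            rw [norm_mul, norm_star, norm_one] at this
            nlinarith [norm_nonneg (u a a)]
          rw [norm_mul, norm_star, n1, n1, mul_one]
        · rw [mul_pow, ← star_pow, up a hab.1, up b hab.2, star_star] at h
          have : c a = c b := by
            rw [← mul_one (c a), ← hc b, ← mul_assoc, h, one_mul]
          rw [hinj this]; exact un b
      · simp only [P0, Matrix.mul_diagonal, Matrix.diagonal_mul, Matrix.zero_apply]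
        by_cases ha : z a
        · rw [if_neg fun hb => hab ⟨ha, hb⟩, mul_zero]
        · rw [if_neg ha, zero_mul, zero_mul]
    have k3 : Φ ξ = 0 := by simp [hΦ, M.Lam_apply, k2]
    simp only [k1, k3, mul_zero, zero_mul, smul_zero, sub_self, zero_add, hO] at hz
    have k4 : P1 z * ξ * P0 z = 0 := by
      refine hker s hs _ (by simp only [mul_assoc, P0_P1']) ?_
      have := congrArg (· * P0 z) hz
      simpa only [add_mul, sub_mul, smul_mul_assoc, mul_assoc, P1_P0, P0_P0, h3, mul_zero,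
        zero_add, add_zero, zero_mul, sub_eq_zero] using this
    have k5 : P0 z * ξ * P1 z = 0 := by
      have := congrArg (fun X => star X * P0 z) hz
      simp only [star_add, star_sub, star_smul, star_mul, star_star, star_P0, star_P1,
        Complex.star_def, Complex.conj_ofReal, add_mul, sub_mul, smul_mul_assoc, mul_assoc, P1_P0,
        P0_P0, h3, mul_zero, add_zero, zero_mul, star_zero, sub_eq_zero] at this
      have e := hker s hs _ (P0_P1' _) this
      simpa only [star_mul, star_star, star_P0, star_P1, star_zero] using congrArg star e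
    simp only [k4, k5, add_zero, mul_zero, zero_mul, smul_zero, sub_self, zero_add] at hz
    rw [← one_mul ξ, ← mul_one (1 * ξ), ← P0_add_P1 (z := z)]
    simp only [add_mul, mul_add, k2, k4, k5, hz, add_zero]
  · rw [hΘ, hK, hO, Fin.sum_univ_succ]
    conv_rhs => rw [← one_mul ξ, ← mul_one (1 * ξ), ← P0_add_P1 (z := z)]
    simp [xp_zero, add_mul, mul_add]
    abel

end MD
end Crest.Agent.R174
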